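import Vale.Agent.Lib.P309.PotDefs

open MeasureTheory ProbabilityTheory

namespace Vale.Agent.P309

variable {Ω ι : Type*} [MeasurableSpace Ω] [MeasurableSpace ι] [MeasurableSingletonClass ι]

namespace PotEndsAux

omit [MeasurableSpace ι] [MeasurableSingletonClass ι] in
lemma cellMass_nonneg (μ : Measure Ω) (D : ℕ → Ω → ι) (p : Ω → ℝ) (hp0 : ∀ s, 0 ≤ p s)
    (x : ℕ) (i : ι) : 0 ≤ cellMass μ D p x i :=
  integral_nonneg (fun s => hp0 s)

lemma integrable_of_unit (μ : Measure Ω) [IsFiniteMeasure μ] (p : Ω → ℝ) (hp : Measurable p)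
    (hp0 : ∀ s, 0 ≤ p s) (hp1 : ∀ s, p s ≤ 1) : Integrable p μ := by
  refine Integrable.mono' (integrable_const (1 : ℝ)) hp.aestronglyMeasurable ?_
  refine Filter.Eventually.of_forall (fun s => ?_)
  rw [Real.norm_eq_abs, abs_of_nonneg (hp0 s)]
  exact hp1 s

omit [MeasurableSpace ι] [MeasurableSingletonClass ι] in
lemma cellMass_le_one (μ : Measure Ω) [IsProbabilityMeasure μ] (D : ℕ → Ω → ι) (p : Ω → ℝ)
    (hp : Measurable p) (hp0 : ∀ s, 0 ≤ p s) (hp1 : ∀ s, p s ≤ 1)
    (x : ℕ) (i : ι) : cellMass μ D p x i ≤ 1 := by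
  have hint := integrable_of_unit μ p hp hp0 hp1
  calc cellMass μ D p x i ≤ ∫ s, p s ∂μ :=
        setIntegral_le_integral hint (Filter.Eventually.of_forall hp0)
    _ ≤ ∫ _s, (1 : ℝ) ∂μ := integral_mono hint (integrable_const 1) hp1
    _ = 1 := by simp

lemma measurable_cellMass (μ : Measure Ω) (D : ℕ → Ω → ι) (hD : ∀ x, Measurable (D x))
    [Countable ι] (p : Ω → ℝ) (x : ℕ) :
    Measurable (fun s => cellMass μ D p x (D x s)) := by
  have h : Measurable (cellMass μ D p x) := measurable_of_countable _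
  exact h.comp (hD x)

lemma measurable_kerF (μ : Measure Ω) (D : ℕ → Ω → ι) (hD : ∀ x, Measurable (D x))
    [Countable ι] (c : ℕ → ℝ) (cs : ℝ) (n : ℕ) (p : Ω → ℝ) (hp : Measurable p) :
    Measurable (kerF μ D c cs n p) := by
  unfold kerF
  refine Measurable.add ?_ (hp.const_mul cs)
  refine Finset.measurable_sum _ (fun x _ => ?_)
  exact (measurable_cellMass μ D hD p x).const_mul _

omit [MeasurableSpace ι] [MeasurableSingletonClass ι] in
lemma kerF_nonneg (μ : Measure Ω) (D : ℕ → Ω → ι) (c : ℕ → ℝ) (cs : ℝ) (n : ℕ)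
    (hc : ∀ x, 0 < c x) (hcs : 0 < cs) (p : Ω → ℝ) (hp0 : ∀ s, 0 ≤ p s) (s : Ω) :
    cs * p s ≤ kerF μ D c cs n p s ∧ 0 ≤ kerF μ D c cs n p s := by
  have h1 : 0 ≤ ∑ x ∈ Finset.range (n + 1), c x * cellMass μ D p x (D x s) :=
    Finset.sum_nonneg (fun x _ => mul_nonneg (hc x).le (cellMass_nonneg μ D p hp0 x _))
  have h2 : 0 ≤ cs * p s := mul_nonneg hcs.le (hp0 s)
  unfold kerF
  constructor <;> linarith

omit [MeasurableSpace ι] [MeasurableSingletonClass ι] in
lemma kerF_le (μ : Measure Ω) [IsProbabilityMeasure μ] (D : ℕ → Ω → ι) (c : ℕ → ℝ) (cs : ℝ)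
    (n : ℕ) (hc : ∀ x, 0 < c x) (hcs : 0 < cs) (p : Ω → ℝ) (hp : Measurable p)
    (hp0 : ∀ s, 0 ≤ p s) (hp1 : ∀ s, p s ≤ 1) (s : Ω) :
    kerF μ D c cs n p s ≤ ∑ x ∈ Finset.range (n + 1), c x + cs := by
  unfold kerF
  refine add_le_add (Finset.sum_le_sum (fun x _ => ?_)) ?_
  · calc c x * cellMass μ D p x (D x s) ≤ c x * 1 :=
          mul_le_mul_of_nonneg_left (cellMass_le_one μ D p hp hp0 hp1 x _) (hc x).le
      _ = c x := mul_one _
  · calc cs * p s ≤ cs * 1 := mul_le_mul_of_nonneg_left (hp1 s) hcs.le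
      _ = cs := mul_one _

lemma integrable_kerF (μ : Measure Ω) [IsProbabilityMeasure μ] (D : ℕ → Ω → ι)
    (hD : ∀ x, Measurable (D x)) [Countable ι] (c : ℕ → ℝ) (cs : ℝ)
    (n : ℕ) (hc : ∀ x, 0 < c x) (hcs : 0 < cs) (p : Ω → ℝ) (hp : Measurable p)
    (hp0 : ∀ s, 0 ≤ p s) (hp1 : ∀ s, p s ≤ 1) : Integrable (kerF μ D c cs n p) μ := by
  refine Integrable.mono' (integrable_const (∑ x ∈ Finset.range (n + 1), c x + cs))
    (measurable_kerF μ D hD c cs n p hp).aestronglyMeasurable ?_
  refine Filter.Eventually.of_forall (fun s => ?_)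
  rw [Real.norm_eq_abs, abs_of_nonneg (kerF_nonneg μ D c cs n hc hcs p hp0 s).2]
  exact kerF_le μ D c cs n hc hcs p hp hp0 hp1 s

lemma integrable_log_eta (μ : Measure Ω) [IsProbabilityMeasure μ] (D : ℕ → Ω → ι)
    (hD : ∀ x, Measurable (D x)) [Countable ι] (c : ℕ → ℝ) (cs : ℝ)
    (n : ℕ) (hc : ∀ x, 0 < c x) (hcs : 0 < cs) (p : Ω → ℝ) (hp : Measurable p)
    (hp0 : ∀ s, 0 ≤ p s) (hp1 : ∀ s, p s ≤ 1) :
    Integrable (fun s => p s * Real.log (eta μ D c cs n p s)) μ := by
  set M : ℝ := ∑ x ∈ Finset.range (n + 1), c x + cs with hM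
  have hMpos : 0 < M := by
    have : 0 ≤ ∑ x ∈ Finset.range (n + 1), c x := Finset.sum_nonneg (fun x _ => (hc x).le)
    linarith
  have hmeas : Measurable (fun s => p s * Real.log (eta μ D c cs n p s)) := by
    refine hp.mul (Real.measurable_log.comp ?_)
    exact hp.div (measurable_kerF μ D hD c cs n p hp)
  refine Integrable.mono' (integrable_const (1 + |Real.log cs| + |Real.log M|))
    hmeas.aestronglyMeasurable ?_
  refine Filter.Eventually.of_forall (fun s => ?_)
  rw [Real.norm_eq_abs]
  rcases eq_or_lt_of_le (hp0 s) with h0 | hpos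
  · simp only [← h0, zero_mul, abs_zero]
    positivity
  · have hF := kerF_nonneg μ D c cs n hc hcs p hp0 s
    have hFle := kerF_le μ D c cs n hc hcs p hp hp0 hp1 s
    have hcp : 0 < cs * p s := mul_pos hcs hpos
    have hFpos : 0 < kerF μ D c cs n p s := lt_of_lt_of_le hcp hF.1
    have hlog : Real.log (eta μ D c cs n p s) = Real.log (p s) - Real.log (kerF μ D c cs n p s) := by
      unfold eta
      rw [Real.log_div hpos.ne' hFpos.ne']
    have h1 : Real.log (kerF μ D c cs n p s) ≤ Real.log M := Real.log_le_log hFpos hFle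
    have h2 : Real.log cs + Real.log (p s) ≤ Real.log (kerF μ D c cs n p s) := by
      rw [← Real.log_mul hcs.ne' hpos.ne']
      exact Real.log_le_log hcp hF.1
    have h3 : p s - 1 ≤ p s * Real.log (p s) := by
      have := Real.one_sub_inv_le_log_of_pos hpos
      have h4 := mul_le_mul_of_nonneg_left this hpos.le
      have h5 : p s * (1 - (p s)⁻¹) = p s - 1 := by
        field_simp
      linarith
    rw [hlog, abs_le]
    have ha1 : p s * Real.log M ≤ |Real.log M| := by
      calc p s * Real.log M ≤ p s * |Real.log M| :=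
            mul_le_mul_of_nonneg_left (le_abs_self _) hpos.le
        _ ≤ 1 * |Real.log M| := mul_le_mul_of_nonneg_right (hp1 s) (abs_nonneg _)
        _ = _ := one_mul _
    have ha2 : -(p s * Real.log cs) ≤ |Real.log cs| := by
      calc -(p s * Real.log cs) = p s * (- Real.log cs) := by ring
        _ ≤ p s * |Real.log cs| :=
            mul_le_mul_of_nonneg_left (neg_le_abs _) hpos.le
        _ ≤ 1 * |Real.log cs| := mul_le_mul_of_nonneg_right (hp1 s) (abs_nonneg _)
        _ = _ := one_mul _
    have hb1 : p s * Real.log (kerF μ D c cs n p s) ≤ p s * Real.log M :=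
      mul_le_mul_of_nonneg_left h1 hpos.le
    have hb2 : p s * (Real.log cs + Real.log (p s)) ≤ p s * Real.log (kerF μ D c cs n p s) :=
      mul_le_mul_of_nonneg_left h2 hpos.le
    have hM0 : 0 ≤ |Real.log M| := abs_nonneg _
    have hc0 : 0 ≤ |Real.log cs| := abs_nonneg _
    constructor
    · nlinarith
    · nlinarith

lemma setIntegral_cellMass_le (μ : Measure Ω) [IsProbabilityMeasure μ] (D : ℕ → Ω → ι)
    (hD : ∀ x, Measurable (D x)) [Countable ι] (p : Ω → ℝ) (hp : Measurable p)
    (hp0 : ∀ s, 0 ≤ p s) (hp1 : ∀ s, p s ≤ 1) (S : Set Ω) (hS : MeasurableSet S)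
    (x : ℕ) (b : ℝ) (hb : ∀ i, μ.real ({s | D x s = i} ∩ S) ≤ b) :
    ∫ s in S, cellMass μ D p x (D x s) ∂μ ≤ b * ∫ s, p s ∂μ := by
  have hint := integrable_of_unit μ p hp hp0 hp1
  -- the function of two variables
  set T : Set (Ω × Ω) := {z | D x z.2 = D x z.1} with hT
  have hTm : MeasurableSet T := by
    exact measurableSet_eq_fun ((hD x).comp measurable_snd)
      ((hD x).comp measurable_fst)
  set f : Ω → Ω → ℝ := fun s s' => T.indicator (fun z : Ω × Ω => p z.2) (s, s') with hf
  have hfm : Measurable (Function.uncurry f) := by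
    have : Function.uncurry f = T.indicator (fun z : Ω × Ω => p z.2) := by
      ext z; rfl
    rw [this]
    exact (hp.comp measurable_snd).indicator hTm
  have hfint : Integrable (Function.uncurry f) ((μ.restrict S).prod μ) := by
    refine Integrable.mono' (integrable_const (1 : ℝ)) hfm.aestronglyMeasurable ?_
    refine Filter.Eventually.of_forall (fun z => ?_)
    change ‖T.indicator (fun z : Ω × Ω => p z.2) (z.1, z.2)‖ ≤ 1
    by_cases hz : (z.1, z.2) ∈ T
    · rw [Set.indicator_of_mem hz, Real.norm_eq_abs, abs_of_nonneg (hp0 _)]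
      exact hp1 _
    · rw [Set.indicator_of_notMem hz]
      simp
  have h1 : ∀ s, cellMass μ D p x (D x s) = ∫ s', f s s' ∂μ := by
    intro s
    unfold cellMass
    rw [← integral_indicator (measurableSet_eq_fun (hD x) measurable_const)]
    refine integral_congr_ae (Filter.Eventually.of_forall (fun s' => ?_))
    by_cases h : D x s' = D x s
    · have h1 : s' ∈ {s' | D x s' = D x s} := h
      have h2 : (s, s') ∈ T := h
      change Set.indicator {s' | D x s' = D x s} p s' = T.indicator (fun z => p z.2) (s, s')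
      rw [Set.indicator_of_mem h1, Set.indicator_of_mem h2]
    · have h1 : s' ∉ {s' | D x s' = D x s} := h
      have h2 : (s, s') ∉ T := h
      change Set.indicator {s' | D x s' = D x s} p s' = T.indicator (fun z => p z.2) (s, s')
      rw [Set.indicator_of_notMem h1, Set.indicator_of_notMem h2]
  have h2 : ∀ s', ∫ s in S, f s s' ∂μ = μ.real ({s | D x s = D x s'} ∩ S) * p s' := by
    intro s'
    have hm : MeasurableSet {s | D x s = D x s'} :=
      measurableSet_eq_fun (hD x) measurable_const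
    have : (fun s => f s s') = Set.indicator {s | D x s = D x s'} (fun _ => p s') := by
      ext s
      by_cases h : D x s' = D x s
      · have h1 : s ∈ {s | D x s = D x s'} := h.symm
        have h2 : (s, s') ∈ T := h
        change T.indicator (fun z => p z.2) (s, s') = _
        rw [Set.indicator_of_mem h1, Set.indicator_of_mem h2]
      · have h1 : s ∉ {s | D x s = D x s'} := fun h' => h h'.symm
        have h2 : (s, s') ∉ T := h
        change T.indicator (fun z => p z.2) (s, s') = _
        rw [Set.indicator_of_notMem h1, Set.indicator_of_notMem h2]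
    rw [this, integral_indicator hm, Measure.restrict_restrict hm, setIntegral_const]
    simp [smul_eq_mul]
  calc ∫ s in S, cellMass μ D p x (D x s) ∂μ = ∫ s in S, ∫ s', f s s' ∂μ ∂μ := by
        simp_rw [h1]
    _ = ∫ s', ∫ s in S, f s s' ∂μ ∂μ := integral_integral_swap hfint
    _ = ∫ s', μ.real ({s | D x s = D x s'} ∩ S) * p s' ∂μ := by simp_rw [h2]
    _ ≤ ∫ s', b * p s' ∂μ := by
        refine integral_mono_of_nonneg ?_ (hint.const_mul b) ?_
        · exact Filter.Eventually.of_forall
            (fun s' => mul_nonneg measureReal_nonneg (hp0 s'))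
        · exact Filter.Eventually.of_forall
            (fun s' => mul_le_mul_of_nonneg_right (hb _) (hp0 s'))
    _ = b * ∫ s, p s ∂μ := integral_const_mul _ _

omit [MeasurableSpace Ω] in
lemma le_one_of_sum {V : Type*} [Fintype V] (p : V → Ω → ℝ)
    (hp0 : ∀ v s, 0 ≤ p v s) (hp1 : ∀ s, ∑ v, p v s = 1) (v : V) (s : Ω) : p v s ≤ 1 := by
  rw [← hp1 s]
  exact Finset.single_le_sum (fun w _ => hp0 w s) (Finset.mem_univ v)

lemma sum_integral_eq_one {V : Type*} [Fintype V] (μ : Measure Ω) [IsProbabilityMeasure μ]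
    (p : V → Ω → ℝ) (hp : ∀ v, Measurable (p v))
    (hp0 : ∀ v s, 0 ≤ p v s) (hp1 : ∀ s, ∑ v, p v s = 1) :
    ∑ v, ∫ s, p v s ∂μ = 1 := by
  rw [← integral_finsetSum _ (fun v _ => integrable_of_unit μ (p v) (hp v) (hp0 v)
    (le_one_of_sum p hp0 hp1 v))]
  simp [hp1]

end PotEndsAux

open PotEndsAux

/-- The potential of a family of constants is nonpositive. -/
theorem pot_init {V : Type*} [Fintype V] (μ : Measure Ω) [IsProbabilityMeasure μ]
    (D : ℕ → Ω → ι) (hD : ∀ x, Measurable (D x)) [Countable ι] (c : ℕ → ℝ) (cs : ℝ) (n : ℕ)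
    (hc : ∀ x, 0 < c x) (hcs : 0 < cs) (hc0 : c 0 = 1) (i₀ : ι) (hD0 : ∀ s, D 0 s = i₀)
    (a : V → ℝ) (ha0 : ∀ v, 0 ≤ a v) (ha1 : ∀ v, a v ≤ 1) :
    pot μ D c cs n (fun v _ => a v) ≤ 0 := by
  unfold pot
  refine Finset.sum_nonpos (fun v _ => integral_nonpos (fun s => ?_))
  change a v * Real.log (eta μ D c cs n (fun _ => a v) s) ≤ 0
  refine mul_nonpos_of_nonneg_of_nonpos (ha0 v) ?_
  have hF : a v ≤ kerF μ D c cs n (fun _ => a v) s := by
    unfold kerF
    have h0 : cellMass μ D (fun _ => a v) 0 (D 0 s) = a v := by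
      unfold cellMass
      have : {s' | D 0 s' = D 0 s} = Set.univ := by
        ext s'; simp [hD0]
      rw [this]
      simp
    have h1 : c 0 * cellMass μ D (fun _ => a v) 0 (D 0 s)
        ≤ ∑ x ∈ Finset.range (n + 1), c x * cellMass μ D (fun _ => a v) x (D x s) :=
      Finset.single_le_sum (f := fun x => c x * cellMass μ D (fun _ => a v) x (D x s))
        (fun x _ => mul_nonneg (hc x).le (cellMass_nonneg μ D _ (fun _ => ha0 v) x _))
        (Finset.mem_range.mpr (Nat.succ_pos n))
    rw [h0, hc0, one_mul] at h1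
    have h2 : 0 ≤ cs * a v := mul_nonneg hcs.le (ha0 v)
    linarith
  have heta0 : 0 ≤ eta μ D c cs n (fun _ => a v) s :=
    div_nonneg (ha0 v) (le_trans (ha0 v) hF)
  refine Real.log_nonpos heta0 ?_
  exact div_le_one_of_le₀ hF (le_trans (ha0 v) hF)

/-- Lower bound of the potential in terms of the probability of success. -/
theorem pot_lower {V : Type*} [Fintype V] (μ : Measure Ω) [IsProbabilityMeasure μ]
    (D : ℕ → Ω → ι) (hD : ∀ x, Measurable (D x)) [Countable ι] (c : ℕ → ℝ) (cs : ℝ) (n : ℕ)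
    (hc : ∀ x, 0 < c x) (hcs : 0 < cs) (p : V → Ω → ℝ) (hp : ∀ v, Measurable (p v))
    (hp0 : ∀ v s, 0 ≤ p v s) (hp1 : ∀ s, ∑ v, p v s = 1) (S : V → Set Ω)
    (hS : ∀ v, MeasurableSet (S v)) (A H : ℝ) (hA : 1 ≤ A) (hH : 0 < H)
    (hH1 : ∑ v, ∫ s, kerF μ D c cs n (p v) s ∂μ
      + A * ∑ v, ∫ s in S v, kerF μ D c cs n (p v) s ∂μ ≤ H) :
    (∑ v, ∫ s in S v, p v s ∂μ) * Real.log A - Real.log H ≤ pot μ D c cs n p := by
  have hle := le_one_of_sum p hp0 hp1
  have hpint : ∀ v, Integrable (p v) μ := fun v => integrable_of_unit μ (p v) (hp v) (hp0 v) (hle v)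
  have hFint : ∀ v, Integrable (kerF μ D c cs n (p v)) μ := fun v =>
    integrable_kerF μ D hD c cs n hc hcs (p v) (hp v) (hp0 v) (hle v)
  have hA0 : 0 < A := lt_of_lt_of_le one_pos hA
  -- pointwise bound
  have hpt : ∀ v s, (S v).indicator (p v) s * Real.log A
      - (kerF μ D c cs n (p v) s + A * (S v).indicator (kerF μ D c cs n (p v)) s) / H
      + p v s * (1 - Real.log H) ≤ p v s * Real.log (eta μ D c cs n (p v) s) := by
    intro v s
    obtain ⟨hF1, hF0⟩ := kerF_nonneg μ D c cs n hc hcs (p v) (hp0 v) s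
    have hi0 : 0 ≤ (S v).indicator (kerF μ D c cs n (p v)) s :=
      Set.indicator_nonneg (fun t _ => (kerF_nonneg μ D c cs n hc hcs (p v) (hp0 v) t).2) s
    rcases eq_or_lt_of_le (hp0 v s) with h0 | hpos
    · have hz : (S v).indicator (p v) s = 0 := by
        by_cases hs : s ∈ S v
        · rw [Set.indicator_of_mem hs]; exact h0.symm
        · rw [Set.indicator_of_notMem hs]
      rw [hz, ← h0]
      have : 0 ≤ (kerF μ D c cs n (p v) s + A * (S v).indicator (kerF μ D c cs n (p v)) s) / H :=
        div_nonneg (add_nonneg hF0 (mul_nonneg hA0.le hi0)) hH.le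
      simp only [zero_mul, zero_sub, add_zero]
      linarith
    · have hFpos : 0 < kerF μ D c cs n (p v) s := lt_of_lt_of_le (mul_pos hcs hpos) hF1
      -- g = 1 + A on the set, and 1 outside
      have key : ∀ g : ℝ, 0 < g → p v s * Real.log g
          - g * kerF μ D c cs n (p v) s / H + p v s * (1 - Real.log H)
          ≤ p v s * Real.log (eta μ D c cs n (p v) s) := by
        intro g hg
        have hy : 0 < g * kerF μ D c cs n (p v) s / p v s / H := by positivity
        have h1 := Real.log_le_sub_one_of_pos hy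
        have h2 : Real.log (g * kerF μ D c cs n (p v) s / p v s / H)
            = Real.log g + Real.log (kerF μ D c cs n (p v) s) - Real.log (p v s) - Real.log H := by
          rw [Real.log_div (by positivity) hH.ne', Real.log_div (by positivity) hpos.ne',
            Real.log_mul hg.ne' hFpos.ne']
        have h3 : Real.log (eta μ D c cs n (p v) s)
            = Real.log (p v s) - Real.log (kerF μ D c cs n (p v) s) := by
          unfold eta
          rw [Real.log_div hpos.ne' hFpos.ne']
        have h4 : p v s * (g * kerF μ D c cs n (p v) s / p v s / H)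
            = g * kerF μ D c cs n (p v) s / H := by
          field_simp
        have h5 := mul_le_mul_of_nonneg_left h1 hpos.le
        have h6 : p v s * (g * kerF μ D c cs n (p v) s / p v s / H - 1)
            = g * kerF μ D c cs n (p v) s / H - p v s := by
          rw [mul_sub, h4, mul_one]
        rw [h2, h6] at h5
        rw [h3]
        nlinarith
      by_cases hs : s ∈ S v
      · rw [Set.indicator_of_mem hs, Set.indicator_of_mem hs]
        have hk := key (1 + A) (by linarith)
        have hlog : Real.log A ≤ Real.log (1 + A) := Real.log_le_log hA0 (by linarith)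
        have := mul_le_mul_of_nonneg_left hlog hpos.le
        have he : (1 + A) * kerF μ D c cs n (p v) s / H
            = (kerF μ D c cs n (p v) s + A * kerF μ D c cs n (p v) s) / H := by ring
        rw [he] at hk
        linarith
      · rw [Set.indicator_of_notMem hs, Set.indicator_of_notMem hs]
        have hk := key 1 one_pos
        simp only [Real.log_one, mul_zero, zero_sub, one_mul] at hk
        simp only [zero_mul, mul_zero, add_zero, zero_sub]
        exact hk
  -- integrate
  have hint : ∀ v, (∫ s in S v, p v s ∂μ) * Real.log A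
      - ((∫ s, kerF μ D c cs n (p v) s ∂μ) + A * ∫ s in S v, kerF μ D c cs n (p v) s ∂μ) / H
      + (∫ s, p v s ∂μ) * (1 - Real.log H)
      ≤ ∫ s, p v s * Real.log (eta μ D c cs n (p v) s) ∂μ := by
    intro v
    have i1 : Integrable (fun s => (S v).indicator (p v) s * Real.log A) μ :=
      ((hpint v).indicator (hS v)).mul_const _
    have i2 : Integrable (fun s => (kerF μ D c cs n (p v) s
        + A * (S v).indicator (kerF μ D c cs n (p v)) s) / H) μ :=
      ((hFint v).add (((hFint v).indicator (hS v)).const_mul A)).div_const H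
    have i3 : Integrable (fun s => p v s * (1 - Real.log H)) μ := (hpint v).mul_const _
    have hm := integral_mono ((i1.sub i2).add i3)
      (integrable_log_eta μ D hD c cs n hc hcs (p v) (hp v) (hp0 v) (hle v)) (hpt v)
    refine le_trans (le_of_eq ?_) hm
    have e1 : ∫ s, ((fun s => (S v).indicator (p v) s * Real.log A) - (fun s =>
        (kerF μ D c cs n (p v) s + A * (S v).indicator (kerF μ D c cs n (p v)) s) / H)
        + (fun s => p v s * (1 - Real.log H))) s ∂μ
        = (∫ s, (S v).indicator (p v) s * Real.log A ∂μ)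
          - (∫ s, (kerF μ D c cs n (p v) s
            + A * (S v).indicator (kerF μ D c cs n (p v)) s) / H ∂μ)
          + ∫ s, p v s * (1 - Real.log H) ∂μ := by
      rw [integral_add' (i1.sub i2) i3, integral_sub' i1 i2]
    rw [e1, integral_mul_const, integral_mul_const, integral_div,
      integral_add (hFint v) (((hFint v).indicator (hS v)).const_mul A),
      integral_const_mul, integral_indicator (hS v), integral_indicator (hS v)]
  have hsum := Finset.sum_le_sum (fun v (_ : v ∈ Finset.univ) => hint v)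
  rw [Finset.sum_add_distrib, Finset.sum_sub_distrib, ← Finset.sum_mul, ← Finset.sum_mul,
    sum_integral_eq_one μ p hp hp0 hp1, ← Finset.sum_div, Finset.sum_add_distrib,
    ← Finset.mul_sum] at hsum
  have hH2 : (∑ v, ∫ s, kerF μ D c cs n (p v) s ∂μ
      + A * ∑ v, ∫ s in S v, kerF μ D c cs n (p v) s ∂μ) / H ≤ 1 := by
    rw [div_le_one hH]; exact hH1
  unfold pot
  linarith

/-- Upper bound for the mass of the potential on a small set. -/
theorem kerF_set_le {V : Type*} [Fintype V] (μ : Measure Ω) [IsProbabilityMeasure μ]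
    (D : ℕ → Ω → ι) (hD : ∀ x, Measurable (D x)) [Countable ι] (c : ℕ → ℝ) (cs : ℝ) (n : ℕ)
    (hc : ∀ x, 0 < c x) (hcs : 0 < cs) (p : V → Ω → ℝ) (hp : ∀ v, Measurable (p v))
    (hp0 : ∀ v s, 0 ≤ p v s) (hp1 : ∀ s, ∑ v, p v s = 1) (S : V → Set Ω)
    (hS : ∀ v, MeasurableSet (S v)) (b : ℕ → ℝ)
    (hb : ∀ x ≤ n, ∀ v i, μ.real ({s | D x s = i} ∩ S v) ≤ b x) :
    ∑ v, ∫ s in S v, kerF μ D c cs n (p v) s ∂μ
      ≤ ∑ x ∈ Finset.range (n + 1), c x * b x + cs := by
  have hle := le_one_of_sum p hp0 hp1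
  have hpint : ∀ v, Integrable (p v) μ := fun v => integrable_of_unit μ (p v) (hp v) (hp0 v) (hle v)
  have hcm : ∀ v x, Integrable (fun s => c x * cellMass μ D (p v) x (D x s))
      (μ.restrict (S v)) := by
    intro v x
    refine Integrable.const_mul ?_ _
    refine integrable_of_unit (μ.restrict (S v)) _ (measurable_cellMass μ D hD (p v) x) ?_ ?_
    · exact fun s => cellMass_nonneg μ D (p v) (hp0 v) x _
    · exact fun s => cellMass_le_one μ D (p v) (hp v) (hp0 v) (hle v) x _
  have hv : ∀ v, ∫ s in S v, kerF μ D c cs n (p v) s ∂μ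
      ≤ ∑ x ∈ Finset.range (n + 1), c x * (b x * ∫ s, p v s ∂μ) + cs * ∫ s, p v s ∂μ := by
    intro v
    unfold kerF
    rw [integral_add (integrable_finset_sum _ (fun x _ => hcm v x))
      (((hpint v).integrableOn).const_mul cs), integral_finsetSum _ (fun x _ => hcm v x),
      integral_const_mul]
    refine add_le_add (Finset.sum_le_sum (fun x hx => ?_)) ?_
    · rw [integral_const_mul]
      refine mul_le_mul_of_nonneg_left ?_ (hc x).le
      exact setIntegral_cellMass_le μ D hD (p v) (hp v) (hp0 v) (hle v) (S v) (hS v) x (b x)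
        (fun i => hb x (Nat.lt_succ_iff.mp (Finset.mem_range.mp hx)) v i)
    · refine mul_le_mul_of_nonneg_left ?_ hcs.le
      exact setIntegral_le_integral (hpint v) (Filter.Eventually.of_forall (hp0 v))
  refine le_trans (Finset.sum_le_sum (fun v _ => hv v)) (le_of_eq ?_)
  rw [Finset.sum_add_distrib, ← Finset.mul_sum, sum_integral_eq_one μ p hp hp0 hp1, mul_one,
    Finset.sum_comm]
  congr 1
  refine Finset.sum_congr rfl (fun x _ => ?_)
  rw [← Finset.mul_sum, ← Finset.mul_sum, sum_integral_eq_one μ p hp hp0 hp1, mul_one]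

end Vale.Agent.P309
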