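import Vale.Agent.Lib.P309.PotDefs

open MeasureTheory ProbabilityTheory

namespace Vale.Agent.P309

variable {Ω ι : Type*} [MeasurableSpace Ω] [MeasurableSpace ι] [MeasurableSingletonClass ι]

section Basic

omit [MeasurableSpace ι] [MeasurableSingletonClass ι]

theorem cellMass_nonneg (μ : Measure Ω) (D : ℕ → Ω → ι) (p : Ω → ℝ) (hp0 : ∀ s, 0 ≤ p s)
    (x : ℕ) (i : ι) : 0 ≤ cellMass μ D p x i :=
  integral_nonneg fun s => hp0 s

theorem kerF_sum_nonneg (μ : Measure Ω) (D : ℕ → Ω → ι) (c : ℕ → ℝ) (n : ℕ)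
    (hc : ∀ x, 0 < c x) (p : Ω → ℝ) (hp0 : ∀ s, 0 ≤ p s) (s : Ω) :
    0 ≤ ∑ x ∈ Finset.range (n + 1), c x * cellMass μ D p x (D x s) :=
  Finset.sum_nonneg fun x _ => mul_nonneg (hc x).le (cellMass_nonneg μ D p hp0 x _)

theorem kerF_ge_star (μ : Measure Ω) (D : ℕ → Ω → ι) (c : ℕ → ℝ) (cs : ℝ) (n : ℕ)
    (hc : ∀ x, 0 < c x) (p : Ω → ℝ) (hp0 : ∀ s, 0 ≤ p s) (s : Ω) :
    cs * p s ≤ kerF μ D c cs n p s := by
  have := kerF_sum_nonneg μ D c n hc p hp0 s
  unfold kerF
  linarith

theorem kerF_nonneg (μ : Measure Ω) (D : ℕ → Ω → ι) (c : ℕ → ℝ) (cs : ℝ) (n : ℕ)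
    (hc : ∀ x, 0 < c x) (hcs : 0 < cs) (p : Ω → ℝ) (hp0 : ∀ s, 0 ≤ p s) (s : Ω) :
    0 ≤ kerF μ D c cs n p s :=
  (mul_nonneg hcs.le (hp0 s)).trans (kerF_ge_star μ D c cs n hc p hp0 s)

theorem kerF_ge_cell (μ : Measure Ω) (D : ℕ → Ω → ι) (c : ℕ → ℝ) (cs : ℝ) (n : ℕ)
    (hc : ∀ x, 0 < c x) (hcs : 0 < cs) (p : Ω → ℝ) (hp0 : ∀ s, 0 ≤ p s) (s : Ω) (x : ℕ)
    (hx : x ≤ n) : c x * cellMass μ D p x (D x s) ≤ kerF μ D c cs n p s := by
  have h1 := Finset.single_le_sum (s := Finset.range (n + 1))
    (f := fun x => c x * cellMass μ D p x (D x s))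
    (fun x _ => mul_nonneg (hc x).le (cellMass_nonneg μ D p hp0 x _))
    (Finset.mem_range.mpr (Nat.lt_succ_of_le hx))
  have h2 := mul_nonneg hcs.le (hp0 s)
  unfold kerF
  linarith

/-- `p = η F` everywhere. -/
theorem eta_mul_kerF (μ : Measure Ω) (D : ℕ → Ω → ι) (c : ℕ → ℝ) (cs : ℝ) (n : ℕ)
    (hc : ∀ x, 0 < c x) (hcs : 0 < cs) (p : Ω → ℝ) (hp0 : ∀ s, 0 ≤ p s) (s : Ω) :
    eta μ D c cs n p s * kerF μ D c cs n p s = p s := by
  unfold eta
  by_cases hF : kerF μ D c cs n p s = 0
  · have h1 := kerF_ge_star μ D c cs n hc p hp0 s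
    rw [hF] at h1
    have h2 : p s = 0 := by nlinarith [hp0 s]
    rw [h2, hF]
    simp
  · rw [div_mul_cancel₀ _ hF]

end Basic

theorem eta_nonneg (μ : Measure Ω) (D : ℕ → Ω → ι) (c : ℕ → ℝ) (cs : ℝ) (n : ℕ)
    (hc : ∀ x, 0 < c x) (hcs : 0 < cs) (p : Ω → ℝ) (hp0 : ∀ s, 0 ≤ p s) (s : Ω) :
    0 ≤ eta μ D c cs n p s :=
  div_nonneg (hp0 s) (kerF_nonneg μ D c cs n hc hcs p hp0 s)

theorem eta_le (μ : Measure Ω) (D : ℕ → Ω → ι) (c : ℕ → ℝ) (cs : ℝ) (n : ℕ)
    (hc : ∀ x, 0 < c x) (hcs : 0 < cs) (p : Ω → ℝ) (hp0 : ∀ s, 0 ≤ p s) (s : Ω) :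
    eta μ D c cs n p s ≤ 1 / cs := by
  unfold eta
  rcases (kerF_nonneg μ D c cs n hc hcs p hp0 s).eq_or_lt with h | h
  · rw [← h, div_zero]; positivity
  · rw [div_le_div_iff₀ h hcs]
    have := kerF_ge_star μ D c cs n hc p hp0 s
    linarith

theorem measurable_cellMass (μ : Measure Ω) (D : ℕ → Ω → ι) (hD : ∀ x, Measurable (D x))
    [Countable ι] (p : Ω → ℝ) (x : ℕ) : Measurable fun s => cellMass μ D p x (D x s) :=
  (measurable_of_countable (cellMass μ D p x)).comp (hD x)

theorem measurable_kerF (μ : Measure Ω) (D : ℕ → Ω → ι) (hD : ∀ x, Measurable (D x))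
    [Countable ι] (c : ℕ → ℝ) (cs : ℝ) (n : ℕ) (p : Ω → ℝ) (hp : Measurable p) :
    Measurable (kerF μ D c cs n p) := by
  unfold kerF
  exact (Finset.measurable_fun_sum _ fun x _ =>
    (measurable_cellMass μ D hD p x).const_mul _).add (hp.const_mul _)

theorem measurable_eta (μ : Measure Ω) (D : ℕ → Ω → ι) (hD : ∀ x, Measurable (D x))
    [Countable ι] (c : ℕ → ℝ) (cs : ℝ) (n : ℕ) (p : Ω → ℝ) (hp : Measurable p) :
    Measurable (eta μ D c cs n p) :=
  hp.div (measurable_kerF μ D hD c cs n p hp)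

theorem measurableSet_cell (D : ℕ → Ω → ι) (hD : ∀ x, Measurable (D x)) (x : ℕ) (i : ι) :
    MeasurableSet {s | D x s = i} := hD x (measurableSet_singleton i)

/-- bounded measurable functions are integrable -/
theorem integrable_of_bdd {μ : Measure Ω} [IsFiniteMeasure μ] {f : Ω → ℝ} (hf : Measurable f)
    {M : ℝ} (hM : ∀ s, |f s| ≤ M) : Integrable f μ :=
  (integrable_const M).mono' hf.aestronglyMeasurable (Filter.Eventually.of_forall hM)

/-- Frostman property of `eta`: every cell of level `x ≤ n` has mass at most `1 / c x`. -/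
theorem cell_eta_le (μ : Measure Ω) [IsProbabilityMeasure μ] (D : ℕ → Ω → ι)
    (hD : ∀ x, Measurable (D x)) [Countable ι] (c : ℕ → ℝ) (cs : ℝ) (n : ℕ)
    (hc : ∀ x, 0 < c x) (hcs : 0 < cs) (p : Ω → ℝ) (hp : Measurable p) (hp0 : ∀ s, 0 ≤ p s)
    (hp1 : ∀ s, p s ≤ 1) (x : ℕ) (hx : x ≤ n) (i : ι) :
    ∫ s in {s | D x s = i}, eta μ D c cs n p s ∂μ ≤ 1 / c x := by
  have hA := measurableSet_cell D hD x i
  have hpi : Integrable p μ := integrable_of_bdd hp (M := 1) fun s => by
    rw [abs_of_nonneg (hp0 s)]; exact hp1 s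
  have hei : Integrable (eta μ D c cs n p) μ :=
    integrable_of_bdd (measurable_eta μ D hD c cs n p hp) (M := 1 / cs) fun s => by
      rw [abs_of_nonneg (eta_nonneg μ D c cs n hc hcs p hp0 s)]
      exact eta_le μ D c cs n hc hcs p hp0 s
  rcases (cellMass_nonneg μ D p hp0 x i).eq_or_lt with h | h
  · have h0 : p =ᵐ[μ.restrict {s | D x s = i}] 0 :=
      (integral_eq_zero_iff_of_nonneg (fun s => hp0 s) hpi.integrableOn).mp h.symm
    have : ∫ s in {s | D x s = i}, eta μ D c cs n p s ∂μ = 0 := by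
      rw [integral_congr_ae (g := fun _ => (0 : ℝ)), integral_zero]
      filter_upwards [h0] with s hs
      unfold eta
      rw [hs]
      simp
    rw [this]
    exact (one_div_pos.mpr (hc x)).le
  · have hle : ∫ s in {s | D x s = i}, eta μ D c cs n p s ∂μ ≤
        ∫ s in {s | D x s = i}, (c x * cellMass μ D p x i)⁻¹ * p s ∂μ := by
      refine setIntegral_mono_on hei.integrableOn (hpi.const_mul _).integrableOn hA fun s hs => ?_
      have hs' : D x s = i := hs
      have h1 := kerF_ge_cell μ D c cs n hc hcs p hp0 s x hx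
      rw [hs'] at h1
      unfold eta
      rw [div_eq_inv_mul]
      exact mul_le_mul_of_nonneg_right (inv_anti₀ (mul_pos (hc x) h) h1) (hp0 s)
    refine hle.trans (le_of_eq ?_)
    rw [integral_const_mul]
    change (c x * cellMass μ D p x i)⁻¹ * cellMass μ D p x i = 1 / c x
    have := (hc x).ne'
    have := h.ne'
    field_simp

/-- decomposition of an integral over the cells of one level -/
theorem integral_cells (μ : Measure Ω) (D : ℕ → Ω → ι)
    (hD : ∀ x, Measurable (D x)) (I : Finset ι) (x : ℕ) (hI : ∀ᵐ s ∂μ, D x s ∈ I)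
    {f : Ω → ℝ} (hf : Integrable f μ) :
    ∫ s, f s ∂μ = ∑ i ∈ I, ∫ s in {s | D x s = i}, f s ∂μ := by
  classical
  have h1 : ∀ i ∈ I, ∫ s in {s | D x s = i}, f s ∂μ =
      ∫ s, Set.indicator {s | D x s = i} f s ∂μ := fun i _ =>
    (integral_indicator (measurableSet_cell D hD x i)).symm
  rw [Finset.sum_congr rfl h1, ← integral_finsetSum _ fun i _ =>
    hf.indicator (measurableSet_cell D hD x i)]
  refine integral_congr_ae ?_
  filter_upwards [hI] with s hs
  rw [Finset.sum_eq_single (D x s)]
  · simp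
  · intro i _ hi
    rw [Set.indicator_of_notMem]
    intro h
    exact hi h.symm
  · intro h
    exact absurd hs h

/-- integration against the tilted measure -/
theorem integral_tilt (μ : Measure Ω) (A : Set Ω) (η : Ω → ℝ) (hη : Measurable η)
    (hη0 : ∀ s, 0 ≤ η s) (g : Ω → ℝ) (hZ : 0 < ∫ s in A, η s ∂μ) :
    ∫ s, g s ∂(tilt μ A η) = (∫ s in A, η s ∂μ)⁻¹ * ∫ s in A, η s * g s ∂μ := by
  unfold tilt
  rw [integral_smul_measure, ENNReal.toReal_inv, ENNReal.toReal_ofReal hZ.le,
    integral_withDensity_eq_integral_toReal_smul (by fun_prop)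
      (Filter.Eventually.of_forall fun s => ENNReal.ofReal_lt_top), smul_eq_mul]
  congr 1
  refine integral_congr_ae (Filter.Eventually.of_forall fun s => ?_)
  simp only [smul_eq_mul]
  rw [ENNReal.toReal_ofReal (hη0 s)]

/-! ### elementary bounds for logarithms -/

theorem mul_log_bound {a : ℝ} (h0 : 0 ≤ a) (h1 : a ≤ 1) : |a * Real.log a| ≤ 1 := by
  rcases h0.eq_or_lt with h | h
  · rw [← h]; simp
  · have h2 := Real.one_sub_inv_le_log_of_pos h
    have h3 : a * (1 - a⁻¹) = a - 1 := by field_simp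
    have h4 := mul_le_mul_of_nonneg_left h2 h0
    have h5 := mul_nonpos_of_nonneg_of_nonpos h0 (Real.log_nonpos h0 h1)
    rw [abs_le]
    constructor <;> linarith

theorem mul_log_bound' {a M : ℝ} (h0 : 0 ≤ a) (h1 : a ≤ M) : |a * Real.log a| ≤ 1 + M ^ 2 := by
  rcases h0.eq_or_lt with h | h
  · rw [← h]; simp; positivity
  · have h2 := Real.one_sub_inv_le_log_of_pos h
    have h3 : a * (1 - a⁻¹) = a - 1 := by field_simp
    have h4 := mul_le_mul_of_nonneg_left h2 h0
    have h5 := mul_le_mul_of_nonneg_left (Real.log_le_sub_one_of_pos h) h0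
    have h6 : a * a ≤ M ^ 2 := by nlinarith
    rw [abs_le]
    constructor <;> nlinarith

/-- if `a / F ≤ e ≤ b` with `0 < a ≤ 1`, then `a |log e|` is bounded -/
theorem mul_log_bound₂ {a e F b : ℝ} (ha0 : 0 ≤ a) (ha1 : a ≤ 1) (hF : 0 < F) (hb : 0 < b)
    (h1 : 0 < a → a / F ≤ e) (h2 : e ≤ b) :
    |a * Real.log e| ≤ 1 + |Real.log F| + |Real.log b| := by
  rcases ha0.eq_or_lt with h | h
  · rw [← h]; simp; positivity
  · have hd : 0 < a / F := div_pos h hF
    have he : 0 < e := hd.trans_le (h1 h)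
    have h3 := Real.log_le_log hd (h1 h)
    have h4 := Real.log_le_log he h2
    rw [Real.log_div h.ne' hF.ne'] at h3
    have h5 := mul_le_mul_of_nonneg_left h3 ha0
    have h6 := mul_le_mul_of_nonneg_left h4 ha0
    have h7 := mul_log_bound ha0 ha1
    have h8 : |a * Real.log F| ≤ |Real.log F| := by
      rw [abs_mul, abs_of_nonneg ha0]
      exact mul_le_of_le_one_left (abs_nonneg _) ha1
    have h9 : |a * Real.log b| ≤ |Real.log b| := by
      rw [abs_mul, abs_of_nonneg ha0]
      exact mul_le_of_le_one_left (abs_nonneg _) ha1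
    rw [abs_le] at h7 h8 h9 ⊢
    constructor
    · rw [mul_sub] at h5
      have := abs_nonneg (Real.log b)
      linarith [h7.1, h8.2]
    · have := abs_nonneg (Real.log F)
      linarith [h9.2]

/-- `x log (u / x) ≤ ...`: the inequality `log t ≤ t / m - 1 + log m` -/
theorem log_le_div_add {t m : ℝ} (ht : 0 < t) (hm : 0 < m) :
    Real.log t ≤ t / m - 1 + Real.log m := by
  have h := Real.log_le_sub_one_of_pos (div_pos ht hm)
  rw [Real.log_div ht.ne' hm.ne'] at h
  linarith

/-! ### one cell -/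

/-- The main estimate on one cell. -/
theorem cell_step {V' : Type*} [Fintype V'] (μ : Measure Ω) [IsProbabilityMeasure μ]
    {A : Set Ω} (hA : MeasurableSet A) (η : Ω → ℝ) (hη : Measurable η) (hη0 : ∀ s, 0 ≤ η s)
    {b : ℝ} (hηb : ∀ s, η s ≤ b) (K : V' → Ω → ℝ) (hK : ∀ W, Measurable (K W))
    (hK0 : ∀ W s, 0 ≤ K W s) (hK1 : ∀ s, ∑ W, K W s = 1)
    (η' : V' → Ω → ℝ) (hη' : ∀ W, Measurable (η' W)) (hη'0 : ∀ W s, 0 ≤ η' W s)
    (hη'b : ∀ W s, η' W s ≤ b) (hpos : ∀ W s, 0 < η s * K W s → 0 < η' W s)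
    {c : ℝ} (hc : 0 < c) (hF : ∀ W, c * ∫ s in A, η' W s ∂μ ≤ 1)
    (hint : ∀ W, IntegrableOn (fun s => η s * K W s * Real.log (η' W s)) A μ)
    {B : ℝ} (hB : 0 < ∫ s in A, η s ∂μ →
      infoR (tilt μ A η) K ≤ B - Real.log (c * ∫ s in A, η s ∂μ)) :
    ∑ W, ∫ s in A, η s * K W s * Real.log (η' W s) ∂μ ≤
      (∫ s in A, η s ∂μ) * (B - 2 * Real.log (c * ∫ s in A, η s ∂μ)) +
        ∫ s in A, η s * Real.log (η s) ∂μ := by
  have hb0 : 0 ≤ b := by
    obtain ⟨s⟩ : Nonempty Ω := by
      by_contra h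
      rw [not_nonempty_iff] at h
      have h1 : μ Set.univ = 0 := by
        rw [Set.eq_empty_of_isEmpty Set.univ]; exact measure_empty
      rw [measure_univ] at h1
      exact one_ne_zero h1
    exact (hη0 s).trans (hηb s)
  have hKle : ∀ W s, K W s ≤ 1 := fun W s => by
    rw [← hK1 s]
    exact Finset.single_le_sum (f := fun W => K W s) (fun W _ => hK0 W s) (Finset.mem_univ W)
  have hηi : IntegrableOn η A μ := (integrable_of_bdd hη (M := b) fun s => by
    rw [abs_of_nonneg (hη0 s)]; exact hηb s).integrableOn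
  have hum : ∀ W, Measurable fun s => η s * K W s := fun W => hη.mul (hK W)
  have hu0 : ∀ W s, 0 ≤ η s * K W s := fun W s => mul_nonneg (hη0 s) (hK0 W s)
  have hub : ∀ W s, η s * K W s ≤ b := fun W s =>
    (mul_le_of_le_one_right (hη0 s) (hKle W s)).trans (hηb s)
  have hui : ∀ W, IntegrableOn (fun s => η s * K W s) A μ := fun W =>
    (integrable_of_bdd (hum W) (M := b) fun s => by
      rw [abs_of_nonneg (hu0 W s)]; exact hub W s).integrableOn
  have hη'i : ∀ W, IntegrableOn (η' W) A μ := fun W =>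
    (integrable_of_bdd (hη' W) (M := b) fun s => by
      rw [abs_of_nonneg (hη'0 W s)]; exact hη'b W s).integrableOn
  have hulog : ∀ W, IntegrableOn (fun s => η s * K W s * Real.log (η s * K W s)) A μ := fun W =>
    (integrable_of_bdd ((hum W).mul (Real.measurable_log.comp (hum W))) (M := 1 + b ^ 2) fun s =>
      mul_log_bound' (hu0 W s) (hub W s)).integrableOn
  have hηlog : IntegrableOn (fun s => η s * Real.log (η s)) A μ :=
    (integrable_of_bdd (hη.mul (Real.measurable_log.comp hη)) (M := 1 + b ^ 2) fun s =>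
      mul_log_bound' (hη0 s) (hηb s)).integrableOn
  have hKηlog : ∀ W, IntegrableOn (fun s => η s * K W s * Real.log (η s)) A μ := fun W =>
    (integrable_of_bdd ((hum W).mul (Real.measurable_log.comp hη)) (M := 1 + b ^ 2) fun s => by
      have h1 := mul_log_bound' (hη0 s) (hηb s)
      have e : η s * K W s * Real.log (η s) = K W s * (η s * Real.log (η s)) := by ring
      change |η s * K W s * Real.log (η s)| ≤ _
      rw [e, abs_mul, abs_of_nonneg (hK0 W s)]
      exact (mul_le_of_le_one_left (abs_nonneg _) (hKle W s)).trans h1).integrableOn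
  set Z : ℝ := ∫ s in A, η s ∂μ with hZ
  have hZ0 : 0 ≤ Z := integral_nonneg fun s => hη0 s
  rcases hZ0.eq_or_lt with hz | hz
  · -- the cell carries no mass
    have h0 : η =ᵐ[μ.restrict A] 0 :=
      (integral_eq_zero_iff_of_nonneg (fun s => hη0 s) hηi).mp hz.symm
    have h1 : ∀ W, ∫ s in A, η s * K W s * Real.log (η' W s) ∂μ = 0 := fun W => by
      rw [integral_congr_ae (g := fun _ => (0 : ℝ)), integral_zero]
      filter_upwards [h0] with s hs
      rw [hs]; simp
    have h2 : ∫ s in A, η s * Real.log (η s) ∂μ = 0 := by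
      rw [integral_congr_ae (g := fun _ => (0 : ℝ)), integral_zero]
      filter_upwards [h0] with s hs
      rw [hs]; simp
    rw [Finset.sum_congr rfl fun W _ => h1 W, h2, ← hz]
    simp
  · set j : V' → ℝ := fun W => ∫ s in A, η s * K W s ∂μ with hj
    have hj0 : ∀ W, 0 ≤ j W := fun W => integral_nonneg fun s => hu0 W s
    have hjz : ∀ W, j W = 0 → ∀ᵐ s ∂(μ.restrict A), η s * K W s = 0 := fun W h =>
      (integral_eq_zero_iff_of_nonneg (fun s => hu0 W s) (hui W)).mp h
    have hjsum : ∑ W, j W = Z := by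
      rw [hj, ← integral_finsetSum _ fun W _ => hui W]
      refine integral_congr_ae (Filter.Eventually.of_forall fun s => ?_)
      simp only
      rw [← Finset.mul_sum, hK1, mul_one]
    -- first comparison
    have hclaim : ∀ W, ∫ s in A, η s * K W s * Real.log (η' W s) ∂μ ≤
        ∫ s in A, (η s * K W s * Real.log (η s * K W s) -
          Real.log (c * j W) * (η s * K W s)) ∂μ := fun W => by
      rcases (hj0 W).eq_or_lt with h | h
      · have h1 := hjz W h.symm
        refine le_of_eq (integral_congr_ae ?_)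
        filter_upwards [h1] with s hs
        rw [hs]; simp
      · have hcj : 0 < c * j W := mul_pos hc h
        have hpt : ∀ s, η s * K W s * Real.log (η' W s) ≤
            (η s * K W s * Real.log (η s * K W s) - Real.log (c * j W) * (η s * K W s)) +
              (c * j W * η' W s - η s * K W s) := fun s => by
          rcases (hu0 W s).eq_or_lt with h' | h'
          · rw [← h']
            have := mul_nonneg hcj.le (hη'0 W s)
            simp only [zero_mul, mul_zero, sub_zero, zero_add]
            exact this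
          · have he := hpos W s h'
            have h2 := Real.log_le_sub_one_of_pos (div_pos (mul_pos hcj he) h')
            rw [Real.log_div (mul_pos hcj he).ne' h'.ne', Real.log_mul hcj.ne' he.ne'] at h2
            have h3 := mul_le_mul_of_nonneg_left h2 h'.le
            have h4 : η s * K W s * (c * j W * η' W s / (η s * K W s) - 1) =
                c * j W * η' W s - η s * K W s := by
              rw [mul_sub, mul_div_cancel₀ _ h'.ne', mul_one]
            rw [h4] at h3
            linarith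
        have hi1 : IntegrableOn (fun s => η s * K W s * Real.log (η s * K W s) -
            Real.log (c * j W) * (η s * K W s)) A μ := (hulog W).sub ((hui W).const_mul _)
        have hi2 : IntegrableOn (fun s => c * j W * η' W s - η s * K W s) A μ :=
          ((hη'i W).const_mul _).sub (hui W)
        refine (integral_mono (hint W) (hi1.add hi2) hpt).trans ?_
        have e1 : ∫ s in A, ((η s * K W s * Real.log (η s * K W s) -
            Real.log (c * j W) * (η s * K W s)) + (c * j W * η' W s - η s * K W s)) ∂μ =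
            ∫ s in A, (η s * K W s * Real.log (η s * K W s) -
            Real.log (c * j W) * (η s * K W s)) ∂μ + (c * j W * ∫ s in A, η' W s ∂μ - j W) := by
          rw [integral_add hi1 hi2, integral_sub ((hη'i W).const_mul _) (hui W),
            integral_const_mul]
        have e2 : c * j W * ∫ s in A, η' W s ∂μ - j W ≤ 0 := by
          have := mul_le_mul_of_nonneg_left (hF W) h.le
          nlinarith
        change ∫ s in A, ((η s * K W s * Real.log (η s * K W s) -
            Real.log (c * j W) * (η s * K W s)) + (c * j W * η' W s - η s * K W s)) ∂μ ≤ _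
        rw [e1]
        linarith
    -- the exact decomposition
    have hae : ∀ W, ∀ᵐ s ∂(μ.restrict A), η s * K W s * Real.log (η s * K W s) -
        Real.log (c * j W) * (η s * K W s) =
        (η s * K W s * Real.log (η s) + η s * (K W s * Real.log (K W s / (Z⁻¹ * j W)))) -
          Real.log (c * Z) * (η s * K W s) := fun W => by
      have hgen : ∀ s, (0 < η s * K W s → 0 < j W) →
          η s * K W s * Real.log (η s * K W s) -
        Real.log (c * j W) * (η s * K W s) =
        (η s * K W s * Real.log (η s) + η s * (K W s * Real.log (K W s / (Z⁻¹ * j W)))) -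
          Real.log (c * Z) * (η s * K W s) := fun s hs => by
        rcases (hu0 W s).eq_or_lt with h' | h'
        · have e : η s * (K W s * Real.log (K W s / (Z⁻¹ * j W))) =
              (η s * K W s) * Real.log (K W s / (Z⁻¹ * j W)) := by ring
          rw [e, ← h']
          simp
        · have hjp := hs h'
          have hηp : 0 < η s := by
            rcases (hη0 s).eq_or_lt with h | h
            · rw [← h, zero_mul] at h'; exact absurd h' (lt_irrefl _)
            · exact h
          have hKp : 0 < K W s := by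
            rcases (hK0 W s).eq_or_lt with h | h
            · rw [← h, mul_zero] at h'; exact absurd h' (lt_irrefl _)
            · exact h
          have hzi : 0 < Z⁻¹ := inv_pos.mpr hz
          rw [Real.log_mul hηp.ne' hKp.ne', Real.log_mul hc.ne' hjp.ne',
            Real.log_div hKp.ne' (mul_pos hzi hjp).ne', Real.log_mul hzi.ne' hjp.ne',
            Real.log_inv, Real.log_mul hc.ne' hz.ne']
          ring
      rcases (hj0 W).eq_or_lt with h | h
      · filter_upwards [hjz W h.symm] with s hs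
        exact hgen s fun h' => absurd h' (by rw [hs]; exact lt_irrefl _)
      · exact Filter.Eventually.of_forall fun s => hgen s fun _ => h
    have hI2 : ∀ W, IntegrableOn (fun s => η s * (K W s * Real.log (K W s / (Z⁻¹ * j W)))) A μ :=
      fun W => by
        have h1 : IntegrableOn (fun s => (η s * K W s * Real.log (η s * K W s) -
            Real.log (c * j W) * (η s * K W s)) - η s * K W s * Real.log (η s) +
            Real.log (c * Z) * (η s * K W s)) A μ :=
          (((hulog W).sub ((hui W).const_mul _)).sub (hKηlog W)).add ((hui W).const_mul _)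
        refine h1.congr ?_
        filter_upwards [hae W] with s hs
        rw [hs]
        ring
    have hval : ∀ W, ∫ s in A, (η s * K W s * Real.log (η s * K W s) -
        Real.log (c * j W) * (η s * K W s)) ∂μ =
        (∫ s in A, η s * K W s * Real.log (η s) ∂μ +
          ∫ s in A, η s * (K W s * Real.log (K W s / (Z⁻¹ * j W))) ∂μ) -
          Real.log (c * Z) * j W := fun W => by
      rw [integral_congr_ae (hae W)]
      have hi12 : IntegrableOn (fun s => η s * K W s * Real.log (η s) +
          η s * (K W s * Real.log (K W s / (Z⁻¹ * j W)))) A μ := (hKηlog W).add (hI2 W)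
      rw [integral_sub hi12 ((hui W).const_mul _), integral_add (hKηlog W) (hI2 W),
        integral_const_mul]
    have hinfo : Z * infoR (tilt μ A η) K =
        ∑ W, ∫ s in A, η s * (K W s * Real.log (K W s / (Z⁻¹ * j W))) ∂μ := by
      unfold infoR
      rw [Finset.mul_sum]
      refine Finset.sum_congr rfl fun W _ => ?_
      rw [integral_tilt μ A η hη hη0 _ hz, integral_tilt μ A η hη hη0 _ hz, ← mul_assoc,
        mul_inv_cancel₀ hz.ne', one_mul]
    have hsumη : ∑ W, ∫ s in A, η s * K W s * Real.log (η s) ∂μ =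
        ∫ s in A, η s * Real.log (η s) ∂μ := by
      rw [← integral_finsetSum _ fun W _ => hKηlog W]
      refine integral_congr_ae (Filter.Eventually.of_forall fun s => ?_)
      simp only
      rw [← Finset.sum_mul, ← Finset.mul_sum, hK1, mul_one]
    calc ∑ W, ∫ s in A, η s * K W s * Real.log (η' W s) ∂μ
        ≤ ∑ W, ∫ s in A, (η s * K W s * Real.log (η s * K W s) -
          Real.log (c * j W) * (η s * K W s)) ∂μ := Finset.sum_le_sum fun W _ => hclaim W
      _ = (∫ s in A, η s * Real.log (η s) ∂μ + Z * infoR (tilt μ A η) K) -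
          Real.log (c * Z) * Z := by
          rw [Finset.sum_congr rfl fun W _ => hval W, Finset.sum_sub_distrib,
            Finset.sum_add_distrib, hsumη, ← hinfo, ← Finset.mul_sum, hjsum]
      _ ≤ _ := by
          have := mul_le_mul_of_nonneg_left (hB hz) hz.le
          linarith

/-! ### one old state -/

/-- The estimate for one old state. -/
theorem vertex_step {V' : Type*} [Fintype V'] (μ : Measure Ω) [IsProbabilityMeasure μ]
    (D : ℕ → Ω → ι) (hD : ∀ x, Measurable (D x)) [Countable ι] (c : ℕ → ℝ) (cs : ℝ) (n : ℕ)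
    (hc : ∀ x, 0 < c x) (hcs : 0 < cs) (I : Finset ι) (hI : ∀ x ≤ n, ∀ᵐ s ∂μ, D x s ∈ I)
    (p : Ω → ℝ) (hp : Measurable p) (hp0 : ∀ s, 0 ≤ p s) (hp1 : ∀ s, p s ≤ 1)
    (K : V' → Ω → ℝ) (hK : ∀ W, Measurable (K W)) (hK0 : ∀ W s, 0 ≤ K W s)
    (hK1 : ∀ s, ∑ W, K W s = 1)
    (η' : V' → Ω → ℝ) (hη' : ∀ W, Measurable (η' W)) (hη'0 : ∀ W s, 0 ≤ η' W s)
    (hη'b : ∀ W s, η' W s ≤ 1 / cs) {CF : ℝ} (hCF : 0 < CF)
    (hlow : ∀ W s, 0 < p s * K W s → p s * K W s / CF ≤ η' W s)
    (hF : ∀ W, ∀ x ≤ n, ∀ i, c x * ∫ s in {s | D x s = i}, η' W s ∂μ ≤ 1) (B : ℝ) (hB0 : 0 ≤ B)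
    (hB : ∀ x ≤ n, ∀ i, 0 < ∫ s in {s | D x s = i}, eta μ D c cs n p s ∂μ →
      infoR (tilt μ {s | D x s = i} (eta μ D c cs n p)) K
        ≤ B - Real.log (c x * ∫ s in {s | D x s = i}, eta μ D c cs n p s ∂μ)) :
    ∑ W, ∫ s, p s * K W s * Real.log (η' W s) ∂μ ≤
      ∫ s, p s * Real.log (eta μ D c cs n p s) ∂μ + (B + 2 * Real.log (n + 2)) * ∫ s, p s ∂μ := by
  set η : Ω → ℝ := eta μ D c cs n p with hηdef
  have hηm : Measurable η := measurable_eta μ D hD c cs n p hp
  have hη0 : ∀ s, 0 ≤ η s := eta_nonneg μ D c cs n hc hcs p hp0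
  have hηb : ∀ s, η s ≤ 1 / cs := eta_le μ D c cs n hc hcs p hp0
  have hKle : ∀ W s, K W s ≤ 1 := fun W s => by
    rw [← hK1 s]
    exact Finset.single_le_sum (f := fun W => K W s) (fun W _ => hK0 W s) (Finset.mem_univ W)
  set α : ℕ → Ω → ℝ := fun x s => c x * cellMass μ D p x (D x s) with hα
  have hαm : ∀ x, Measurable (α x) := fun x => (measurable_cellMass μ D hD p x).const_mul _
  have hα0 : ∀ x s, 0 ≤ α x s := fun x s => mul_nonneg (hc x).le (cellMass_nonneg μ D p hp0 x _)
  have hdec : ∀ s, p s = ∑ x ∈ Finset.range (n + 1), α x s * η s + cs * p s * η s := fun s => by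
    have h := eta_mul_kerF μ D c cs n hc hcs p hp0 s
    unfold kerF at h
    rw [mul_add, Finset.mul_sum] at h
    rw [← Finset.sum_mul]
    rw [← Finset.mul_sum] at h
    linarith
  have hαp : ∀ x ≤ n, ∀ s, α x s * η s ≤ p s := fun x hx s => by
    have h1 := Finset.single_le_sum (s := Finset.range (n + 1)) (f := fun x => α x s * η s)
      (fun x _ => mul_nonneg (hα0 x s) (hη0 s)) (Finset.mem_range.mpr (Nat.lt_succ_of_le hx))
    have h2 : 0 ≤ cs * p s * η s := mul_nonneg (mul_nonneg hcs.le (hp0 s)) (hη0 s)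
    have h3 := hdec s
    linarith
  have hsp : ∀ s, cs * p s * η s ≤ p s := fun s => by
    have h1 : 0 ≤ ∑ x ∈ Finset.range (n + 1), α x s * η s :=
      Finset.sum_nonneg fun x _ => mul_nonneg (hα0 x s) (hη0 s)
    have h3 := hdec s
    linarith
  -- bounds
  set M : ℝ := 1 + |Real.log CF| + |Real.log (1 / cs)| with hM
  have hGb : ∀ W s, |p s * K W s * Real.log (η' W s)| ≤ M := fun W s =>
    mul_log_bound₂ (mul_nonneg (hp0 s) (hK0 W s))
      ((mul_le_of_le_one_right (hp0 s) (hKle W s)).trans (hp1 s)) hCF (by positivity)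
      (hlow W s) (hη'b W s)
  have hweight : ∀ (a : Ω → ℝ), Measurable a → (∀ s, 0 ≤ a s) → (∀ s, a s ≤ p s) → ∀ W,
      Integrable (fun s => a s * K W s * Real.log (η' W s)) μ := fun a ham ha0 hap W =>
    integrable_of_bdd ((ham.mul (hK W)).mul (Real.measurable_log.comp (hη' W))) (M := M) fun s => by
      refine le_trans ?_ (hGb W s)
      have e1 : a s * K W s * Real.log (η' W s) = a s * (K W s * Real.log (η' W s)) := by ring
      have e2 : p s * K W s * Real.log (η' W s) = p s * (K W s * Real.log (η' W s)) := by ring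
      change |a s * K W s * Real.log (η' W s)| ≤ _
      rw [e1, e2, abs_mul, abs_mul (p s), abs_of_nonneg (ha0 s), abs_of_nonneg (hp0 s)]
      exact mul_le_mul_of_nonneg_right (hap s) (abs_nonneg _)
  have hαηm : ∀ x, Measurable fun s => α x s * η s := fun x => (hαm x).mul hηm
  have hαη0 : ∀ x s, 0 ≤ α x s * η s := fun x s => mul_nonneg (hα0 x s) (hη0 s)
  have hsm : Measurable fun s => cs * p s * η s := (hp.const_mul cs).mul hηm
  have hs0 : ∀ s, 0 ≤ cs * p s * η s := fun s => mul_nonneg (mul_nonneg hcs.le (hp0 s)) (hη0 s)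
  have hTi : ∀ x ≤ n, ∀ W, Integrable (fun s => α x s * η s * K W s * Real.log (η' W s)) μ :=
    fun x hx W => hweight _ (hαηm x) (hαη0 x) (hαp x hx) W
  have hSi : ∀ W, Integrable (fun s => cs * p s * η s * K W s * Real.log (η' W s)) μ :=
    fun W => hweight _ hsm hs0 hsp W
  have hpi : Integrable p μ := integrable_of_bdd hp (M := 1) fun s => by
    rw [abs_of_nonneg (hp0 s)]; exact hp1 s
  have hαηi : ∀ x ≤ n, Integrable (fun s => α x s * η s) μ := fun x hx =>
    integrable_of_bdd (hαηm x) (M := 1) fun s => by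
      rw [abs_of_nonneg (hαη0 x s)]; exact (hαp x hx s).trans (hp1 s)
  have hsi : Integrable (fun s => cs * p s * η s) μ :=
    integrable_of_bdd hsm (M := 1) fun s => by
      rw [abs_of_nonneg (hs0 s)]; exact (hsp s).trans (hp1 s)
  -- lower bound for eta, to bound `p |log η|`
  have hkF : ∀ s, kerF μ D c cs n p s ≤ ∑ x ∈ Finset.range (n + 1), c x + cs := fun s => by
    unfold kerF
    refine add_le_add (Finset.sum_le_sum fun x _ => ?_) (mul_le_of_le_one_right hcs.le (hp1 s))
    refine mul_le_of_le_one_right (hc x).le ?_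
    unfold cellMass
    refine (setIntegral_le_integral hpi (Filter.Eventually.of_forall hp0)).trans ?_
    refine (integral_mono hpi (integrable_const (1 : ℝ)) hp1).trans ?_
    simp
  have hCF2 : 0 < ∑ x ∈ Finset.range (n + 1), c x + cs :=
    add_pos_of_nonneg_of_pos (Finset.sum_nonneg fun x _ => (hc x).le) hcs
  set M2 : ℝ := 1 + |Real.log (∑ x ∈ Finset.range (n + 1), c x + cs)| + |Real.log (1 / cs)|
  have hplog : ∀ s, |p s * Real.log (η s)| ≤ M2 := fun s =>
    mul_log_bound₂ (hp0 s) (hp1 s) hCF2 (by positivity)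
      (fun h => by
        rw [hηdef]
        unfold eta
        have hpos : 0 < kerF μ D c cs n p s :=
          (mul_pos hcs h).trans_le (kerF_ge_star μ D c cs n hc p hp0 s)
        exact div_le_div_of_nonneg_left (hp0 s) hpos (hkF s)) (hηb s)
  have hwlog : ∀ (a : Ω → ℝ), Measurable a → (∀ s, 0 ≤ a s) → (∀ s, a s ≤ p s) →
      Integrable (fun s => a s * Real.log (η s)) μ := fun a ham ha0 hap =>
    integrable_of_bdd (ham.mul (Real.measurable_log.comp hηm)) (M := M2) fun s => by
      refine le_trans ?_ (hplog s)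
      change |a s * Real.log (η s)| ≤ _
      rw [abs_mul, abs_mul, abs_of_nonneg (ha0 s), abs_of_nonneg (hp0 s)]
      exact mul_le_mul_of_nonneg_right (hap s) (abs_nonneg _)
  have hαlogi : ∀ x ≤ n, Integrable (fun s => α x s * η s * Real.log (η s)) μ := fun x hx =>
    hwlog _ (hαηm x) (hαη0 x) (hαp x hx)
  have hslogi : Integrable (fun s => cs * p s * η s * Real.log (η s)) μ :=
    hwlog _ hsm hs0 hsp
  set L : ℝ := Real.log (n + 2) with hL
  have hn2 : (0 : ℝ) < n + 2 := by positivity
  -- levels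
  have hlevel : ∀ x ≤ n, ∑ W, ∫ s, α x s * η s * K W s * Real.log (η' W s) ∂μ ≤
      ∫ s, α x s * η s * Real.log (η s) ∂μ + (B + 2 * (L - 1)) * ∫ s, α x s * η s ∂μ +
        2 * ((∫ s, p s ∂μ) / (n + 2)) := fun x hx => by
    have hcell : ∀ (f : Ω → ℝ) (i : ι), ∫ s in {s | D x s = i}, α x s * f s ∂μ =
        c x * cellMass μ D p x i * ∫ s in {s | D x s = i}, f s ∂μ := fun f i => by
      rw [← integral_const_mul]
      refine setIntegral_congr_fun (measurableSet_cell D hD x i) fun s hs => ?_
      have hs' : D x s = i := hs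
      simp only [hα]
      rw [hs']
    have e1 : ∑ W, ∫ s, α x s * η s * K W s * Real.log (η' W s) ∂μ =
        ∑ i ∈ I, c x * cellMass μ D p x i *
          ∑ W, ∫ s in {s | D x s = i}, η s * K W s * Real.log (η' W s) ∂μ := by
      have : ∀ W, ∫ s, α x s * η s * K W s * Real.log (η' W s) ∂μ =
          ∑ i ∈ I, c x * cellMass μ D p x i *
            ∫ s in {s | D x s = i}, η s * K W s * Real.log (η' W s) ∂μ := fun W => by
        rw [integral_cells μ D hD I x (hI x hx) (hTi x hx W)]
        refine Finset.sum_congr rfl fun i _ => ?_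
        rw [← hcell]
        refine integral_congr_ae (Filter.Eventually.of_forall fun s => ?_)
        simp only
        ring
      rw [Finset.sum_congr rfl fun W _ => this W, Finset.sum_comm]
      exact Finset.sum_congr rfl fun i _ => (Finset.mul_sum _ _ _).symm
    have e2 : ∫ s, α x s * η s * Real.log (η s) ∂μ = ∑ i ∈ I, c x * cellMass μ D p x i *
        ∫ s in {s | D x s = i}, η s * Real.log (η s) ∂μ := by
      rw [integral_cells μ D hD I x (hI x hx) (hαlogi x hx)]
      refine Finset.sum_congr rfl fun i _ => ?_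
      rw [← hcell]
      refine integral_congr_ae (Filter.Eventually.of_forall fun s => ?_)
      simp only
      ring
    have e3 : ∫ s, α x s * η s ∂μ = ∑ i ∈ I, c x * cellMass μ D p x i *
        ∫ s in {s | D x s = i}, η s ∂μ := by
      rw [integral_cells μ D hD I x (hI x hx) (hαηi x hx)]
      exact Finset.sum_congr rfl fun i _ => hcell _ i
    have e4 : ∫ s, p s ∂μ = ∑ i ∈ I, cellMass μ D p x i :=
      integral_cells μ D hD I x (hI x hx) hpi
    rw [e1, e2, e3, e4, Finset.mul_sum, Finset.sum_div, Finset.mul_sum,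
      ← Finset.sum_add_distrib, ← Finset.sum_add_distrib]
    refine Finset.sum_le_sum fun i _ => ?_
    set A : Set Ω := {s | D x s = i} with hAdef
    have hA : MeasurableSet A := measurableSet_cell D hD x i
    set Z : ℝ := ∫ s in A, η s ∂μ with hZ
    have hZ0 : 0 ≤ Z := integral_nonneg fun s => hη0 s
    rcases (cellMass_nonneg μ D p hp0 x i).eq_or_lt with h | h
    · rw [← h]; simp
    · have hcν : 0 < c x * cellMass μ D p x i := mul_pos (hc x) h
      have hint : ∀ W, IntegrableOn (fun s => η s * K W s * Real.log (η' W s)) A μ := fun W => by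
        have h1 : IntegrableOn (fun s => (c x * cellMass μ D p x i)⁻¹ *
            (α x s * η s * K W s * Real.log (η' W s))) A μ :=
          ((hTi x hx W).const_mul _).integrableOn
        refine h1.congr_fun (fun s hs => ?_) hA
        have hs' : D x s = i := hs
        simp only [hα]
        rw [hs']
        have e : (c x * cellMass μ D p x i)⁻¹ *
            (c x * cellMass μ D p x i * η s * K W s * Real.log (η' W s)) =
            ((c x * cellMass μ D p x i)⁻¹ * (c x * cellMass μ D p x i)) *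
              (η s * K W s * Real.log (η' W s)) := by ring
        rw [e, inv_mul_cancel₀ hcν.ne', one_mul]
      have hstep := cell_step μ hA η hηm hη0 hηb K hK hK0 hK1 η' hη' hη'0 hη'b
        (fun W s hs => by
          have hKp : 0 < K W s := by
            rcases (hK0 W s).eq_or_lt with h | h
            · rw [← h, mul_zero] at hs; exact absurd hs (lt_irrefl _)
            · exact h
          have hpp : 0 < p s := by
            rcases (hp0 s).eq_or_lt with h | h
            · have h0 : η s = 0 := by rw [hηdef]; unfold eta; rw [← h, zero_div]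
              rw [h0, zero_mul] at hs
              exact absurd hs (lt_irrefl _)
            · exact h
          exact (div_pos (mul_pos hpp hKp) hCF).trans_le (hlow W s (mul_pos hpp hKp)))
        (hc x) (fun W => hF W x hx i) hint (fun hz => hB x hx i hz)
      have h1 := mul_le_mul_of_nonneg_left hstep hcν.le
      refine h1.trans ?_
      -- entropy bound
      have h2 : c x * cellMass μ D p x i * Z * (-Real.log (c x * Z)) ≤
          cellMass μ D p x i / (n + 2) + c x * cellMass μ D p x i * Z * (L - 1) := by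
        rcases hZ0.eq_or_lt with hz | hz
        · rw [← hz]
          have : 0 ≤ cellMass μ D p x i / (n + 2) := by positivity
          simpa using this
        · have hcz : 0 < c x * Z := mul_pos (hc x) hz
          have h3 := log_le_div_add (t := (c x * Z)⁻¹) (inv_pos.mpr hcz) hn2
          rw [Real.log_inv] at h3
          have h4 := mul_le_mul_of_nonneg_left h3 (mul_pos hcν hz).le
          refine h4.trans (le_of_eq ?_)
          have := hcz.ne'
          have := (hc x).ne'
          have := hz.ne'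
          field_simp
          ring
      have e5 : c x * cellMass μ D p x i * (Z * (B - 2 * Real.log (c x * Z)) +
          ∫ s in A, η s * Real.log (η s) ∂μ) =
          c x * cellMass μ D p x i * (∫ s in A, η s * Real.log (η s) ∂μ) +
          B * (c x * cellMass μ D p x i * Z) +
          2 * (c x * cellMass μ D p x i * Z * (-Real.log (c x * Z))) := by ring
      rw [e5]
      linarith
  -- star part
  have hstar : ∑ W, ∫ s, cs * p s * η s * K W s * Real.log (η' W s) ∂μ ≤
      ∫ s, cs * p s * η s * Real.log (η s) ∂μ + 2 * (L - 1) * ∫ s, cs * p s * η s ∂μ +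
        2 * ((∫ s, p s ∂μ) / (n + 2)) := by
    rw [← integral_finsetSum _ fun W _ => hSi W]
    have e1 : ∫ s, cs * p s * η s * Real.log (η s) ∂μ + 2 * (L - 1) * ∫ s, cs * p s * η s ∂μ +
        2 * ((∫ s, p s ∂μ) / (n + 2)) = ∫ s, (cs * p s * η s * Real.log (η s) +
          2 * (L - 1) * (cs * p s * η s) + 2 / (n + 2) * p s) ∂μ := by
      have i1 : Integrable (fun s => cs * p s * η s * Real.log (η s) +
          2 * (L - 1) * (cs * p s * η s)) μ := hslogi.add (hsi.const_mul _)
      rw [integral_add i1 (hpi.const_mul _), integral_add hslogi (hsi.const_mul _),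
        integral_const_mul, integral_const_mul]
      ring
    rw [e1]
    refine integral_mono (integrable_finsetSum _ fun W _ => hSi W)
      ((hslogi.add (hsi.const_mul _)).add (hpi.const_mul _)) fun s => ?_
    simp only
    have h1 : ∑ W, cs * p s * η s * K W s * Real.log (η' W s) ≤
        ∑ W, cs * p s * η s * K W s * Real.log (1 / cs) := by
      refine Finset.sum_le_sum fun W _ => ?_
      rcases (mul_nonneg (hp0 s) (hK0 W s)).eq_or_lt with h | h
      · have e : ∀ t : ℝ, cs * p s * η s * K W s * t = cs * η s * (p s * K W s) * t := fun t => by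
          ring
        rw [e, e, ← h]
        simp
      · have hpos : 0 < η' W s := (div_pos h hCF).trans_le (hlow W s h)
        exact mul_le_mul_of_nonneg_left (Real.log_le_log hpos (hη'b W s))
          (mul_nonneg (hs0 s) (hK0 W s))
    have h2 : ∑ W, cs * p s * η s * K W s * Real.log (1 / cs) =
        cs * p s * η s * Real.log (1 / cs) := by
      rw [← Finset.sum_mul, ← Finset.mul_sum, hK1, mul_one]
    rw [h2] at h1
    refine h1.trans ?_
    rcases (hs0 s).eq_or_lt with h | h
    · rw [← h]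
      have : 0 ≤ 2 / ((n : ℝ) + 2) * p s := mul_nonneg (by positivity) (hp0 s)
      simp only [zero_mul, mul_zero, zero_add]
      exact this
    · have hηp : 0 < η s := by
        rcases (hη0 s).eq_or_lt with h' | h'
        · rw [← h', mul_zero] at h; exact absurd h (lt_irrefl _)
        · exact h'
      have hcη : 0 < cs * η s := mul_pos hcs hηp
      have h3 := log_le_div_add (t := (cs * η s)⁻¹) (inv_pos.mpr hcη) hn2
      have h4 : Real.log (1 / cs) = Real.log (η s) + Real.log ((cs * η s)⁻¹) := by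
        rw [Real.log_inv, Real.log_mul hcs.ne' hηp.ne', one_div, Real.log_inv]
        ring
      have h5 : 0 ≤ Real.log ((cs * η s)⁻¹) := by
        refine Real.log_nonneg ?_
        rw [one_le_inv₀ hcη]
        have := hηb s
        rw [le_div_iff₀ hcs] at this
        linarith
      have h6 := mul_le_mul_of_nonneg_left h3 h.le
      have h7 : cs * p s * η s * ((cs * η s)⁻¹ / (n + 2) - 1 + Real.log (n + 2)) =
          p s / (n + 2) + (L - 1) * (cs * p s * η s) := by
        rw [hL]
        have := hcs.ne'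
        have := hηp.ne'
        field_simp
        ring
      rw [h7] at h6
      have h8 : 0 ≤ cs * p s * η s * Real.log ((cs * η s)⁻¹) := mul_nonneg h.le h5
      rw [h4, mul_add]
      have e9 : 2 / ((n : ℝ) + 2) * p s = 2 * (p s / (n + 2)) := by ring
      rw [e9]
      linarith
  -- decomposition
  have hsplit : ∀ W, ∫ s, p s * K W s * Real.log (η' W s) ∂μ =
      ∑ x ∈ Finset.range (n + 1), ∫ s, α x s * η s * K W s * Real.log (η' W s) ∂μ +
        ∫ s, cs * p s * η s * K W s * Real.log (η' W s) ∂μ := fun W => by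
    have hmem : ∀ x ∈ Finset.range (n + 1), x ≤ n := fun x hx =>
      Nat.lt_succ_iff.mp (Finset.mem_range.mp hx)
    rw [← integral_finsetSum _ fun x hx => hTi x (hmem x hx) W, ← integral_add
      (integrable_finsetSum _ fun x hx => hTi x (hmem x hx) W) (hSi W)]
    refine integral_congr_ae (Filter.Eventually.of_forall fun s => ?_)
    simp only
    have h := hdec s
    have e : ∑ x ∈ Finset.range (n + 1), α x s * η s * K W s * Real.log (η' W s) =
        (∑ x ∈ Finset.range (n + 1), α x s * η s) * (K W s * Real.log (η' W s)) := by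
      rw [Finset.sum_mul]
      exact Finset.sum_congr rfl fun x _ => by ring
    rw [e]
    calc p s * K W s * Real.log (η' W s)
        = (∑ x ∈ Finset.range (n + 1), α x s * η s + cs * p s * η s) *
          (K W s * Real.log (η' W s)) := by rw [← h]; ring
      _ = _ := by ring
  have hmem : ∀ x ∈ Finset.range (n + 1), x ≤ n := fun x hx =>
    Nat.lt_succ_iff.mp (Finset.mem_range.mp hx)
  have hplogs : ∫ s, p s * Real.log (η s) ∂μ =
      ∑ x ∈ Finset.range (n + 1), ∫ s, α x s * η s * Real.log (η s) ∂μ +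
        ∫ s, cs * p s * η s * Real.log (η s) ∂μ := by
    rw [← integral_finsetSum _ fun x hx => hαlogi x (hmem x hx), ← integral_add
      (integrable_finsetSum _ fun x hx => hαlogi x (hmem x hx)) hslogi]
    refine integral_congr_ae (Filter.Eventually.of_forall fun s => ?_)
    simp only
    have h := hdec s
    rw [← Finset.sum_mul]
    calc p s * Real.log (η s)
        = (∑ x ∈ Finset.range (n + 1), α x s * η s + cs * p s * η s) * Real.log (η s) := by
          rw [← h]
      _ = _ := by ring
  have hpint : ∫ s, p s ∂μ = ∑ x ∈ Finset.range (n + 1), ∫ s, α x s * η s ∂μ +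
      ∫ s, cs * p s * η s ∂μ := by
    rw [← integral_finsetSum _ fun x hx => hαηi x (hmem x hx), ← integral_add
      (integrable_finsetSum _ fun x hx => hαηi x (hmem x hx)) hsi]
    exact integral_congr_ae (Filter.Eventually.of_forall fun s => hdec s)
  have hstarnn : 0 ≤ ∫ s, cs * p s * η s ∂μ := integral_nonneg hs0
  rw [Finset.sum_congr rfl fun W _ => hsplit W, Finset.sum_add_distrib, Finset.sum_comm]
  have hsum := Finset.sum_le_sum fun x (hx : x ∈ Finset.range (n + 1)) => hlevel x (hmem x hx)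
  rw [Finset.sum_add_distrib, Finset.sum_add_distrib, ← Finset.mul_sum, Finset.sum_const,
    Finset.card_range, nsmul_eq_mul] at hsum
  have hfin : ((n + 1 : ℕ) : ℝ) * (2 * ((∫ s, p s ∂μ) / (n + 2))) +
      2 * ((∫ s, p s ∂μ) / (n + 2)) = 2 * ∫ s, p s ∂μ := by
    push_cast
    field_simp
    ring
  rw [hplogs]
  set S1 : ℝ := ∑ x ∈ Finset.range (n + 1), ∫ s, α x s * η s ∂μ
  set S2 : ℝ := ∫ s, cs * p s * η s ∂μ
  set P : ℝ := ∫ s, p s ∂μ
  have e10 : (B + 2 * L) * P = (B + 2 * (L - 1)) * S1 + 2 * (L - 1) * S2 + B * S2 + 2 * P := by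
    rw [hpint]; ring
  have h11 := mul_nonneg hB0 hstarnn
  linarith

/-- One step of the potential. -/
theorem pot_step {V V' : Type*} [Fintype V] [Fintype V'] (μ : Measure Ω) [IsProbabilityMeasure μ]
    (D : ℕ → Ω → ι) (hD : ∀ x, Measurable (D x)) [Countable ι] (c : ℕ → ℝ) (cs : ℝ) (n : ℕ)
    (hc : ∀ x, 0 < c x) (hcs : 0 < cs) (I : Finset ι) (hI : ∀ x ≤ n, ∀ᵐ s ∂μ, D x s ∈ I)
    (p : V → Ω → ℝ) (hp : ∀ v, Measurable (p v)) (hp0 : ∀ v s, 0 ≤ p v s)
    (hp1 : ∀ s, ∑ v, p v s = 1)
    (K : V → V' → Ω → ℝ) (hK : ∀ v W, Measurable (K v W)) (hK0 : ∀ v W s, 0 ≤ K v W s)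
    (hK1 : ∀ v s, ∑ W, K v W s = 1) (B : ℝ) (hB0 : 0 ≤ B)
    (hB : ∀ v, ∀ x ≤ n, ∀ i, 0 < ∫ s in {s | D x s = i}, eta μ D c cs n (p v) s ∂μ →
      infoR (tilt μ {s | D x s = i} (eta μ D c cs n (p v))) (K v)
        ≤ B - Real.log (c x * ∫ s in {s | D x s = i}, eta μ D c cs n (p v) s ∂μ)) :
    pot μ D c cs n (fun W s => ∑ v, p v s * K v W s)
      ≤ pot μ D c cs n p + B + 2 * Real.log (n + 2) := by
  set p' : V' → Ω → ℝ := fun W s => ∑ v, p v s * K v W s with hp'
  have hp'm : ∀ W, Measurable (p' W) := fun W =>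
    Finset.measurable_fun_sum _ fun v _ => (hp v).mul (hK v W)
  have hp'0 : ∀ W s, 0 ≤ p' W s := fun W s =>
    Finset.sum_nonneg fun v _ => mul_nonneg (hp0 v s) (hK0 v W s)
  have hKle : ∀ v W s, K v W s ≤ 1 := fun v W s => by
    rw [← hK1 v s]
    exact Finset.single_le_sum (f := fun W => K v W s) (fun W _ => hK0 v W s) (Finset.mem_univ W)
  have hple : ∀ v s, p v s ≤ 1 := fun v s => by
    rw [← hp1 s]
    exact Finset.single_le_sum (f := fun v => p v s) (fun v _ => hp0 v s) (Finset.mem_univ v)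
  have hp'1 : ∀ W s, p' W s ≤ 1 := fun W s => by
    rw [← hp1 s]
    exact Finset.sum_le_sum fun v _ => mul_le_of_le_one_right (hp0 v s) (hKle v W s)
  have hterm : ∀ v W s, p v s * K v W s ≤ p' W s := fun v W s =>
    Finset.single_le_sum (f := fun v => p v s * K v W s)
      (fun v _ => mul_nonneg (hp0 v s) (hK0 v W s)) (Finset.mem_univ v)
  set η' : V' → Ω → ℝ := fun W => eta μ D c cs n (p' W) with hη'
  have hη'm : ∀ W, Measurable (η' W) := fun W => measurable_eta μ D hD c cs n (p' W) (hp'm W)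
  have hη'0 : ∀ W s, 0 ≤ η' W s := fun W => eta_nonneg μ D c cs n hc hcs (p' W) (hp'0 W)
  have hη'b : ∀ W s, η' W s ≤ 1 / cs := fun W => eta_le μ D c cs n hc hcs (p' W) (hp'0 W)
  set CF : ℝ := ∑ x ∈ Finset.range (n + 1), c x + cs with hCFd
  have hCF : 0 < CF := add_pos_of_nonneg_of_pos (Finset.sum_nonneg fun x _ => (hc x).le) hcs
  have hp'i : ∀ W, Integrable (p' W) μ := fun W =>
    integrable_of_bdd (hp'm W) (M := 1) fun s => by
      rw [abs_of_nonneg (hp'0 W s)]; exact hp'1 W s
  have hkF : ∀ W s, kerF μ D c cs n (p' W) s ≤ CF := fun W s => by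
    unfold kerF
    refine add_le_add (Finset.sum_le_sum fun x _ => ?_) (mul_le_of_le_one_right hcs.le (hp'1 W s))
    refine mul_le_of_le_one_right (hc x).le ?_
    unfold cellMass
    refine (setIntegral_le_integral (hp'i W) (Filter.Eventually.of_forall (hp'0 W))).trans ?_
    refine (integral_mono (hp'i W) (integrable_const (1 : ℝ)) (hp'1 W)).trans ?_
    simp
  have hlow : ∀ v W s, 0 < p v s * K v W s → p v s * K v W s / CF ≤ η' W s := fun v W s h => by
    have h' : 0 < p' W s := h.trans_le (hterm v W s)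
    have hpos : 0 < kerF μ D c cs n (p' W) s :=
      (mul_pos hcs h').trans_le (kerF_ge_star μ D c cs n hc (p' W) (hp'0 W) s)
    calc p v s * K v W s / CF ≤ p' W s / CF := div_le_div_of_nonneg_right (hterm v W s) hCF.le
      _ ≤ p' W s / kerF μ D c cs n (p' W) s :=
          div_le_div_of_nonneg_left (hp'0 W s) hpos (hkF W s)
  have hF : ∀ W, ∀ x ≤ n, ∀ i, c x * ∫ s in {s | D x s = i}, η' W s ∂μ ≤ 1 := fun W x hx i => by
    have h := cell_eta_le μ D hD c cs n hc hcs (p' W) (hp'm W) (hp'0 W) (hp'1 W) x hx i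
    have h2 := mul_le_mul_of_nonneg_left h (hc x).le
    rwa [mul_one_div_cancel (hc x).ne'] at h2
  have hv : ∀ v, ∑ W, ∫ s, p v s * K v W s * Real.log (η' W s) ∂μ ≤
      ∫ s, p v s * Real.log (eta μ D c cs n (p v) s) ∂μ +
        (B + 2 * Real.log (n + 2)) * ∫ s, p v s ∂μ := fun v =>
    vertex_step μ D hD c cs n hc hcs I hI (p v) (hp v) (hp0 v) (hple v) (K v) (hK v) (hK0 v)
      (hK1 v) η' hη'm hη'0 hη'b hCF (hlow v) hF B hB0 (hB v)
  have hsum := Finset.sum_le_sum fun v (_ : v ∈ Finset.univ) => hv v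
  have hone : ∑ v, ∫ s, p v s ∂μ = 1 := by
    rw [← integral_finsetSum _ fun v _ => integrable_of_bdd (hp v) (M := 1) fun s => by
      rw [abs_of_nonneg (hp0 v s)]; exact hple v s]
    simp [hp1]
  rw [Finset.sum_add_distrib, ← Finset.mul_sum, hone, mul_one] at hsum
  have hGi : ∀ v W, Integrable (fun s => p v s * K v W s * Real.log (η' W s)) μ := fun v W =>
    integrable_of_bdd (((hp v).mul (hK v W)).mul (Real.measurable_log.comp (hη'm W)))
      (M := 1 + |Real.log CF| + |Real.log (1 / cs)|) fun s =>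
      mul_log_bound₂ (mul_nonneg (hp0 v s) (hK0 v W s))
        ((mul_le_of_le_one_right (hp0 v s) (hKle v W s)).trans (hple v s)) hCF (by positivity)
        (hlow v W s) (hη'b W s)
  have hpot : pot μ D c cs n p' = ∑ v, ∑ W, ∫ s, p v s * K v W s * Real.log (η' W s) ∂μ := by
    rw [Finset.sum_comm]
    unfold pot
    refine Finset.sum_congr rfl fun W _ => ?_
    rw [← integral_finsetSum _ fun v _ => hGi v W]
    refine integral_congr_ae (Filter.Eventually.of_forall fun s => ?_)
    simp only [hp']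
    rw [← Finset.sum_mul]
  rw [hpot]
  unfold pot
  linarith

end Vale.Agent.P309
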