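import Vale.Agent.Lib.P309.Sphere

open MeasureTheory ProbabilityTheory

namespace Vale.Agent.P309

theorem measurable_grid {d : ℕ} (x : ℕ) : Measurable (grid (d := d) x) := by
  refine measurable_pi_iff.2 fun i => ?_
  unfold grid
  by_cases hx : x = 0
  · simp only [hx, if_true]
    exact measurable_const
  · simp only [hx, if_false]
    refine Int.measurable_floor.comp ?_
    have h1 : Measurable (fun s : Vec d => s i) := by fun_prop
    exact h1.const_mul _

theorem grid_diam {d x : ℕ} (hx : 1 ≤ x) (u v : Vec d) (h : grid x u = grid x v) :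
    ‖u - v‖ ≤ (1 / 2) ^ x := by
  rcases Nat.eq_zero_or_pos d with hd | hd
  · subst hd
    have h0 : u - v = 0 := Subsingleton.elim _ _
    rw [h0, norm_zero]
    positivity
  have hd' : (0 : ℝ) < d := by exact_mod_cast hd
  have hi : ∀ i, ((2 : ℝ) ^ x) ^ 2 * d * (u i - v i) ^ 2 ≤ 1 := by
    intro i
    have h1 := congrFun h i
    unfold grid at h1
    rw [if_neg (by omega), if_neg (by omega)] at h1
    have h2 := Int.abs_sub_lt_one_of_floor_eq_floor h1
    rw [← mul_sub] at h2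
    have h3 : ((2 : ℝ) ^ x * Real.sqrt d * (u i - v i)) ^ 2 ≤ 1 := by
      rw [← sq_abs]
      exact pow_le_one₀ (abs_nonneg _) h2.le
    calc ((2 : ℝ) ^ x) ^ 2 * d * (u i - v i) ^ 2 =
        ((2 : ℝ) ^ x * Real.sqrt d * (u i - v i)) ^ 2 := by
          rw [mul_pow, mul_pow, Real.sq_sqrt hd'.le]
      _ ≤ 1 := h3
  have hsum : ((2 : ℝ) ^ x) ^ 2 * d * ‖u - v‖ ^ 2 ≤ d := by
    rw [EuclideanSpace.real_norm_sq_eq, Finset.mul_sum]
    calc _ ≤ ∑ i : Fin d, (1 : ℝ) := Finset.sum_le_sum fun i _ => by simpa using hi i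
      _ = d := by simp
  have h4 : ((2 : ℝ) ^ x * ‖u - v‖) ^ 2 ≤ 1 := by
    have h5 : ((2 : ℝ) ^ x * ‖u - v‖) ^ 2 * (d : ℝ) ≤ 1 * (d : ℝ) := by
      calc ((2 : ℝ) ^ x * ‖u - v‖) ^ 2 * (d : ℝ) =
          ((2 : ℝ) ^ x) ^ 2 * (d : ℝ) * ‖u - v‖ ^ 2 := by ring
        _ ≤ (d : ℝ) := hsum
        _ = 1 * (d : ℝ) := (one_mul _).symm
    exact le_of_mul_le_mul_right h5 hd'
  have h6 : (2 : ℝ) ^ x * ‖u - v‖ ≤ 1 :=
    (sq_le_one_iff₀ (by positivity)).1 h4
  rw [one_div_pow, le_div_iff₀ (by positivity), mul_comm]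
  exact h6

theorem volume_grid {d x : ℕ} (hd : 1 ≤ d) (hx : 1 ≤ x) (u : Vec d) :
    volume {v : Vec d | grid x v = grid x u} = ENNReal.ofReal (((1 / 2) ^ x / Real.sqrt d) ^ d) := by
  have hd' : (0 : ℝ) < Real.sqrt d := Real.sqrt_pos.2 (by exact_mod_cast hd)
  set c : ℝ := (2 : ℝ) ^ x * Real.sqrt d with hc
  have hc0 : 0 < c := by positivity
  have hset : {v : Vec d | grid x v = grid x u} = WithLp.ofLp ⁻¹' (Set.pi Set.univ
      (fun i => Set.Ico ((⌊c * u i⌋ : ℝ) / c) (((⌊c * u i⌋ : ℝ) + 1) / c))) := by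
    ext v
    rw [Set.mem_ofPred_eq, Set.mem_preimage, Set.mem_univ_pi, funext_iff]
    refine forall_congr' fun i => ?_
    unfold grid
    rw [if_neg (by omega), if_neg (by omega), Int.floor_eq_iff, Set.mem_Ico,
      div_le_iff₀ hc0, lt_div_iff₀ hc0, ← hc, mul_comm (v.ofLp i)]
  rw [hset, (PiLp.volume_preserving_ofLp (Fin d)).measure_preimage, Real.volume_pi_Ico]
  · have h1 : ∀ i : Fin d, ((⌊c * u i⌋ : ℝ) + 1) / c - (⌊c * u i⌋ : ℝ) / c =
        (1 / 2) ^ x / Real.sqrt d := by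
      intro i
      rw [← sub_div, add_sub_cancel_left, hc, one_div_pow, div_div]
    simp only [h1]
    rw [Finset.prod_const, Finset.card_univ, Fintype.card_fin, ENNReal.ofReal_pow]
    positivity
  · exact (MeasurableSet.univ_pi fun i => measurableSet_Ico).nullMeasurableSet

theorem volume_ball_le {d : ℕ} (hd : 1 ≤ d) :
    volume (Metric.closedBall (0 : Vec d) (Real.sqrt d)) ≤ ENNReal.ofReal (5 ^ d) := by
  have hint := GaussianFourier.integral_rexp_neg_mul_sq_norm (V := Vec d)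
    (b := 1 / 2) (by norm_num)
  rw [finrank_euclideanSpace_fin] at hint
  have hpos : 0 < (Real.pi / (1 / 2)) ^ ((d : ℝ) / 2) := by positivity
  have hI : Integrable (fun v : Vec d => Real.exp (-(1 / 2) * ‖v‖ ^ 2)) := by
    by_contra hcon
    rw [integral_undef hcon] at hint
    exact hpos.ne hint
  have h1 : volume (Metric.closedBall (0 : Vec d) (Real.sqrt d)) ≤
      ∫⁻ v : Vec d, ENNReal.ofReal (Real.exp ((d : ℝ) / 2) * Real.exp (-(1 / 2) * ‖v‖ ^ 2)) := by
    rw [← lintegral_indicator_one measurableSet_closedBall]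
    refine lintegral_mono fun v => ?_
    by_cases hv : v ∈ Metric.closedBall (0 : Vec d) (Real.sqrt d)
    · rw [Set.indicator_of_mem hv, Pi.one_apply, ← ENNReal.ofReal_one]
      apply ENNReal.ofReal_le_ofReal
      rw [← Real.exp_add]
      apply Real.one_le_exp
      rw [mem_closedBall_zero_iff] at hv
      have h2 : ‖v‖ ^ 2 ≤ d := by
        calc ‖v‖ ^ 2 ≤ (Real.sqrt d) ^ 2 := pow_le_pow_left₀ (norm_nonneg _) hv 2
          _ = d := Real.sq_sqrt (by positivity)
      linarith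
    · rw [Set.indicator_of_notMem hv]
      exact zero_le
  refine h1.trans ?_
  rw [← ofReal_integral_eq_lintegral_ofReal (hI.const_mul _)
    (Filter.Eventually.of_forall fun v => by positivity), integral_const_mul, hint]
  apply ENNReal.ofReal_le_ofReal
  have h3 : Real.exp ((d : ℝ) / 2) = (Real.exp 1) ^ ((d : ℝ) / 2) := by
    rw [← Real.exp_mul, one_mul]
  rw [h3, ← Real.mul_rpow (by positivity) (by positivity)]
  have h4 : Real.exp 1 * (Real.pi / (1 / 2)) ≤ 25 := by
    have h5 := Real.exp_one_lt_d9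
    have h6 := Real.pi_lt_d2
    have h7 := Real.pi_pos
    have h8 := Real.exp_pos 1
    nlinarith
  calc (Real.exp 1 * (Real.pi / (1 / 2))) ^ ((d : ℝ) / 2) ≤ (25 : ℝ) ^ ((d : ℝ) / 2) :=
        Real.rpow_le_rpow (by positivity) h4 (by positivity)
    _ = ((5 : ℝ) ^ (2 : ℝ)) ^ ((d : ℝ) / 2) := by norm_num
    _ = (5 : ℝ) ^ (d : ℝ) := by
        rw [← Real.rpow_mul (by norm_num)]
        congr 1
        ring
    _ = 5 ^ d := Real.rpow_natCast 5 d

theorem sphU_grid {d : ℕ} (hd : 1 ≤ d) (x : ℕ) (i : Fin d → ℤ) :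
    sphU d {s | grid x s = i} ≤ ENNReal.ofReal (2 ^ d * (1 / 2) ^ (x * (d - 1))) := by
  rcases Nat.eq_zero_or_pos x with hx | hx
  · subst hx
    have := isProbabilityMeasure_sphU hd
    refine prob_le_one.trans ?_
    rw [← ENNReal.ofReal_one]
    apply ENNReal.ofReal_le_ofReal
    rw [zero_mul, pow_zero, mul_one]
    exact one_le_pow₀ (by norm_num)
  · refine (sphU_diam hd _ ((1 / 2) ^ x) (by positivity) ?_).trans ?_
    · intro u hu v hv
      exact grid_diam hx u v (Eq.trans hu (Eq.symm hv))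
    · rw [← pow_mul]

/-- Packing: the measure of a set in terms of the volume of its neighbourhood. -/
theorem tube_cells {d y : ℕ} (hd : 1 ≤ d) (hy : 1 ≤ y) (η : Measure (Vec d)) (T : Set (Vec d))
    (B : ENNReal) (hB : ∀ j, η {s | grid y s = j} ≤ B) :
    η T * ENNReal.ofReal (((1 / 2) ^ y / Real.sqrt d) ^ d) ≤
      B * volume {u : Vec d | ∃ s ∈ T, ‖u - s‖ ≤ (1 / 2) ^ y} := by
  set Cs : Set (Fin d → ℤ) := {c | ∃ s ∈ T, grid y s = c} with hCs
  have h1 : η T ≤ ∑' _ : Cs, B := by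
    calc η T ≤ η (⋃ c : Cs, {s | grid y s = c}) := by
          apply measure_mono
          intro s hs
          exact Set.mem_iUnion.2 ⟨⟨grid y s, s, hs, rfl⟩, rfl⟩
      _ ≤ ∑' c : Cs, η {s | grid y s = c} := measure_iUnion_le _
      _ ≤ ∑' _ : Cs, B := ENNReal.tsum_le_tsum fun c => hB c
  have h2 : ∑' _ : Cs, ENNReal.ofReal (((1 / 2) ^ y / Real.sqrt d) ^ d) ≤
      volume {u : Vec d | ∃ s ∈ T, ‖u - s‖ ≤ (1 / 2) ^ y} := by
    calc ∑' _ : Cs, ENNReal.ofReal (((1 / 2) ^ y / Real.sqrt d) ^ d)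
        = ∑' c : Cs, volume {u : Vec d | grid y u = c} := by
          refine tsum_congr fun c => ?_
          obtain ⟨s, hs, hc⟩ := c.2
          rw [← hc, volume_grid hd hy]
      _ = volume (⋃ c : Cs, {u : Vec d | grid y u = c}) := by
          rw [measure_iUnion]
          · intro c c' hcc
            rw [Function.onFun, Set.disjoint_left]
            intro u hu hu'
            exact hcc (Subtype.ext (Eq.trans (Eq.symm hu) hu'))
          · intro c
            exact measurable_grid y (measurableSet_singleton _)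
      _ ≤ volume {u : Vec d | ∃ s ∈ T, ‖u - s‖ ≤ (1 / 2) ^ y} := by
          apply measure_mono
          intro u hu
          obtain ⟨⟨c, s, hs, hc⟩, hu'⟩ := Set.mem_iUnion.1 hu
          exact ⟨s, hs, grid_diam hy u s (Eq.trans hu' (Eq.symm hc))⟩
  calc η T * ENNReal.ofReal (((1 / 2) ^ y / Real.sqrt d) ^ d)
      ≤ (∑' _ : Cs, B) * ENNReal.ofReal (((1 / 2) ^ y / Real.sqrt d) ^ d) := by gcongr
    _ = B * ∑' _ : Cs, ENNReal.ofReal (((1 / 2) ^ y / Real.sqrt d) ^ d) := by
        rw [← ENNReal.tsum_mul_right, ← ENNReal.tsum_mul_left]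
    _ ≤ _ := by gcongr

/-- The measure of the part of a cell near a subspace. -/
theorem tube_claim {d α : ℕ} (hd : 1 ≤ d) (η : Measure (Vec d)) (x j : ℕ) (hj : 1 ≤ j)
    (i : Fin d → ℤ)
    (hη : ∀ c, η {s | grid (x + j) s = c} ≤ ENNReal.ofReal (2 ^ d * (1 / 2) ^ (α * (x + j))))
    (L : Submodule ℝ (Vec d)) :
    η {s | (grid x s = i ∧ ‖s‖ ≤ 1) ∧ Metric.infDist s (L : Set (Vec d)) ≤ (1 / 2) ^ (x + j)} ≤
      ENNReal.ofReal (80 ^ d * 2 ^ (Module.finrank ℝ L * j) * (1 / 2) ^ (α * (x + j))) := by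
  set T := {s : Vec d | (grid x s = i ∧ ‖s‖ ≤ 1) ∧
    Metric.infDist s (L : Set (Vec d)) ≤ (1 / 2) ^ (x + j)} with hT
  rcases T.eq_empty_or_nonempty with hemp | ⟨s₁, hs₁⟩
  · rw [hemp, measure_empty]
    exact zero_le
  have hd' : (0 : ℝ) < Real.sqrt d := Real.sqrt_pos.2 (by exact_mod_cast hd)
  have hclosed : IsClosed (L : Set (Vec d)) := Submodule.closed_of_finiteDimensional L
  obtain ⟨l, hl, hdl⟩ := hclosed.exists_infDist_eq_dist ⟨0, L.zero_mem⟩ s₁
  have hdl' : ‖s₁ - l‖ ≤ (1 / 2) ^ (x + j) := by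
    rw [← dist_eq_norm, ← hdl]
    exact hs₁.2
  have hpx : (0 : ℝ) < (1 / 2) ^ x := by positivity
  have hpj : (1 / 2 : ℝ) ^ (x + j) ≤ (1 / 2) ^ x / 2 := by
    obtain ⟨j', rfl⟩ : ∃ j', j = j' + 1 := ⟨j - 1, by omega⟩
    have h1 : (1 / 2 : ℝ) ^ j' ≤ 1 := pow_le_one₀ (by norm_num) (by norm_num)
    calc (1 / 2 : ℝ) ^ (x + (j' + 1)) = (1 / 2) ^ x / 2 * (1 / 2) ^ j' := by ring
      _ ≤ (1 / 2) ^ x / 2 * 1 := mul_le_mul_of_nonneg_left h1 (by positivity)
      _ = (1 / 2) ^ x / 2 := mul_one _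
  have hcells := tube_cells hd (show 1 ≤ x + j by omega) η T _ hη
  have hsub : {u : Vec d | ∃ s ∈ T, ‖u - s‖ ≤ (1 / 2) ^ (x + j)} ⊆
      (fun u => u + (-l)) ⁻¹' {u : Vec d | ‖u‖ ≤ 4 * (1 / 2) ^ x ∧
        Metric.infDist u (L : Set (Vec d)) ≤ (1 / 2) ^ j / 2 * (4 * (1 / 2) ^ x)} := by
    rintro u ⟨s, hs, hus⟩
    have h1 : ‖s - s₁‖ ≤ 2 * (1 / 2) ^ x := by
      rcases Nat.eq_zero_or_pos x with hx | hx
      · subst hx
        rw [pow_zero, mul_one]
        refine (norm_sub_le _ _).trans ?_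
        linarith [hs.1.2, hs₁.1.2]
      · have := grid_diam hx s s₁ (hs.1.1.trans hs₁.1.1.symm)
        linarith
    refine ⟨?_, ?_⟩
    · have e1 : u + -l = (u - s) + (s - s₁) + (s₁ - l) := by abel
      change ‖u + -l‖ ≤ _
      rw [e1]
      have := norm_add₃_le (a := u - s) (b := s - s₁) (c := s₁ - l)
      linarith
    · obtain ⟨m, hm, hdm⟩ := hclosed.exists_infDist_eq_dist ⟨0, L.zero_mem⟩ s
      have h2 : ‖s - m‖ ≤ (1 / 2) ^ (x + j) := by
        rw [← dist_eq_norm, ← hdm]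
        exact hs.2
      have h3 : Metric.infDist (u + -l) (L : Set (Vec d)) ≤ dist (u + -l) (m + -l) :=
        Metric.infDist_le_dist_of_mem (L.add_mem hm (L.neg_mem hl))
      refine h3.trans ?_
      rw [dist_add_right, dist_eq_norm]
      have e1 : u - m = (u - s) + (s - m) := by abel
      rw [e1]
      refine (norm_add_le _ _).trans ?_
      have e2 : (1 / 2 : ℝ) ^ j / 2 * (4 * (1 / 2) ^ x) = 2 * (1 / 2) ^ (x + j) := by ring
      rw [e2]
      linarith
  have hvol : volume {u : Vec d | ∃ s ∈ T, ‖u - s‖ ≤ (1 / 2) ^ (x + j)} ≤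
      ENNReal.ofReal (((1 / 2) ^ j / 2) ^ (d - Module.finrank ℝ L) *
        ((2 * (4 * (1 / 2) ^ x) / Real.sqrt d) ^ d * 5 ^ d)) := by
    refine (measure_mono hsub).trans ?_
    rw [measure_preimage_add_right]
    refine (volume_tube L (4 * (1 / 2) ^ x) ((1 / 2) ^ j / 2) (by positivity) (by positivity)
      ?_).trans ?_
    · have h1 : (1 / 2 : ℝ) ^ j ≤ 1 := pow_le_one₀ (by norm_num) (by norm_num)
      linarith
    · rw [ENNReal.ofReal_mul (by positivity)]
      gcongr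
      have e1 : 2 * (4 * (1 / 2 : ℝ) ^ x) = (2 * (4 * (1 / 2) ^ x) / Real.sqrt d) * Real.sqrt d := by
        rw [div_mul_cancel₀ _ hd'.ne']
      conv_lhs => rw [e1]
      rw [Measure.addHaar_closedBall_mul volume (0 : Vec d) (by positivity) hd'.le,
        finrank_euclideanSpace_fin, ENNReal.ofReal_mul (by positivity)]
      gcongr
      exact volume_ball_le hd
  have hv : 0 < ((1 / 2 : ℝ) ^ (x + j) / Real.sqrt d) ^ d := by positivity
  have hle : η T * ENNReal.ofReal (((1 / 2) ^ (x + j) / Real.sqrt d) ^ d) ≤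
      ENNReal.ofReal (80 ^ d * 2 ^ (Module.finrank ℝ L * j) * (1 / 2) ^ (α * (x + j))) *
        ENNReal.ofReal (((1 / 2) ^ (x + j) / Real.sqrt d) ^ d) := by
    refine hcells.trans ((mul_le_mul_right hvol _).trans ?_)
    rw [← ENNReal.ofReal_mul (by positivity), ← ENNReal.ofReal_mul (by positivity)]
    apply ENNReal.ofReal_le_ofReal
    have hk : Module.finrank ℝ L ≤ d := by
      have := Submodule.finrank_le L
      rwa [finrank_euclideanSpace_fin] at this
    obtain ⟨m, hm⟩ := Nat.exists_eq_add_of_le hk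
    have hm' : d - Module.finrank ℝ L = m := by omega
    rw [hm']
    have h1 : ((1 / 2 : ℝ) ^ j / 2) ^ m ≤ ((1 / 2) ^ j) ^ m :=
      pow_le_pow_left₀ (by positivity) (by linarith [show (0 : ℝ) < (1 / 2) ^ j by positivity]) m
    have h2 : (2 : ℝ) ^ (Module.finrank ℝ L * j) * ((1 / 2) ^ j) ^ d = ((1 / 2) ^ j) ^ m := by
      calc (2 : ℝ) ^ (Module.finrank ℝ L * j) * ((1 / 2) ^ j) ^ d
          = (2 : ℝ) ^ (Module.finrank ℝ L * j) * ((1 / 2) ^ j) ^ (Module.finrank ℝ L + m) := by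
            rw [← hm]
        _ = (2 * (1 / 2 : ℝ)) ^ (Module.finrank ℝ L * j) * ((1 / 2) ^ j) ^ m := by
            rw [mul_pow, pow_add, ← pow_mul (1 / 2 : ℝ) j (Module.finrank ℝ L), mul_comm j]
            ring
        _ = ((1 / 2) ^ j) ^ m := by norm_num
    have h3 : (0 : ℝ) ≤ 2 ^ d * (1 / 2) ^ (α * (x + j)) *
        ((2 * (4 * (1 / 2) ^ x) / Real.sqrt d) ^ d * 5 ^ d) := by positivity
    calc 2 ^ d * (1 / 2) ^ (α * (x + j)) * (((1 / 2 : ℝ) ^ j / 2) ^ m *
          ((2 * (4 * (1 / 2) ^ x) / Real.sqrt d) ^ d * 5 ^ d))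
        = (2 ^ d * (1 / 2) ^ (α * (x + j)) *
          ((2 * (4 * (1 / 2) ^ x) / Real.sqrt d) ^ d * 5 ^ d)) * ((1 / 2 : ℝ) ^ j / 2) ^ m := by
            ring
      _ ≤ (2 ^ d * (1 / 2) ^ (α * (x + j)) *
          ((2 * (4 * (1 / 2) ^ x) / Real.sqrt d) ^ d * 5 ^ d)) * ((1 / 2) ^ j) ^ m :=
            mul_le_mul_of_nonneg_left h1 h3
      _ = (2 ^ d * (1 / 2) ^ (α * (x + j)) *
          ((2 * (4 * (1 / 2) ^ x) / Real.sqrt d) ^ d * 5 ^ d)) *
            ((2 : ℝ) ^ (Module.finrank ℝ L * j) * ((1 / 2) ^ j) ^ d) := by rw [h2]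
      _ = 80 ^ d * 2 ^ (Module.finrank ℝ L * j) * (1 / 2) ^ (α * (x + j)) *
          ((1 / 2) ^ (x + j) / Real.sqrt d) ^ d := by
            have e1 : ((1 / 2 : ℝ) ^ (x + j) / Real.sqrt d) ^ d =
              ((1 / 2) ^ x / Real.sqrt d) ^ d * ((1 / 2) ^ j) ^ d := by
              rw [← mul_pow]
              congr 1
              ring
            have e2 : (2 * (4 * (1 / 2 : ℝ) ^ x) / Real.sqrt d) ^ d =
              8 ^ d * ((1 / 2) ^ x / Real.sqrt d) ^ d := by
              rw [← mul_pow]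
              congr 1
              ring
            have e3 : (80 : ℝ) ^ d = 2 ^ d * 8 ^ d * 5 ^ d := by
              rw [← mul_pow, ← mul_pow]
              norm_num
            rw [e1, e2, e3]
            ring
  exact (ENNReal.mul_le_mul_iff_left (by positivity) ENNReal.ofReal_ne_top).1 hle

/-- Dyadic decomposition of the negative power of a distance. -/
theorem tube_pointwise (x N : ℕ) {D : ℝ} (hD : 0 ≤ D) :
    (ENNReal.ofReal ((1 / 2) ^ x) / ENNReal.ofReal D) ^ (2 * N) ≤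
      1 + ∑' j : ℕ, (if D ≤ (1 / 2) ^ (x + j) then
        ENNReal.ofReal (2 ^ (2 * N * (j + 1))) else 0) := by
  have hpx : (0 : ℝ) < (1 / 2) ^ x := by positivity
  rcases lt_or_ge ((1 / 2) ^ x) D with h | h
  · refine le_trans ?_ le_self_add
    apply pow_le_one₀ (zero_le)
    apply ENNReal.div_le_of_le_mul
    rw [one_mul]
    exact ENNReal.ofReal_le_ofReal h.le
  · rcases hD.eq_or_lt with h0 | h0
    · subst h0
      have h1 : ∑' j : ℕ, (if (0 : ℝ) ≤ (1 / 2) ^ (x + j) then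
          ENNReal.ofReal (2 ^ (2 * N * (j + 1))) else 0) = ⊤ := by
        rw [eq_top_iff, ← ENNReal.tsum_const_eq_top_of_ne_zero (α := ℕ) (c := 1) one_ne_zero]
        refine ENNReal.tsum_le_tsum fun j => ?_
        rw [if_pos (by positivity), ← ENNReal.ofReal_one]
        exact ENNReal.ofReal_le_ofReal (one_le_pow₀ (by norm_num))
      rw [h1, add_top]
      exact le_top
    · have h2 : D / (1 / 2) ^ x ≤ 1 := (div_le_one hpx).2 h
      obtain ⟨j, hj1, hj2⟩ := exists_nat_pow_near_of_lt_one (div_pos h0 hpx) h2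
        (show (0 : ℝ) < 1 / 2 by norm_num) (by norm_num)
      rw [lt_div_iff₀ hpx] at hj1
      rw [div_le_iff₀ hpx] at hj2
      have h3 : D ≤ (1 / 2) ^ (x + j) := by
        rw [pow_add, mul_comm]
        exact hj2
      refine le_trans ?_ (le_add_left (ENNReal.le_tsum j))
      rw [if_pos h3, ← ENNReal.ofReal_div_of_pos h0, ← ENNReal.ofReal_pow (by positivity)]
      apply ENNReal.ofReal_le_ofReal
      rw [mul_comm (2 * N) (j + 1), pow_mul (2 : ℝ) (j + 1)]
      apply pow_le_pow_left₀ (by positivity)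
      rw [div_le_iff₀ h0]
      have h4 : (2 : ℝ) ^ (j + 1) * ((1 / 2) ^ (j + 1) * (1 / 2) ^ x) = (1 / 2) ^ x := by
        rw [← mul_assoc, ← mul_pow]
        norm_num
      calc (1 / 2 : ℝ) ^ x = (2 : ℝ) ^ (j + 1) * ((1 / 2) ^ (j + 1) * (1 / 2) ^ x) := h4.symm
        _ ≤ (2 : ℝ) ^ (j + 1) * D := mul_le_mul_of_nonneg_left hj1.le (by positivity)

/-- A finite measure on a grid cell of level `x` that satisfies a Frostman condition with
exponent `α` has a bounded negative moment of the distance to low-dimensional subspaces. -/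
theorem tube_integral {d N m α : ℕ} (hd : 1 ≤ d) (hα : m + 2 * N + 1 ≤ α)
    (η : Measure (Vec d)) [IsFiniteMeasure η] (x : ℕ) (i : Fin d → ℤ)
    (hsupp : ∀ᵐ s ∂η, grid x s = i ∧ ‖s‖ ≤ 1)
    (hη : ∀ y, x ≤ y → ∀ j, η {s | grid y s = j} ≤ ENNReal.ofReal (2 ^ d * (1 / 2) ^ (α * y)))
    (L : Submodule ℝ (Vec d)) (hL : Module.finrank ℝ L ≤ m) :
    ∫⁻ s, (ENNReal.ofReal ((1 / 2) ^ x) / ENNReal.ofReal (Metric.infDist s (L : Set (Vec d))))
        ^ (2 * N) ∂η
      ≤ ENNReal.ofReal (2 ^ (2 * N) * 240 ^ d * (1 / 2) ^ (α * x)) := by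
  set k := Module.finrank ℝ L with hk
  have huniv : η Set.univ ≤ ENNReal.ofReal (2 ^ d * (1 / 2) ^ (α * x)) := by
    refine le_trans ?_ (hη x le_rfl i)
    apply measure_mono_ae
    filter_upwards [hsupp] with s hs _
    exact hs.1
  have hpow : (2 : ℝ) ^ d ≤ 80 ^ d := pow_le_pow_left₀ (by norm_num) (by norm_num) d
  have hclaim : ∀ j : ℕ, η {s | Metric.infDist s (L : Set (Vec d)) ≤ (1 / 2) ^ (x + j)} ≤
      ENNReal.ofReal (80 ^ d * 2 ^ (k * j) * (1 / 2) ^ (α * (x + j))) := by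
    intro j
    rcases Nat.eq_zero_or_pos j with hj | hj
    · subst hj
      refine (measure_mono (Set.subset_univ _)).trans (huniv.trans ?_)
      apply ENNReal.ofReal_le_ofReal
      rw [Nat.mul_zero, pow_zero, mul_one, add_zero]
      exact mul_le_mul_of_nonneg_right hpow (by positivity)
    · refine le_trans ?_ (tube_claim hd η x j hj i (hη (x + j) (by omega)) L)
      apply measure_mono_ae
      filter_upwards [hsupp] with s hs hs'
      exact ⟨hs, hs'⟩
  have hmeas : ∀ j : ℕ, MeasurableSet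
      {s : Vec d | Metric.infDist s (L : Set (Vec d)) ≤ (1 / 2) ^ (x + j)} := fun j =>
    measurableSet_le measurable_infDist measurable_const
  have h1 : ∫⁻ s, (ENNReal.ofReal ((1 / 2) ^ x) /
      ENNReal.ofReal (Metric.infDist s (L : Set (Vec d)))) ^ (2 * N) ∂η ≤
      η Set.univ + ∑' j : ℕ, ENNReal.ofReal (2 ^ (2 * N * (j + 1))) *
        η {s | Metric.infDist s (L : Set (Vec d)) ≤ (1 / 2) ^ (x + j)} := by
    calc ∫⁻ s, (ENNReal.ofReal ((1 / 2) ^ x) /
          ENNReal.ofReal (Metric.infDist s (L : Set (Vec d)))) ^ (2 * N) ∂η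
        ≤ ∫⁻ s, (1 + ∑' j : ℕ, Set.indicator
            {s : Vec d | Metric.infDist s (L : Set (Vec d)) ≤ (1 / 2) ^ (x + j)}
            (fun _ => ENNReal.ofReal (2 ^ (2 * N * (j + 1)))) s) ∂η := by
          refine lintegral_mono fun s => ?_
          refine (tube_pointwise x N Metric.infDist_nonneg).trans (le_of_eq ?_)
          congr 1
      _ = η Set.univ + ∑' j : ℕ, ENNReal.ofReal (2 ^ (2 * N * (j + 1))) *
        η {s | Metric.infDist s (L : Set (Vec d)) ≤ (1 / 2) ^ (x + j)} := by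
          rw [lintegral_add_left measurable_const, lintegral_one, lintegral_tsum]
          · congr 1
            refine tsum_congr fun j => ?_
            rw [lintegral_indicator_const (hmeas j)]
          · intro j
            exact (measurable_const.indicator (hmeas j)).aemeasurable
  refine h1.trans ?_
  set c : ℝ := 2 ^ (2 * N) * 80 ^ d * (1 / 2) ^ (α * x) with hc
  have hc0 : 0 ≤ c := by positivity
  have h2 : ∑' j : ℕ, ENNReal.ofReal (2 ^ (2 * N * (j + 1))) *
        η {s | Metric.infDist s (L : Set (Vec d)) ≤ (1 / 2) ^ (x + j)} ≤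
      ENNReal.ofReal (c * 2) := by
    calc _ ≤ ∑' j : ℕ, ENNReal.ofReal (c * (1 / 2) ^ j) := by
          refine ENNReal.tsum_le_tsum fun j => ?_
          refine (mul_le_mul_right (hclaim j) _).trans ?_
          rw [← ENNReal.ofReal_mul (by positivity)]
          apply ENNReal.ofReal_le_ofReal
          obtain ⟨β, hβ⟩ := Nat.exists_eq_add_of_le (show k + 2 * N + 1 ≤ α by omega)
          have e1 : (1 / 2 : ℝ) ^ (α * (x + j)) = (1 / 2) ^ (α * x) *
              ((1 / 2) ^ ((2 * N + k) * j) * ((1 / 2) ^ j * (1 / 2) ^ (β * j))) := by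
            rw [← pow_add, ← pow_add, ← pow_add]
            congr 1
            rw [hβ]
            ring
          have e2 : (2 : ℝ) ^ (2 * N * (j + 1)) * 2 ^ (k * j) =
              2 ^ (2 * N) * 2 ^ ((2 * N + k) * j) := by
            rw [← pow_add, ← pow_add]
            congr 1
            ring
          have e3 : (2 : ℝ) ^ ((2 * N + k) * j) * (1 / 2) ^ ((2 * N + k) * j) = 1 := by
            rw [← mul_pow]
            norm_num
          have e4 : (1 / 2 : ℝ) ^ (β * j) ≤ 1 := pow_le_one₀ (by norm_num) (by norm_num)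
          calc (2 : ℝ) ^ (2 * N * (j + 1)) * (80 ^ d * 2 ^ (k * j) * (1 / 2) ^ (α * (x + j)))
              = ((2 : ℝ) ^ (2 * N * (j + 1)) * 2 ^ (k * j)) * 80 ^ d *
                (1 / 2) ^ (α * (x + j)) := by ring
            _ = (2 ^ (2 * N) * 2 ^ ((2 * N + k) * j)) * 80 ^ d * ((1 / 2) ^ (α * x) *
              ((1 / 2) ^ ((2 * N + k) * j) * ((1 / 2) ^ j * (1 / 2) ^ (β * j)))) := by
                rw [e1, e2]
            _ = c * (1 / 2) ^ j * (2 ^ ((2 * N + k) * j) * (1 / 2) ^ ((2 * N + k) * j)) *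
                (1 / 2) ^ (β * j) := by
                rw [hc]
                ring
            _ = c * (1 / 2) ^ j * (1 / 2) ^ (β * j) := by rw [e3, mul_one]
            _ ≤ c * (1 / 2) ^ j * 1 := mul_le_mul_of_nonneg_left e4 (by positivity)
            _ = c * (1 / 2) ^ j := mul_one _
      _ = ENNReal.ofReal (∑' j : ℕ, c * (1 / 2) ^ j) := by
          rw [ENNReal.ofReal_tsum_of_nonneg (fun j => by positivity)
            (summable_geometric_two.mul_left c)]
      _ = ENNReal.ofReal (c * 2) := by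
          rw [tsum_mul_left, tsum_geometric_two]
  calc η Set.univ + ∑' j : ℕ, ENNReal.ofReal (2 ^ (2 * N * (j + 1))) *
        η {s | Metric.infDist s (L : Set (Vec d)) ≤ (1 / 2) ^ (x + j)}
      ≤ ENNReal.ofReal (2 ^ d * (1 / 2) ^ (α * x)) + ENNReal.ofReal (c * 2) :=
        add_le_add huniv h2
    _ = ENNReal.ofReal (2 ^ d * (1 / 2) ^ (α * x) + c * 2) :=
        (ENNReal.ofReal_add (by positivity) (by positivity)).symm
    _ ≤ _ := by
        apply ENNReal.ofReal_le_ofReal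
        have e1 : (1 : ℝ) ≤ 2 ^ (2 * N) := one_le_pow₀ (by norm_num)
        have e2 : (3 : ℝ) * 80 ^ d ≤ 240 ^ d := by
          have e3 : (3 : ℝ) ^ 1 ≤ 3 ^ d := pow_le_pow_right₀ (by norm_num) hd
          calc (3 : ℝ) * 80 ^ d ≤ 3 ^ d * 80 ^ d :=
                mul_le_mul_of_nonneg_right (by simpa using e3) (by positivity)
            _ = 240 ^ d := by
                rw [← mul_pow]
                norm_num
        have e4 : (0 : ℝ) < (1 / 2) ^ (α * x) := by positivity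
        have e5 : (2 : ℝ) ^ d ≤ 2 ^ (2 * N) * 80 ^ d := by
          calc (2 : ℝ) ^ d ≤ 1 * 80 ^ d := by rw [one_mul]; exact hpow
            _ ≤ 2 ^ (2 * N) * 80 ^ d := mul_le_mul_of_nonneg_right e1 (by positivity)
        calc 2 ^ d * (1 / 2) ^ (α * x) + c * 2
            = (2 ^ d + 2 * (2 ^ (2 * N) * 80 ^ d)) * (1 / 2) ^ (α * x) := by
              rw [hc]
              ring
          _ ≤ (2 ^ (2 * N) * 240 ^ d) * (1 / 2) ^ (α * x) := by
              apply mul_le_mul_of_nonneg_right _ e4.le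
              calc (2 : ℝ) ^ d + 2 * (2 ^ (2 * N) * 80 ^ d) ≤ 2 ^ (2 * N) * (3 * 80 ^ d) := by
                    linarith
                _ ≤ 2 ^ (2 * N) * 240 ^ d := mul_le_mul_of_nonneg_left e2 (by positivity)

end Vale.Agent.P309
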