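import Vale.Agent.Lib.P309.Core

open MeasureTheory ProbabilityTheory

namespace Vale.Agent.P309

/-- One-step transition probabilities, averaged over the fresh row. -/
noncomputable def stepP {d : ℕ} {V : Type*} (g : ℕ → V → V → Vec d → ℝ → ℝ) (t : ℕ) (v W : V)
    (s : Vec d) : ℝ :=
  ∫ x, g t v W x (inner ℝ x s) ∂(stdGaussian (Vec d))

/-- Probability that the state at time `t` is `v`, given the signal `s`. -/
noncomputable def chain {d : ℕ} {V : Type*} [Fintype V] (g : ℕ → V → V → Vec d → ℝ → ℝ)
    (p0 : V → ℝ) : ℕ → V → Vec d → ℝ
  | 0, v, _ => p0 v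
  | t + 1, W, s => ∑ v, chain g p0 t v s * stepP g t v W s

theorem measurable_lab_win {d N : ℕ} :
    Measurable (fun z : Vec d × (Fin N → Vec d) => lab z.2 z.1) := by
  refine measurable_pi_lambda _ fun i => ?_
  exact ((measurable_pi_apply i).comp measurable_snd).inner measurable_fst

theorem measurable_avgK {d N : ℕ} (f : (Fin N → Vec d) → (Fin N → ℝ) → ℝ)
    (hf : Measurable (Function.uncurry f)) : Measurable (avgK f) := by
  have h1 : Measurable (Function.uncurry fun (s : Vec d) (X : Fin N → Vec d) => f X (lab X s)) := by
    have h2 : (Function.uncurry fun (s : Vec d) (X : Fin N → Vec d) => f X (lab X s)) =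
        Function.uncurry f ∘ fun z : Vec d × (Fin N → Vec d) => (z.2, lab z.2 z.1) := rfl
    rw [h2]
    exact hf.comp (measurable_snd.prodMk measurable_lab_win)
  exact h1.stronglyMeasurable.integral_prod_right.measurable

section

variable {d : ℕ} {V : Type*} [Fintype V] (g : ℕ → V → V → Vec d → ℝ → ℝ)
  (hg : ∀ t v W, Measurable (Function.uncurry (g t v W)))
  (hg0 : ∀ t v W x y, 0 ≤ g t v W x y) (hg1 : ∀ t v x y, ∑ W, g t v W x y = 1) (p0 : V → ℝ)

include hg0 hg1 in
theorem g_le_one (t : ℕ) (v W : V) (x : Vec d) (y : ℝ) : g t v W x y ≤ 1 := by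
  rw [← hg1 t v x y]
  exact Finset.single_le_sum (f := fun W => g t v W x y) (fun W _ => hg0 t v W x y)
    (Finset.mem_univ W)

include hg in
theorem measurable_g_row (t : ℕ) (v W : V) (s : Vec d) :
    Measurable fun x : Vec d => g t v W x (inner ℝ x s) := by
  have h2 : (fun x : Vec d => g t v W x (inner ℝ x s)) =
      Function.uncurry (g t v W) ∘ fun x : Vec d => (x, inner ℝ x s) := rfl
  rw [h2]
  exact (hg t v W).comp (measurable_id.prodMk (measurable_id.inner measurable_const))

include hg hg0 hg1 in
theorem integrable_g_row (t : ℕ) (v W : V) (s : Vec d) :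
    Integrable (fun x : Vec d => g t v W x (inner ℝ x s)) (stdGaussian (Vec d)) := by
  refine Integrable.of_bound (measurable_g_row g hg t v W s).aestronglyMeasurable 1
    (Filter.Eventually.of_forall fun x => ?_)
  rw [Real.norm_eq_abs, abs_of_nonneg (hg0 t v W _ _)]
  exact g_le_one g hg0 hg1 t v W _ _

include hg in
theorem measurable_stepP (t : ℕ) (v W : V) : Measurable (stepP g t v W) := by
  have h1 : Measurable (Function.uncurry fun (s x : Vec d) => g t v W x (inner ℝ x s)) := by
    have h2 : (Function.uncurry fun (s x : Vec d) => g t v W x (inner ℝ x s)) =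
        Function.uncurry (g t v W) ∘ fun z : Vec d × Vec d => (z.2, inner ℝ z.2 z.1) := rfl
    rw [h2]
    exact (hg t v W).comp (measurable_snd.prodMk (measurable_snd.inner measurable_fst))
  exact h1.stronglyMeasurable.integral_prod_right.measurable

include hg0 in
theorem stepP_nonneg (t : ℕ) (v W : V) (s : Vec d) : 0 ≤ stepP g t v W s :=
  integral_nonneg fun x => hg0 t v W x _

include hg hg0 hg1 in
theorem stepP_sum (t : ℕ) (v : V) (s : Vec d) : ∑ W, stepP g t v W s = 1 := by
  unfold stepP
  rw [← integral_finsetSum _ fun W _ => integrable_g_row g hg hg0 hg1 t v W s]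
  simp only [hg1]
  simp

include hg hg0 hg1

theorem measurable_chain (t : ℕ) (v : V) : Measurable (chain g p0 t v) := by
  induction t generalizing v with
  | zero => exact measurable_const
  | succ t ih =>
    have h1 : chain g p0 (t + 1) v = fun s => ∑ u, chain g p0 t u s * stepP g t u v s := rfl
    rw [h1]
    exact Finset.measurable_sum _ fun u _ => (ih u).mul (measurable_stepP g hg t u v)

theorem chain_nonneg (h0 : ∀ v, 0 ≤ p0 v) (t : ℕ) (v : V) (s : Vec d) : 0 ≤ chain g p0 t v s := by
  induction t generalizing v with
  | zero => exact h0 v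
  | succ t ih => exact Finset.sum_nonneg fun u _ => mul_nonneg (ih u) (stepP_nonneg g hg0 t u v s)

theorem chain_sum (h1 : ∑ v, p0 v = 1) (t : ℕ) (s : Vec d) : ∑ v, chain g p0 t v s = 1 := by
  induction t with
  | zero => exact h1
  | succ t ih =>
    have h2 : ∑ v, chain g p0 (t + 1) v s = ∑ v, ∑ u, chain g p0 t u s * stepP g t u v s := rfl
    rw [h2, Finset.sum_comm]
    simp only [← Finset.mul_sum, stepP_sum g hg hg0 hg1, mul_one]
    exact ih

/-- `N` consecutive steps are one randomised transition that sees all rows and labels. -/
theorem exists_window (N t : ℕ) :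
    ∃ f : V → V → (Fin N → Vec d) → (Fin N → ℝ) → ℝ,
      (∀ v W, Measurable (Function.uncurry (f v W))) ∧ (∀ v W X y, 0 ≤ f v W X y) ∧
      (∀ v X y, ∑ W, f v W X y = 1) ∧
      ∀ W s, chain g p0 (t + N) W s = ∑ v, chain g p0 t v s * avgK (f v W) s := by
  classical
  induction N with
  | zero =>
    refine ⟨fun v W _ _ => if v = W then 1 else 0, fun v W => ?_, fun v W X y => ?_,
      fun v X y => ?_, fun W s => ?_⟩
    · exact measurable_const
    · dsimp only
      split_ifs
      · exact zero_le_one
      · exact le_refl _
    · simp
    · have h1 : ∀ v : V, avgK (d := d) (N := 0) (fun _ _ => if v = W then (1 : ℝ) else 0) s =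
          if v = W then 1 else 0 := by
        intro v
        unfold avgK
        rw [integral_const]
        simp
      simp only [h1]
      simp
  | succ N ih =>
    obtain ⟨f, hf, hf0, hf1, hfc⟩ := ih
    have hfle : ∀ v u X y, f v u X y ≤ 1 := by
      intro v u X y
      rw [← hf1 v X y]
      exact Finset.single_le_sum (f := fun W => f v W X y) (fun W _ => hf0 v W X y)
        (Finset.mem_univ u)
    refine ⟨fun v W X y => ∑ u, f v u (fun i => X i.castSucc) (fun i => y i.castSucc) *
      g (t + N) u W (X (Fin.last N)) (y (Fin.last N)), fun v W => ?_, fun v W X y => ?_,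
      fun v X y => ?_, fun W s => ?_⟩
    · have h1 : (Function.uncurry fun (X : Fin (N + 1) → Vec d) (y : Fin (N + 1) → ℝ) =>
          ∑ u, f v u (fun i => X i.castSucc) (fun i => y i.castSucc) *
            g (t + N) u W (X (Fin.last N)) (y (Fin.last N))) =
          fun z => ∑ u, Function.uncurry (f v u) (fun i => z.1 i.castSucc, fun i => z.2 i.castSucc) *
            Function.uncurry (g (t + N) u W) (z.1 (Fin.last N), z.2 (Fin.last N)) := rfl
      rw [h1]
      refine Finset.measurable_sum _ fun u _ => Measurable.mul ?_ ?_
      · refine (hf v u).comp (Measurable.prodMk ?_ ?_)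
        · exact measurable_pi_lambda _ fun i => (measurable_pi_apply _).comp measurable_fst
        · exact measurable_pi_lambda _ fun i => (measurable_pi_apply _).comp measurable_snd
      · refine (hg (t + N) u W).comp (Measurable.prodMk ?_ ?_)
        · exact (measurable_pi_apply _).comp measurable_fst
        · exact (measurable_pi_apply _).comp measurable_snd
    · exact Finset.sum_nonneg fun u _ => mul_nonneg (hf0 _ _ _ _) (hg0 _ _ _ _ _)
    · rw [Finset.sum_comm]
      simp only [← Finset.mul_sum, hg1, mul_one, hf1]
    · -- independence of the last row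
      have key : ∀ v u : V, ∫ X, f v u (fun i => X i.castSucc) (fun i => lab X s i.castSucc) *
          g (t + N) u W (X (Fin.last N)) (lab X s (Fin.last N)) ∂(gam d (N + 1)) =
          avgK (f v u) s * stepP g (t + N) u W s := by
        intro v u
        have hmp := measurePreserving_piFinSuccAbove (n := N) (α := fun _ => Vec d)
          (fun _ => stdGaussian (Vec d)) (Fin.last N)
        have h1 := hmp.integral_comp (MeasurableEquiv.measurableEmbedding _)
          (fun z : Vec d × (Fin N → Vec d) =>
            g (t + N) u W z.1 (inner ℝ z.1 s) * f v u z.2 (lab z.2 s))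
        have h2 : ∀ X : Fin (N + 1) → Vec d,
            (fun z : Vec d × (Fin N → Vec d) =>
              g (t + N) u W z.1 (inner ℝ z.1 s) * f v u z.2 (lab z.2 s))
              (MeasurableEquiv.piFinSuccAbove (fun _ => Vec d) (Fin.last N) X) =
            f v u (fun i => X i.castSucc) (fun i => lab X s i.castSucc) *
              g (t + N) u W (X (Fin.last N)) (lab X s (Fin.last N)) := by
          intro X
          have h3 : MeasurableEquiv.piFinSuccAbove (fun _ => Vec d) (Fin.last N) X =
              (X (Fin.last N), fun i => X i.castSucc) := by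
            refine Prod.ext rfl ?_
            funext i
            change X ((Fin.last N).succAbove i) = X i.castSucc
            rw [Fin.succAbove_last]
          rw [h3, mul_comm]
          rfl
        simp only [h2] at h1
        unfold gam
        rw [h1, integral_prod_mul (fun x : Vec d => g (t + N) u W x (inner ℝ x s))
          (fun X : Fin N → Vec d => f v u X (lab X s)), mul_comm]
        rfl
      have hint : ∀ v u : V, Integrable (fun X : Fin (N + 1) → Vec d =>
          f v u (fun i => X i.castSucc) (fun i => lab X s i.castSucc) *
          g (t + N) u W (X (Fin.last N)) (lab X s (Fin.last N))) (gam d (N + 1)) := by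
        intro v u
        have hlab : Measurable fun X : Fin (N + 1) → Vec d => lab X s :=
          measurable_lab_win.comp (measurable_const.prodMk measurable_id)
        refine Integrable.of_bound (Measurable.aestronglyMeasurable ?_) 1
          (Filter.Eventually.of_forall fun X => ?_)
        · refine Measurable.mul ?_ ?_
          · refine (hf v u).comp (Measurable.prodMk ?_ ?_)
            · exact measurable_pi_lambda _ fun i => measurable_pi_apply _
            · exact measurable_pi_lambda _ fun i => measurable_pi_iff.1 hlab i.castSucc
          · refine (hg (t + N) u W).comp (Measurable.prodMk ?_ ?_)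
            · exact measurable_pi_apply _
            · exact measurable_pi_iff.1 hlab (Fin.last N)
        · rw [Real.norm_eq_abs, abs_of_nonneg (mul_nonneg (hf0 _ _ _ _) (hg0 _ _ _ _ _))]
          exact mul_le_one₀ (hfle _ _ _ _) (hg0 _ _ _ _ _) (g_le_one g hg0 hg1 _ _ _ _ _)
      have h5 : ∀ v : V, avgK (fun X y => ∑ u, f v u (fun i => X i.castSucc)
          (fun i => y i.castSucc) * g (t + N) u W (X (Fin.last N)) (y (Fin.last N))) s =
          ∑ u, avgK (f v u) s * stepP g (t + N) u W s := by
        intro v
        unfold avgK
        rw [integral_finsetSum _ fun u _ => hint v u]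
        exact Finset.sum_congr rfl fun u _ => key v u
      have h6 : chain g p0 (t + (N + 1)) W s =
          ∑ u, chain g p0 (t + N) u s * stepP g (t + N) u W s := rfl
      rw [h6]
      simp only [h5, hfc]
      simp only [Finset.sum_mul, Finset.mul_sum]
      rw [Finset.sum_comm]
      refine Finset.sum_congr rfl fun v _ => Finset.sum_congr rfl fun u _ => ?_
      ring

end

end Vale.Agent.P309
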