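import Vale.Agent.Lib.P309.LocalLemma
import Vale.Agent.Lib.P309.Tube
import Vale.Agent.Lib.P309.PotStep
import Vale.Agent.Lib.P309.PotEnds
import Vale.Agent.Lib.P309.Window

open MeasureTheory ProbabilityTheory

namespace Vale.Agent.P309

/-- Weights of the levels. -/
noncomputable def cw (α x : ℕ) : ℝ := 2 ^ (α * x)

/-- Weight of the point level. -/
noncomputable def cst (d n α : ℕ) : ℝ := (1 / 2) ^ ((d - 1 - α) * n)

theorem cw_pos (α x : ℕ) : 0 < cw α x := by unfold cw; positivity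

theorem cst_pos (d n α : ℕ) : 0 < cst d n α := by unfold cst; positivity

theorem measurableSet_grid {d : ℕ} (x : ℕ) (i : Fin d → ℤ) :
    MeasurableSet {s : Vec d | grid x s = i} :=
  measurable_grid x (measurableSet_singleton i)

/-- Frostman property of `eta` at all levels. -/
theorem eta_frost {d n α : ℕ} (hd : 1 ≤ d) (hα : α ≤ d - 1) (p : Vec d → ℝ)
    (hp : Measurable p) (hp0 : ∀ s, 0 ≤ p s) (hp1 : ∀ s, p s ≤ 1) (y : ℕ) (j : Fin d → ℤ) :
    ∫⁻ s in {s | grid y s = j}, ENNReal.ofReal (eta (sphU d) grid (cw α) (cst d n α) n p s)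
        ∂(sphU d) ≤ ENNReal.ofReal (2 ^ d * (1 / 2) ^ (α * y)) := by
  have := isProbabilityMeasure_sphU hd
  have hmeas : Measurable (eta (sphU d) grid (cw α) (cst d n α) n p) :=
    measurable_eta _ _ measurable_grid _ _ _ _ hp
  have h0 : ∀ s, 0 ≤ eta (sphU d) grid (cw α) (cst d n α) n p s := fun s =>
    eta_nonneg _ _ _ _ _ (cw_pos α) (cst_pos d n α) p hp0 s
  have h1 : ∀ s, eta (sphU d) grid (cw α) (cst d n α) n p s ≤ 1 / cst d n α := fun s =>
    eta_le _ _ _ _ _ (cw_pos α) (cst_pos d n α) p hp0 s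
  by_cases hy : y ≤ n
  · have hint : Integrable (eta (sphU d) grid (cw α) (cst d n α) n p)
        ((sphU d).restrict {s | grid y s = j}) := by
      refine Integrable.of_bound hmeas.aestronglyMeasurable (1 / cst d n α) ?_
      filter_upwards with s
      rw [Real.norm_eq_abs, abs_of_nonneg (h0 s)]
      exact h1 s
    rw [← ofReal_integral_eq_lintegral_ofReal hint (Filter.Eventually.of_forall h0)]
    apply ENNReal.ofReal_le_ofReal
    refine (cell_eta_le (sphU d) grid measurable_grid (cw α) (cst d n α) n (cw_pos α)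
      (cst_pos d n α) p hp hp0 hp1 y hy j).trans ?_
    have h2 : 1 / cw α y = (1 / 2 : ℝ) ^ (α * y) := by
      unfold cw; rw [one_div_pow]
    rw [h2]
    have : (1 : ℝ) ≤ 2 ^ d := one_le_pow₀ (by norm_num)
    nlinarith [pow_pos (by norm_num : (0 : ℝ) < 1 / 2) (α * y)]
  · push Not at hy
    calc ∫⁻ s in {s | grid y s = j}, ENNReal.ofReal (eta (sphU d) grid (cw α) (cst d n α) n p s)
          ∂(sphU d)
        ≤ ∫⁻ s in {s | grid y s = j}, ENNReal.ofReal (1 / cst d n α) ∂(sphU d) := by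
          apply lintegral_mono
          intro s
          exact ENNReal.ofReal_le_ofReal (h1 s)
      _ = ENNReal.ofReal (1 / cst d n α) * sphU d {s | grid y s = j} := by
          rw [setLIntegral_const]
      _ ≤ ENNReal.ofReal (1 / cst d n α) * ENNReal.ofReal (2 ^ d * (1 / 2) ^ (y * (d - 1))) := by
          gcongr
          exact sphU_grid hd y j
      _ = ENNReal.ofReal (1 / cst d n α * (2 ^ d * (1 / 2) ^ (y * (d - 1)))) := by
          exact (ENNReal.ofReal_mul (one_div_pos.mpr (cst_pos d n α)).le).symm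
      _ ≤ ENNReal.ofReal (2 ^ d * (1 / 2) ^ (α * y)) := by
          apply ENNReal.ofReal_le_ofReal
          have h3 : 1 / cst d n α = 2 ^ ((d - 1 - α) * n) := by
            unfold cst; rw [one_div_pow, one_div_one_div]
          rw [h3]
          have h4 : (2 : ℝ) ^ ((d - 1 - α) * n) ≤ 2 ^ ((d - 1 - α) * y) :=
            pow_le_pow_right₀ (by norm_num) (Nat.mul_le_mul_left _ hy.le)
          have h5 : (2 : ℝ) ^ ((d - 1 - α) * y) * (1 / 2) ^ (y * (d - 1)) = (1 / 2) ^ (α * y) := by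
            have h6 : y * (d - 1) = (d - 1 - α) * y + α * y := by
              rw [← Nat.add_mul, Nat.sub_add_cancel hα, Nat.mul_comm]
            rw [h6, pow_add, ← mul_assoc, ← mul_pow]
            norm_num
          calc (2 : ℝ) ^ ((d - 1 - α) * n) * (2 ^ d * (1 / 2) ^ (y * (d - 1)))
              ≤ 2 ^ ((d - 1 - α) * y) * (2 ^ d * (1 / 2) ^ (y * (d - 1))) := by gcongr
            _ = 2 ^ d * (2 ^ ((d - 1 - α) * y) * (1 / 2) ^ (y * (d - 1))) := by ring
            _ = 2 ^ d * (1 / 2) ^ (α * y) := by rw [h5]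

/-- The tilted measures are probability measures. -/
theorem tilt_prob {Ω : Type*} [MeasurableSpace Ω] (μ : Measure Ω) (A : Set Ω)
    (η : Ω → ℝ) (hη : IntegrableOn η A μ) (h0 : ∀ s, 0 ≤ η s) (hZ : 0 < ∫ s in A, η s ∂μ) :
    IsProbabilityMeasure (tilt μ A η) := by
  constructor
  unfold tilt
  rw [Measure.smul_apply, withDensity_apply _ MeasurableSet.univ, Measure.restrict_univ,
    ← ofReal_integral_eq_lintegral_ofReal hη (Filter.Eventually.of_forall h0), smul_eq_mul]
  exact ENNReal.inv_mul_cancel (by simpa using hZ) ENNReal.ofReal_ne_top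

/-- Information bound inside one cell. -/
theorem info_le {d n m α r : ℕ} (hd : 1 ≤ d) (hα : m + 2 * r + 1 ≤ α) (hα' : α ≤ d - 1)
    {V : Type*} [Fintype V] [Nonempty V] (p : Vec d → ℝ) (hp : Measurable p)
    (hp0 : ∀ s, 0 ≤ p s) (hp1 : ∀ s, p s ≤ 1) (x : ℕ) (hx : x ≤ n) (i : Fin d → ℤ)
    (hZ : 0 < ∫ s in {s | grid x s = i}, eta (sphU d) grid (cw α) (cst d n α) n p s ∂(sphU d))
    (f : V → (Fin r → Vec d) → (Fin r → ℝ) → ℝ) (hf : ∀ W, Measurable (Function.uncurry (f W)))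
    (hf0 : ∀ W X y, 0 ≤ f W X y) (hf1 : ∀ X y, ∑ W, f W X y = 1) :
    infoR (tilt (sphU d) {s | grid x s = i} (eta (sphU d) grid (cw α) (cst d n α) n p))
        (fun W => avgK (f W))
      ≤ (Real.log (Fintype.card V) / (m + 1) + 6 * r + 2 * r * Real.log 2 + d * Real.log 240)
        - Real.log (cw α x *
          ∫ s in {s | grid x s = i}, eta (sphU d) grid (cw α) (cst d n α) n p s ∂(sphU d)) := by
  have := isProbabilityMeasure_sphU hd
  set η := eta (sphU d) grid (cw α) (cst d n α) n p with hηdef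
  set Z := ∫ s in {s | grid x s = i}, η s ∂(sphU d) with hZdef
  have hmeas : Measurable η := measurable_eta _ _ measurable_grid _ _ _ _ hp
  have h0 : ∀ s, 0 ≤ η s := fun s => eta_nonneg _ _ _ _ _ (cw_pos α) (cst_pos d n α) p hp0 s
  have h1 : ∀ s, η s ≤ 1 / cst d n α := fun s =>
    eta_le _ _ _ _ _ (cw_pos α) (cst_pos d n α) p hp0 s
  have hint : IntegrableOn η {s | grid x s = i} (sphU d) := by
    refine Integrable.of_bound hmeas.aestronglyMeasurable (1 / cst d n α) ?_
    filter_upwards with s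
    rw [Real.norm_eq_abs, abs_of_nonneg (h0 s)]
    exact h1 s
  have hρ := tilt_prob (sphU d) {s | grid x s = i} η hint h0 hZ
  set ρ := tilt (sphU d) {s | grid x s = i} η with hρdef
  -- the unnormalised measure
  set κ : Measure (Vec d) := ((sphU d).restrict {s | grid x s = i}).withDensity
    (fun s => ENNReal.ofReal (η s)) with hκdef
  have hκρ : ρ = (ENNReal.ofReal Z)⁻¹ • κ := rfl
  have hκfin : IsFiniteMeasure κ := by
    constructor
    rw [hκdef, withDensity_apply _ MeasurableSet.univ, Measure.restrict_univ,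
      ← ofReal_integral_eq_lintegral_ofReal hint (Filter.Eventually.of_forall h0)]
    exact ENNReal.ofReal_lt_top
  have hκsupp : ∀ᵐ s ∂κ, grid x s = i ∧ ‖s‖ ≤ 1 := by
    have hac : κ ≪ (sphU d).restrict {s | grid x s = i} := withDensity_absolutelyContinuous _ _
    apply hac.ae_le
    filter_upwards [ae_restrict_mem (measurableSet_grid x i),
      ae_restrict_of_ae (sphU_norm (d := d))] with s hs1 hs2
    exact ⟨hs1, hs2.le⟩
  have hκfrost : ∀ y, x ≤ y → ∀ j, κ {s | grid y s = j}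
      ≤ ENNReal.ofReal (2 ^ d * (1 / 2) ^ (α * y)) := by
    intro y _ j
    rw [hκdef, withDensity_apply _ (measurableSet_grid y j),
      Measure.restrict_restrict (measurableSet_grid y j)]
    refine le_trans ?_ (eta_frost (n := n) hd hα' p hp hp0 hp1 y j)
    exact lintegral_mono_set Set.inter_subset_left
  have hc := cw_pos α x
  have hcZ : cw α x * Z ≤ 1 := by
    have h2 := cell_eta_le (sphU d) grid measurable_grid (cw α) (cst d n α) n (cw_pos α)
      (cst_pos d n α) p hp hp0 hp1 x hx i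
    calc cw α x * Z ≤ cw α x * (1 / cw α x) := by
          apply mul_le_mul_of_nonneg_left _ hc.le
          exact h2
      _ = 1 := by field_simp
  set Λ : ℝ := 2 ^ (2 * r) * 240 ^ d / (cw α x * Z) with hΛdef
  have hΛ : 0 < Λ := by positivity
  have hL : ∀ L : Submodule ℝ (Vec d), Module.finrank ℝ L ≤ m →
      ∫⁻ s, (ENNReal.ofReal ((1 / 2) ^ x)
        / ENNReal.ofReal (Metric.infDist s (L : Set (Vec d)))) ^ (2 * r) ∂ρ
        ≤ ENNReal.ofReal Λ := by
    intro L hLm
    rw [hκρ, lintegral_smul_measure]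
    have h2 := tube_integral (N := r) hd hα κ x i hκsupp hκfrost L hLm
    calc (ENNReal.ofReal Z)⁻¹ • ∫⁻ s, (ENNReal.ofReal ((1 / 2) ^ x)
          / ENNReal.ofReal (Metric.infDist s (L : Set (Vec d)))) ^ (2 * r) ∂κ
        ≤ (ENNReal.ofReal Z)⁻¹ * ENNReal.ofReal (2 ^ (2 * r) * 240 ^ d * (1 / 2) ^ (α * x)) := by
          rw [smul_eq_mul]
          gcongr
      _ = ENNReal.ofReal Λ := by
          rw [← ENNReal.ofReal_inv_of_pos hZ, ← ENNReal.ofReal_mul (by positivity)]
          congr 1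
          rw [hΛdef]
          unfold cw
          rw [one_div_pow]
          field_simp
  obtain ⟨s₀, hs₀⟩ : ∃ s₀ : Vec d, ∀ᵐ s ∂ρ, ‖s - s₀‖ ≤ (1 / 2) ^ x := by
    have hae : ∀ᵐ s ∂ρ, grid x s = i ∧ ‖s‖ ≤ 1 := by
      rw [hκρ]
      exact Measure.ae_smul_measure hκsupp _
    rcases Nat.eq_zero_or_pos x with h | h
    · refine ⟨0, ?_⟩
      filter_upwards [hae] with s hs
      rw [sub_zero, h, pow_zero]
      exact hs.2
    · have : ∃ s₀ : Vec d, grid x s₀ = i := by
        by_contra hcon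
        push Not at hcon
        have : {s : Vec d | grid x s = i} = ∅ := by
          ext s; simp [hcon s]
        rw [hZdef, this] at hZ
        simp at hZ
      obtain ⟨s₀, hs₀⟩ := this
      refine ⟨s₀, ?_⟩
      filter_upwards [hae] with s hs
      exact grid_diam h s s₀ (hs.1.trans hs₀.symm)
  have hloc := local_lemma (m := m) ρ s₀ ((1 / 2) ^ x) Λ (by positivity) hs₀ hΛ hL f hf hf0 hf1
  have hlogΛ : Real.log Λ = 2 * r * Real.log 2 + d * Real.log 240 - Real.log (cw α x * Z) := by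
    rw [hΛdef, Real.log_div (by positivity) (by positivity), Real.log_mul (by positivity)
      (by positivity), Real.log_pow, Real.log_pow]
    push_cast
    ring
  have hlog0 : Real.log (cw α x * Z) ≤ 0 := Real.log_nonpos (by positivity) hcZ
  have hΛ0 : 0 ≤ Real.log Λ := by
    rw [hlogΛ]
    have := Real.log_nonneg (by norm_num : (1 : ℝ) ≤ 2)
    have := Real.log_nonneg (by norm_num : (1 : ℝ) ≤ 240)
    have : (0 : ℝ) ≤ 2 * r * Real.log 2 := by positivity
    have : (0 : ℝ) ≤ d * Real.log 240 := by positivity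
    linarith
  have hm1 : (0 : ℝ) < m + 1 := by positivity
  have h3 : infoR ρ (fun W => avgK (f W)) ≤
      (Real.log (Fintype.card V) + 6 * r * m + m * Real.log Λ) / (m + 1) := by
    rw [le_div_iff₀ hm1]
    linarith
  have h4 : (Real.log (Fintype.card V) + 6 * r * m + m * Real.log Λ) / (m + 1)
      ≤ Real.log (Fintype.card V) / (m + 1) + 6 * r + Real.log Λ := by
    rw [add_div, add_div]
    have h5 : 6 * (r : ℝ) * m / (m + 1) ≤ 6 * r := by
      rw [div_le_iff₀ hm1]
      have : (0 : ℝ) ≤ r := by positivity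
      nlinarith
    have h6 : m * Real.log Λ / (m + 1) ≤ Real.log Λ := by
      rw [div_le_iff₀ hm1]
      nlinarith
    linarith
  linarith [h3.trans h4, hlogΛ]

theorem grid_finite {d : ℕ} (n : ℕ) :
    ∃ I : Finset (Fin d → ℤ), ∀ x ≤ n, ∀ᵐ s ∂(sphU d), grid x s ∈ I := by
  classical
  refine ⟨Fintype.piFinset fun _ =>
    Finset.Icc (-(⌈(2 : ℝ) ^ n * Real.sqrt d⌉ + 1)) (⌈(2 : ℝ) ^ n * Real.sqrt d⌉ + 1), ?_⟩
  intro x hx
  filter_upwards [sphU_norm (d := d)] with s hs
  rw [Fintype.mem_piFinset]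
  intro i
  rw [Finset.mem_Icc]
  have hB0 : (0 : ℝ) ≤ (2 : ℝ) ^ n * Real.sqrt d := by positivity
  have hB : (2 : ℝ) ^ n * Real.sqrt d ≤ (⌈(2 : ℝ) ^ n * Real.sqrt d⌉ : ℝ) := Int.le_ceil _
  have hBi : (0 : ℤ) ≤ ⌈(2 : ℝ) ^ n * Real.sqrt d⌉ := Int.ceil_nonneg hB0
  unfold grid
  split_ifs with h
  · constructor <;> omega
  · have hsi : |s i| ≤ 1 := by
      have := PiLp.norm_apply_le s i
      rw [Real.norm_eq_abs] at this
      linarith
    have h1 : |(2 : ℝ) ^ x * Real.sqrt d * s i| ≤ (2 : ℝ) ^ n * Real.sqrt d := by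
      rw [abs_mul, abs_of_nonneg (by positivity : (0 : ℝ) ≤ 2 ^ x * Real.sqrt d)]
      have h2 : (2 : ℝ) ^ x ≤ 2 ^ n := pow_le_pow_right₀ (by norm_num) hx
      calc (2 : ℝ) ^ x * Real.sqrt d * |s i| ≤ 2 ^ x * Real.sqrt d * 1 := by gcongr
        _ ≤ 2 ^ n * Real.sqrt d := by rw [mul_one]; gcongr
    rw [abs_le] at h1
    constructor
    · have h3 : (-(⌈(2 : ℝ) ^ n * Real.sqrt d⌉ + 1) : ℤ) ≤ ⌊(2 : ℝ) ^ x * Real.sqrt d * s i⌋ := by
        rw [Int.le_floor]
        push_cast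
        linarith
      exact h3
    · have h3 : ⌊(2 : ℝ) ^ x * Real.sqrt d * s i⌋ ≤ ⌈(2 : ℝ) ^ n * Real.sqrt d⌉ := by
        have h4 : (⌊(2 : ℝ) ^ x * Real.sqrt d * s i⌋ : ℝ) ≤ (⌈(2 : ℝ) ^ n * Real.sqrt d⌉ : ℝ) :=
          (Int.floor_le _).trans (h1.2.trans hB)
        exact_mod_cast h4
      omega

theorem window_integrable {d r : ℕ} {V : Type*} [Fintype V]
    (f : V → (Fin r → Vec d) → (Fin r → ℝ) → ℝ) (hf : ∀ W, Measurable (Function.uncurry (f W)))
    (hf0 : ∀ W X y, 0 ≤ f W X y) (hf1 : ∀ X y, ∑ W, f W X y = 1) (W : V) (s : Vec d) :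
    Integrable (fun X => f W X (lab X s)) (gam d r) := by
  have hlab : Measurable fun X : Fin r → Vec d => lab X s := by
    unfold lab
    fun_prop
  refine Integrable.of_bound ((hf W).comp (measurable_id.prodMk hlab)).aestronglyMeasurable 1 ?_
  filter_upwards with X
  rw [Real.norm_eq_abs]
  have h1 : f W X (lab X s) ≤ ∑ W', f W' X (lab X s) :=
    Finset.single_le_sum (f := fun W' => f W' X (lab X s)) (fun W' _ => hf0 W' X _)
      (Finset.mem_univ W)
  rw [hf1] at h1
  rw [abs_of_nonneg (hf0 _ _ _)]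
  exact h1

/-- One window of the chain. -/
theorem pot_chain_step {d n m α r : ℕ} (hd : 1 ≤ d) (hα : m + 2 * r + 1 ≤ α) (hα' : α ≤ d - 1)
    {V : Type} [Fintype V] [Nonempty V] (g : ℕ → V → V → Vec d → ℝ → ℝ) (p0 : V → ℝ)
    (hg : ∀ t v W, Measurable (Function.uncurry (g t v W)))
    (hg0 : ∀ t v W x y, 0 ≤ g t v W x y) (hg1 : ∀ t v x y, ∑ W, g t v W x y = 1)
    (h0 : ∀ v, 0 ≤ p0 v) (h1 : ∑ v, p0 v = 1) (t : ℕ) :
    pot (sphU d) grid (cw α) (cst d n α) n (chain g p0 (t + r))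
      ≤ pot (sphU d) grid (cw α) (cst d n α) n (chain g p0 t)
        + (Real.log (Fintype.card V) / (m + 1) + 6 * r + 2 * r * Real.log 2 + d * Real.log 240)
        + 2 * Real.log (n + 2) := by
  have := isProbabilityMeasure_sphU hd
  obtain ⟨f, hf, hf0, hf1, hf2⟩ := exists_window g hg hg0 hg1 p0 r t
  obtain ⟨I, hI⟩ := grid_finite (d := d) n
  have hchain : chain g p0 (t + r) = fun W s => ∑ v, chain g p0 t v s * avgK (f v W) s := by
    funext W s
    exact hf2 W s
  have hle : ∀ v s, chain g p0 t v s ≤ 1 := by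
    intro v s
    have h2 := chain_sum g hg hg0 hg1 p0 h1 t s
    have h3 := Finset.single_le_sum (f := fun v => chain g p0 t v s)
      (fun v _ => chain_nonneg g hg hg0 hg1 p0 h0 t v s) (Finset.mem_univ v)
    simp only [h2] at h3
    exact h3
  rw [hchain]
  refine pot_step (sphU d) grid measurable_grid (cw α) (cst d n α) n (cw_pos α)
    (cst_pos d n α) I hI (chain g p0 t) (measurable_chain g hg hg0 hg1 p0 t)
    (chain_nonneg g hg hg0 hg1 p0 h0 t) (chain_sum g hg hg0 hg1 p0 h1 t)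
    (fun v W => avgK (f v W)) (fun v W => measurable_avgK _ (hf v W)) ?_ ?_ _ ?_ ?_
  · intro v W s
    exact integral_nonneg fun X => hf0 v W X _
  · intro v s
    unfold avgK
    rw [← integral_finsetSum _ (fun W _ => window_integrable (f v) (hf v) (hf0 v) (hf1 v) W s)]
    simp [hf1]
  · have h2 := Real.log_nonneg (by norm_num : (1 : ℝ) ≤ 2)
    have h3 := Real.log_nonneg (by norm_num : (1 : ℝ) ≤ 240)
    have h4 : 0 ≤ Real.log (Fintype.card V) := Real.log_natCast_nonneg _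
    positivity
  · intro v x hx i hZ
    exact info_le hd hα hα' (chain g p0 t v) (measurable_chain g hg hg0 hg1 p0 t v)
      (chain_nonneg g hg hg0 hg1 p0 h0 t v) (hle v) x hx i hZ (f v) (hf v) (hf0 v) (hf1 v)

theorem pot_chain_le {d n m α N : ℕ} (hd : 1 ≤ d) (hN : 1 ≤ N) (hα : m + 2 * N + 1 ≤ α)
    (hα' : α ≤ d - 1)
    {V : Type} [Fintype V] [Nonempty V] (g : ℕ → V → V → Vec d → ℝ → ℝ) (p0 : V → ℝ)
    (hg : ∀ t v W, Measurable (Function.uncurry (g t v W)))
    (hg0 : ∀ t v W x y, 0 ≤ g t v W x y) (hg1 : ∀ t v x y, ∑ W, g t v W x y = 1)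
    (h0 : ∀ v, 0 ≤ p0 v) (h1 : ∑ v, p0 v = 1) (T : ℕ) :
    pot (sphU d) grid (cw α) (cst d n α) n (chain g p0 T)
      ≤ ((T / N : ℕ) + 1) * ((Real.log (Fintype.card V) / (m + 1) + 6 * N + 2 * N * Real.log 2
        + d * Real.log 240) + 2 * Real.log (n + 2)) := by
  have := isProbabilityMeasure_sphU hd
  set B : ℝ := (Real.log (Fintype.card V) / (m + 1) + 6 * N + 2 * N * Real.log 2
        + d * Real.log 240) + 2 * Real.log (n + 2) with hB
  have hstart : pot (sphU d) grid (cw α) (cst d n α) n (chain g p0 0) ≤ 0 := by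
    have h2 : chain g p0 0 = fun v (_ : Vec d) => p0 v := by
      funext v s; rfl
    rw [h2]
    refine pot_init (sphU d) grid measurable_grid (cw α) (cst d n α) n (cw_pos α)
      (cst_pos d n α) ?_ (fun _ => 0) ?_ p0 h0 ?_
    · simp [cw]
    · intro s
      funext i
      simp [grid]
    · intro v
      have h3 := Finset.single_le_sum (f := p0) (fun v _ => h0 v) (Finset.mem_univ v)
      rwa [h1] at h3
  have hind : ∀ k : ℕ, pot (sphU d) grid (cw α) (cst d n α) n (chain g p0 (N * k)) ≤ k * B := by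
    intro k
    induction k with
    | zero => simpa using hstart
    | succ k ih =>
      have h2 := pot_chain_step (n := n) hd hα hα' g p0 hg hg0 hg1 h0 h1 (N * k)
      rw [Nat.mul_succ]
      push_cast
      linarith
  have hr : T % N < N := Nat.mod_lt _ hN
  have h2 := pot_chain_step (n := n) (m := m) (r := T % N) (α := α) hd (by omega) hα' g p0 hg hg0
    hg1 h0 h1 (N * (T / N))
  rw [Nat.div_add_mod] at h2
  have h3 := hind (T / N)
  have h4 : ((T % N : ℕ) : ℝ) ≤ N := by exact_mod_cast hr.le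
  have h5 := Real.log_nonneg (by norm_num : (1 : ℝ) ≤ 2)
  have h6 : 2 * ((T % N : ℕ) : ℝ) * Real.log 2 ≤ 2 * N * Real.log 2 := by gcongr
  have h7 : (Real.log (Fintype.card V) / (m + 1) + 6 * ((T % N : ℕ) : ℝ)
      + 2 * ((T % N : ℕ) : ℝ) * Real.log 2 + d * Real.log 240) + 2 * Real.log (n + 2) ≤ B := by
    rw [hB]; linarith
  rw [add_mul, one_mul]
  linarith

theorem sum_geom_le (n δ : ℕ) (hδ : 1 ≤ δ) :
    ∑ x ∈ Finset.range (n + 1), (1 / 2 : ℝ) ^ (δ * x) ≤ 2 := by
  have h1 : ∀ x ∈ Finset.range (n + 1), (1 / 2 : ℝ) ^ (δ * x) ≤ (1 / 2) ^ x := by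
    intro x _
    apply pow_le_pow_of_le_one (by norm_num) (by norm_num)
    nlinarith
  refine (Finset.sum_le_sum h1).trans ?_
  rw [geom_sum_eq (by norm_num)]
  have : (0 : ℝ) < (1 / 2) ^ (n + 1) := by positivity
  rw [div_le_iff_of_neg (by norm_num)]
  linarith

theorem sum_geom_le' (n α : ℕ) (hα : 1 ≤ α) :
    ∑ x ∈ Finset.range (n + 1), (2 : ℝ) ^ (α * x) ≤ 2 * 2 ^ (α * n) := by
  induction n with
  | zero => simp
  | succ n ih =>
    rw [Finset.sum_range_succ]
    have h1 : (2 : ℝ) * 2 ^ (α * n) ≤ 2 ^ (α * (n + 1)) := by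
      rw [Nat.mul_succ, pow_add, mul_comm]
      gcongr
      calc (2 : ℝ) = 2 ^ 1 := by norm_num
        _ ≤ 2 ^ α := pow_le_pow_right₀ (by norm_num) hα
    linarith

/-- Success forces a large potential. -/
theorem pot_success {d n α : ℕ} (hd : 1 ≤ d) (hα : 1 ≤ α) (hα' : α + 1 ≤ d - 1) {V : Type}
    [Fintype V] (p : V → Vec d → ℝ) (hp : ∀ v, Measurable (p v)) (hp0 : ∀ v s, 0 ≤ p v s)
    (hp1 : ∀ s, ∑ v, p v s = 1) (ε : ℝ) (hε : 0 < ε) (hεn : ε ≤ (1 / 2) ^ n) (S : V → Vec d)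
    (hS : 2 / 3 ≤ ∑ v, ∫ s in Metric.closedBall (S v) ε, p v s ∂(sphU d)) :
    2 / 3 * ((d - 1 - α : ℕ) * n * Real.log 2) - (2 * d + 3) * Real.log 2
      ≤ pot (sphU d) grid (cw α) (cst d n α) n p := by
  have := isProbabilityMeasure_sphU hd
  have hcs := cst_pos d n α
  have hcs1 : cst d n α ≤ 1 := by
    unfold cst
    exact pow_le_one₀ (by norm_num) (by norm_num)
  set A : ℝ := 2 ^ ((d - 1 - α) * n) with hA
  have hAcs : A * cst d n α = 1 := by
    rw [hA]; unfold cst; rw [← mul_pow]; norm_num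
  have hA1 : 1 ≤ A := one_le_pow₀ (by norm_num)
  have hH1 : ∑ v, ∫ s, kerF (sphU d) grid (cw α) (cst d n α) n (p v) s ∂(sphU d)
      ≤ 2 * 2 ^ d + 1 := by
    have h1 := kerF_set_le (sphU d) grid measurable_grid (cw α) (cst d n α) n (cw_pos α) hcs p hp
      hp0 hp1 (fun _ => Set.univ) (fun _ => MeasurableSet.univ)
      (fun x => 2 ^ d * (1 / 2) ^ (x * (d - 1))) (by
        intro x _ v i
        rw [Set.inter_univ]
        exact ENNReal.toReal_le_of_le_ofReal (by positivity) (sphU_grid hd x i))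
    simp only [Measure.restrict_univ] at h1
    refine h1.trans ?_
    have h2 : ∑ x ∈ Finset.range (n + 1), cw α x * (2 ^ d * (1 / 2) ^ (x * (d - 1)))
        = 2 ^ d * ∑ x ∈ Finset.range (n + 1), (1 / 2 : ℝ) ^ ((d - 1 - α) * x) := by
      rw [Finset.mul_sum]
      apply Finset.sum_congr rfl
      intro x _
      have h6 : x * (d - 1) = α * x + (d - 1 - α) * x := by
        rw [← Nat.add_mul, Nat.add_sub_cancel' (by omega), Nat.mul_comm]
      rw [h6, pow_add]
      unfold cw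
      have h7 : (2 : ℝ) ^ (α * x) * (1 / 2) ^ (α * x) = 1 := by
        rw [← mul_pow]; norm_num
      calc (2 : ℝ) ^ (α * x) * (2 ^ d * ((1 / 2) ^ (α * x) * (1 / 2) ^ ((d - 1 - α) * x)))
          = ((2 : ℝ) ^ (α * x) * (1 / 2) ^ (α * x)) * (2 ^ d * (1 / 2) ^ ((d - 1 - α) * x)) := by
            ring
        _ = 2 ^ d * (1 / 2) ^ ((d - 1 - α) * x) := by rw [h7, one_mul]
    rw [h2]
    have h3 := sum_geom_le n (d - 1 - α) (by omega)
    have h4 : (0 : ℝ) < 2 ^ d := by positivity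
    nlinarith
  have hH2 : ∑ v, ∫ s in Metric.closedBall (S v) ε,
      kerF (sphU d) grid (cw α) (cst d n α) n (p v) s ∂(sphU d)
      ≤ (2 ^ (2 * d) + 1) * cst d n α := by
    have h1 := kerF_set_le (sphU d) grid measurable_grid (cw α) (cst d n α) n (cw_pos α) hcs p hp
      hp0 hp1 (fun v => Metric.closedBall (S v) ε) (fun v => Metric.isClosed_closedBall.measurableSet)
      (fun _ => 2 ^ d * (2 * ε) ^ (d - 1)) (by
        intro x _ v i
        refine (measureReal_mono Set.inter_subset_right).trans ?_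
        refine ENNReal.toReal_le_of_le_ofReal (by positivity)
          (sphU_diam hd _ (2 * ε) (by positivity) ?_)
        intro u hu w hw
        rw [Metric.mem_closedBall, dist_eq_norm] at hu hw
        calc ‖u - w‖ = ‖(u - S v) - (w - S v)‖ := by congr 1; abel
          _ ≤ ‖u - S v‖ + ‖w - S v‖ := norm_sub_le _ _
          _ ≤ 2 * ε := by linarith)
    refine h1.trans ?_
    rw [← Finset.sum_mul]
    have h2 : ∑ x ∈ Finset.range (n + 1), cw α x ≤ 2 * 2 ^ (α * n) := by
      unfold cw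
      exact sum_geom_le' n α hα
    have h3 : (2 * ε) ^ (d - 1) ≤ 2 ^ (d - 1) * (1 / 2) ^ (n * (d - 1)) := by
      rw [mul_pow, pow_mul]
      gcongr
    have h4 : (2 : ℝ) ^ (α * n) * (1 / 2) ^ (n * (d - 1)) = cst d n α := by
      unfold cst
      have h6 : n * (d - 1) = α * n + (d - 1 - α) * n := by
        rw [← Nat.add_mul, Nat.add_sub_cancel' (by omega), Nat.mul_comm]
      rw [h6, pow_add, ← mul_assoc, ← mul_pow]
      norm_num
    have h5 : (2 : ℝ) * (2 ^ d * 2 ^ (d - 1)) = 2 ^ (2 * d) := by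
      have : 2 * d = 1 + (d + (d - 1)) := by omega
      rw [this, pow_add, pow_add, pow_one]
    calc (∑ x ∈ Finset.range (n + 1), cw α x) * (2 ^ d * (2 * ε) ^ (d - 1)) + cst d n α
        ≤ (2 * 2 ^ (α * n)) * (2 ^ d * (2 ^ (d - 1) * (1 / 2) ^ (n * (d - 1)))) + cst d n α := by
          gcongr
      _ = (2 * (2 ^ d * 2 ^ (d - 1))) * (2 ^ (α * n) * (1 / 2) ^ (n * (d - 1))) + cst d n α := by
          ring
      _ = (2 ^ (2 * d) + 1) * cst d n α := by rw [h4, h5]; ring
  have hlow := pot_lower (sphU d) grid measurable_grid (cw α) (cst d n α) n (cw_pos α) hcs p hp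
    hp0 hp1 (fun v => Metric.closedBall (S v) ε)
    (fun v => Metric.isClosed_closedBall.measurableSet) A (2 ^ (2 * d + 3)) hA1 (by positivity) (by
      have h1 : A * ∑ v, ∫ s in Metric.closedBall (S v) ε,
          kerF (sphU d) grid (cw α) (cst d n α) n (p v) s ∂(sphU d) ≤ 2 ^ (2 * d) + 1 := by
        calc A * ∑ v, ∫ s in Metric.closedBall (S v) ε,
              kerF (sphU d) grid (cw α) (cst d n α) n (p v) s ∂(sphU d)
            ≤ A * ((2 ^ (2 * d) + 1) * cst d n α) := by gcongr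
          _ = (2 ^ (2 * d) + 1) * (A * cst d n α) := by ring
          _ = 2 ^ (2 * d) + 1 := by rw [hAcs, mul_one]
      have h2 : (2 : ℝ) ^ d ≤ 2 ^ (2 * d) := pow_le_pow_right₀ (by norm_num) (by omega)
      have h3 : (1 : ℝ) ≤ 2 ^ (2 * d) := one_le_pow₀ (by norm_num)
      have h4 : (2 : ℝ) ^ (2 * d + 3) = 8 * 2 ^ (2 * d) := by rw [pow_add]; norm_num; ring
      rw [h4]
      linarith)
  have hlogA : Real.log A = (d - 1 - α : ℕ) * n * Real.log 2 := by
    rw [hA, Real.log_pow]; push_cast; ring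
  have hlogH : Real.log ((2 : ℝ) ^ (2 * d + 3)) = (2 * d + 3) * Real.log 2 := by
    rw [Real.log_pow]; push_cast; ring
  rw [hlogA, hlogH] at hlow
  have hnn : (0 : ℝ) ≤ (d - 1 - α : ℕ) * n * Real.log 2 := by
    have := Real.log_nonneg (by norm_num : (1 : ℝ) ≤ 2)
    positivity
  have := mul_le_mul_of_nonneg_right hS hnn
  linarith

/-- Success is impossible with too few states. -/
theorem memory_floor {d : ℕ} (hd : 1 ≤ d) {V : Type} [Fintype V] (p : V → Vec d → ℝ)
    (hp0 : ∀ v s, 0 ≤ p v s) (hp1 : ∀ v s, p v s ≤ 1) (ε : ℝ)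
    (hε : 0 < ε) (S : V → Vec d)
    (hS : 2 / 3 ≤ ∑ v, ∫ s in Metric.closedBall (S v) ε, p v s ∂(sphU d)) :
    2 / 3 ≤ (Fintype.card V : ℝ) * (2 ^ d * (2 * ε) ^ (d - 1)) := by
  have := isProbabilityMeasure_sphU hd
  refine hS.trans ?_
  have h1 : ∀ v, ∫ s in Metric.closedBall (S v) ε, p v s ∂(sphU d)
      ≤ 2 ^ d * (2 * ε) ^ (d - 1) := by
    intro v
    have h2 : ∫ s in Metric.closedBall (S v) ε, p v s ∂(sphU d)
        ≤ ∫ s in Metric.closedBall (S v) ε, (1 : ℝ) ∂(sphU d) := by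
      apply integral_mono_of_nonneg
      · exact Filter.Eventually.of_forall fun s => hp0 v s
      · exact integrable_const _
      · exact Filter.Eventually.of_forall fun s => hp1 v s
    refine h2.trans ?_
    rw [setIntegral_const, smul_eq_mul, mul_one]
    refine ENNReal.toReal_le_of_le_ofReal (by positivity)
      (sphU_diam hd _ (2 * ε) (by positivity) ?_)
    intro u hu w hw
    rw [Metric.mem_closedBall, dist_eq_norm] at hu hw
    calc ‖u - w‖ = ‖(u - S v) - (w - S v)‖ := by congr 1; abel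
      _ ≤ ‖u - S v‖ + ‖w - S v‖ := norm_sub_le _ _
      _ ≤ 2 * ε := by linarith
  calc ∑ v, ∫ s in Metric.closedBall (S v) ε, p v s ∂(sphU d)
      ≤ ∑ _v : V, (2 ^ d * (2 * ε) ^ (d - 1) : ℝ) := Finset.sum_le_sum fun v _ => h1 v
    _ = (Fintype.card V : ℝ) * (2 ^ d * (2 * ε) ^ (d - 1)) := by
        rw [Finset.sum_const, Finset.card_univ, nsmul_eq_mul]

theorem num_floor (d A K : ℝ) (hd : 32 ≤ d) (hA : 1 ≤ A)
    (h : (d - 1) * K ≤ A * d ^ 2 + 1.4 * d + 1) : K ≤ 3 * A * d := by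
  have h8 : (0 : ℝ) < d - 1 := by linarith
  refine le_of_mul_le_mul_left (h.trans ?_) h8
  have h9 : 0 ≤ (A - 1) * d := mul_nonneg (by linarith) (by linarith)
  nlinarith [mul_nonneg (mul_nonneg (by linarith : (0 : ℝ) ≤ A) (by linarith : (0 : ℝ) ≤ d))
    (by linarith : (0 : ℝ) ≤ d - 32)]

theorem num_incr (d A n N L l2 l240 ln : ℝ) (hd : 32 ≤ d) (hA : 1 ≤ A) (hN0 : 0 ≤ N)
    (hN : N ≤ d / 16) (hN2 : d / 16 < N + 1) (hL : L ≤ A * d ^ 2) (hl2' : l2 ≤ 0.7)
    (hl : l240 ≤ 5.6) (hn : n ≤ 5 * A * d) (hln : ln ≤ n + 1) :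
    (L / (N + 1) + 6 * N + 2 * N * l2 + d * l240) + 2 * ln ≤ 36 * A * d := by
  have hAd : 0 ≤ (A - 1) * d := mul_nonneg (by linarith) (by linarith)
  have hB1 : L / (N + 1) ≤ 16 * A * d := by
    rw [div_le_iff₀ (by linarith)]
    have h1 : A * d * (d / 16) ≤ A * d * (N + 1) :=
      mul_le_mul_of_nonneg_left hN2.le (by nlinarith)
    nlinarith
  have h2 : 2 * N * l2 ≤ 2 * N * 0.7 := mul_le_mul_of_nonneg_left hl2' (by linarith)
  have h3 : d * l240 ≤ d * 5.6 := mul_le_mul_of_nonneg_left hl (by linarith)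
  nlinarith

theorem num_main (d A K n q δ l2 : ℝ) (hd : 32 ≤ d) (hA : 1 ≤ A) (hK : 816 ≤ K)
    (hl2' : l2 ≤ 0.7) (hn2 : K < (n + 1) * l2) (hδ : d / 4 ≤ δ)
    (h : 2 / 3 * (δ * n * l2) - (2 * d + 3) * l2 ≤ (q + 1) * (36 * A * d)) :
    K ≤ 432 * A * (q + 1) := by
  have hnl : K - 0.7 ≤ n * l2 := by linarith
  have h2 : d / 4 * (K - 0.7) ≤ δ * (n * l2) :=
    mul_le_mul hδ hnl (by linarith) (by linarith)
  have h4 : (2 * d + 3) * l2 ≤ (2 * d + 3) * 0.7 := by
    apply mul_le_mul_of_nonneg_left hl2' (by linarith)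
  have h5 : d / 12 * K ≤ (q + 1) * (36 * A * d) := by nlinarith
  have h6 : d * K ≤ d * (432 * A * (q + 1)) := by nlinarith
  exact le_of_mul_le_mul_left h6 (by linarith)

theorem num_last (d A K q N T : ℝ) (hd : 32 ≤ d) (hA : 1 ≤ A) (hK : 864 * A ≤ K)
    (h : K ≤ 432 * A * (q + 1)) (hN : d / 32 ≤ N) (hq : 0 ≤ q) (hT : N * q ≤ T) :
    1 / 30000 / A * d * K ≤ T := by
  have hA0 : 0 < A := by linarith
  have h1 : K ≤ 864 * A * q := by
    have : 432 * A ≤ K / 2 := by linarith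
    nlinarith
  have h2 : d / 32 * q ≤ T := (mul_le_mul_of_nonneg_right hN hq).trans hT
  have h3 : 1 / 30000 / A * d * K ≤ 1 / 30000 / A * d * (864 * A * q) := by
    apply mul_le_mul_of_nonneg_left h1
    positivity
  have h4 : 1 / 30000 / A * d * (864 * A * q) = 864 / 30000 * (d * q) := by
    field_simp
  rw [h4] at h3
  nlinarith [mul_nonneg (by linarith : (0 : ℝ) ≤ d) hq]

/-- Lower bound for the number of samples of a finite chain driven by fresh rows and labels. -/
theorem chain_bound : ∃ c > 0, ∃ d₀ : ℕ, ∃ K₀ : ℝ, ∀ d ≥ d₀, ∀ A : ℝ, 1 ≤ A →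
    ∀ (V : Type) [Fintype V] (g : ℕ → V → V → Vec d → ℝ → ℝ) (p0 : V → ℝ) (T : ℕ) (ε : ℝ)
      (S : V → Vec d),
      (∀ t v W, Measurable (Function.uncurry (g t v W))) → (∀ t v W x y, 0 ≤ g t v W x y) →
      (∀ t v x y, ∑ W, g t v W x y = 1) → (∀ v, 0 ≤ p0 v) → ∑ v, p0 v = 1 →
      Real.log (Fintype.card V) ≤ A * d ^ 2 → 0 < ε → K₀ * A ≤ Real.log (1 / ε) →
      2 / 3 ≤ ∑ v, ∫ s in Metric.closedBall (S v) ε, chain g p0 T v s ∂(sphU d) →
      c / A * d * Real.log (1 / ε) ≤ T := by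
  refine ⟨1 / 30000, by norm_num, 32, 864, ?_⟩
  intro d hd A hA V _ g p0 T ε S hg hg0 hg1 h0 h1 hcard hε hK hS
  have hVne : Nonempty V := by
    by_contra hcon
    rw [not_nonempty_iff] at hcon
    simp at h1
  set K := Real.log (1 / ε) with hKdef
  have hd1 : 1 ≤ d := by omega
  have hdr : (32 : ℝ) ≤ d := by exact_mod_cast hd
  have hlog2 : 0 < Real.log 2 := Real.log_pos (by norm_num)
  have hlog2l : (0.69 : ℝ) < Real.log 2 := by linarith [Real.log_two_gt_d9]
  have hlog2u : Real.log 2 < 0.7 := by linarith [Real.log_two_lt_d9]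
  have hK0 : 816 ≤ K := by nlinarith
  have hKε : ε = Real.exp (-K) := by
    rw [hKdef, one_div, Real.log_inv, neg_neg, Real.exp_log hε]
  obtain ⟨n, hn⟩ : ∃ n, n = ⌊K / Real.log 2⌋₊ := ⟨_, rfl⟩
  have hn1 : (n : ℝ) * Real.log 2 ≤ K := by
    have := Nat.floor_le (by positivity : 0 ≤ K / Real.log 2)
    rwa [le_div_iff₀ hlog2, ← hn] at this
  have hn2 : K < (n + 1) * Real.log 2 := by
    have := Nat.lt_floor_add_one (K / Real.log 2)
    rwa [div_lt_iff₀ hlog2, ← hn] at this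
  have hεn : ε ≤ (1 / 2) ^ n := by
    rw [hKε, one_div, inv_pow, ← Real.exp_log (by norm_num : (0 : ℝ) < 2), ← Real.exp_nat_mul,
      ← Real.exp_neg]
    apply Real.exp_le_exp.mpr
    linarith
  -- parameters
  obtain ⟨N, hN⟩ : ∃ N, N = d / 16 := ⟨_, rfl⟩
  obtain ⟨α, hαd⟩ : ∃ α, α = d / 2 := ⟨_, rfl⟩
  have hN2 : 2 ≤ N := by omega
  have hpot := pot_chain_le (n := n) (m := N) (α := α) (N := N) hd1 (by omega) (by omega)
    (by omega) g p0 hg hg0 hg1 h0 h1 T
  have hsucc := pot_success (n := n) (α := α) hd1 (by omega) (by omega) (chain g p0 T)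
    (measurable_chain g hg hg0 hg1 p0 T) (chain_nonneg g hg hg0 hg1 p0 h0 T)
    (chain_sum g hg hg0 hg1 p0 h1 T) ε hε hεn S hS
  have hle : ∀ v s, chain g p0 T v s ≤ 1 := by
    intro v s
    have h2 := chain_sum g hg hg0 hg1 p0 h1 T s
    have h3 := Finset.single_le_sum (f := fun v => chain g p0 T v s)
      (fun v _ => chain_nonneg g hg hg0 hg1 p0 h0 T v s) (Finset.mem_univ v)
    simp only [h2] at h3
    exact h3
  have hfloor := memory_floor hd1 (chain g p0 T) (chain_nonneg g hg hg0 hg1 p0 h0 T) hle ε hε S hS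
  -- upper bound on K from the memory floor
  have hcardpos : (0 : ℝ) < Fintype.card V := by exact_mod_cast Fintype.card_pos
  have hKup : K ≤ 3 * A * d := by
    have h2 := Real.log_le_log (by norm_num) hfloor
    rw [Real.log_mul hcardpos.ne' (by positivity), Real.log_mul (by positivity) (by positivity),
      Real.log_pow, Real.log_pow, Real.log_mul (by norm_num) hε.ne'] at h2
    have h3 : Real.log ε = -K := by rw [hKε, Real.log_exp]
    rw [h3] at h2
    have h4 : ((d - 1 : ℕ) : ℝ) = d - 1 := by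
      rw [Nat.cast_sub hd1]; norm_num
    rw [h4] at h2
    have h5 : (-1 : ℝ) ≤ Real.log (2 / 3) := by
      rw [Real.le_log_iff_exp_le (by norm_num)]
      have := Real.exp_one_gt_d9
      rw [Real.exp_neg]
      rw [inv_le_comm₀ (by positivity) (by norm_num)]
      linarith
    apply num_floor d A K hdr hA
    have h6 : (d : ℝ) * Real.log 2 ≤ d * 0.7 := mul_le_mul_of_nonneg_left hlog2u.le (by linarith)
    linarith
  have hnup : (n : ℝ) ≤ 5 * A * d := by
    have h2 : (n : ℝ) * 0.69 ≤ n * Real.log 2 :=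
      mul_le_mul_of_nonneg_left hlog2l.le (Nat.cast_nonneg n)
    have h3 : 0 < A * d := mul_pos (by linarith) (by linarith)
    linarith
  have hlogn : Real.log (n + 2) ≤ n + 1 := by
    have h2 := Real.log_le_sub_one_of_pos (by positivity : (0 : ℝ) < n + 2)
    linarith
  -- bound for the increment
  have hNr : (N : ℝ) ≤ d / 16 := by
    rw [hN]; exact Nat.cast_div_le
  have hNr2 : (d : ℝ) / 16 < N + 1 := by
    rw [hN, div_lt_iff₀ (by norm_num)]
    have : d < (d / 16 + 1) * 16 := by omega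
    exact_mod_cast this
  have hlog240 : Real.log 240 ≤ 5.6 := by
    have h2 : (240 : ℝ) ≤ 2 ^ 8 := by norm_num
    have h3 := Real.log_le_log (by norm_num) h2
    rw [Real.log_pow] at h3
    norm_num at h3
    linarith
  have hB := num_incr d A n N (Real.log (Fintype.card V)) (Real.log 2) (Real.log 240)
    (Real.log (n + 2)) hdr hA (Nat.cast_nonneg N) hNr hNr2 hcard hlog2u.le hlog240 hnup hlogn
  -- combine
  have hδ : (d : ℝ) / 4 ≤ ((d - 1 - α : ℕ) : ℝ) := by
    have h2 : d ≤ 4 * (d - 1 - α) := by omega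
    have h3 : (d : ℝ) ≤ 4 * ((d - 1 - α : ℕ) : ℝ) := by exact_mod_cast h2
    linarith
  have hq0 : (0 : ℝ) ≤ (T / N : ℕ) := Nat.cast_nonneg _
  have h5 := (hsucc.trans hpot).trans (mul_le_mul_of_nonneg_left hB (by linarith))
  have hq := num_main d A K n (T / N : ℕ) (d - 1 - α : ℕ) (Real.log 2) hdr hA hK0 hlog2u.le hn2
    hδ h5
  refine num_last d A K (T / N : ℕ) N T hdr hA hK hq ?_ hq0 ?_
  · have h2 : d ≤ 32 * N := by omega
    have h3 : (d : ℝ) ≤ 32 * N := by exact_mod_cast h2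
    linarith
  · exact_mod_cast Nat.mul_div_le T N

end Vale.Agent.P309
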