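import Mathlib

/-! P309: common notions for all modules. -/

open MeasureTheory ProbabilityTheory

namespace Vale.Agent.P309

/-- `d`-dimensional Euclidean space. -/
abbrev Vec (d : ℕ) := EuclideanSpace ℝ (Fin d)

/-- Law of the rows of one window: `N` independent standard Gaussian vectors. -/
noncomputable def gam (d N : ℕ) : Measure (Fin N → Vec d) :=
  Measure.pi (fun _ => stdGaussian (Vec d))

instance (d N : ℕ) : IsProbabilityMeasure (gam d N) := by
  unfold gam; infer_instance

/-- Exact labels of a window. -/
noncomputable def lab {d N : ℕ} (X : Fin N → Vec d) (s : Vec d) : Fin N → ℝ :=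
  fun i => inner ℝ (X i) s

/-- Labels of a window, rounded to cells of width `2^(-k)`. -/
noncomputable def qlab {d N : ℕ} (k : ℕ) (X : Fin N → Vec d) (s : Vec d) : Fin N → ℤ :=
  fun i => ⌊(2 : ℝ) ^ k * inner ℝ (X i) s⌋

/-- Mutual information between a signal with law `ρ` and an output drawn with conditional
probabilities `K W s` given the signal `s`. -/
noncomputable def infoR {Ω Q : Type*} [MeasurableSpace Ω] [Fintype Q] (ρ : Measure Ω)
    (K : Q → Ω → ℝ) : ℝ :=
  ∑ W, ∫ s, K W s * Real.log (K W s / (∫ s', K W s' ∂ρ)) ∂ρ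

/-- The transition probabilities of a window, averaged over the rows. -/
noncomputable def avgK {d N : ℕ} (f : (Fin N → Vec d) → (Fin N → ℝ) → ℝ) (s : Vec d) : ℝ :=
  ∫ X, f X (lab X s) ∂(gam d N)

/-- Nested grids: level `0` is trivial, level `x ≥ 1` has cubes of side `2^(-x)/sqrt d`
(diameter at most `2^(-x)`). -/
noncomputable def grid {d : ℕ} (x : ℕ) (s : Vec d) : Fin d → ℤ :=
  fun i => if x = 0 then 0 else ⌊(2 : ℝ) ^ x * Real.sqrt d * s i⌋

/-- Uniform probability measure on the unit sphere, as a measure on the whole space. -/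
noncomputable def sphU (d : ℕ) : Measure (Vec d) :=
  (((volume : Measure (Vec d)).toSphere Set.univ)⁻¹ • (volume : Measure (Vec d)).toSphere).map
    (Subtype.val)

end Vale.Agent.P309
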