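import Vale.Agent.Lib.P309.Learner
import Vale.Agent.Lib.P309.Window

open MeasureTheory ProbabilityTheory

namespace Vale.Agent.P309

section

variable {d : ℕ} {Q : Type} [Fintype Q] [MeasurableSpace Q] [MeasurableSingletonClass Q]

/-- embedding of the finite status set -/
def emb (T : ℕ) (v : Q × Fin (T + 1)) : Q × ℕ := (v.1, (v.2 : ℕ))

/-- the new finite status -/
def moveF (T t : ℕ) (r : Q × Bool) : Q × Fin (T + 1) :=
  (r.1, if h : r.2 = true ∧ t < T then ⟨t + 1, by omega⟩ else 0)

lemma emb_moveF (T t : ℕ) (ht : t < T) (r : Q × Bool) :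
    emb T (moveF T t r) = (r.1, if r.2 = true then t + 1 else 0) := by
  by_cases h : r.2 = true
  · simp [emb, moveF, h, ht]
  · simp [emb, moveF, h]

open Classical in
/-- transition probabilities of the finite chain -/
noncomputable def gR (L : Learner d Q) (T : ℕ) (t : ℕ) (v W : Q × Fin (T + 1)) (x : Vec d)
    (y : ℝ) : ℝ :=
  if v.2 = 0 ∧ t < T then (L.step (t + 1) (v.1, x, y)).real (moveF T t ⁻¹' {W})
  else if W = v then 1 else 0

/-- initial probabilities of the finite chain -/
noncomputable def pR (L : Learner d Q) (T : ℕ) (v : Q × Fin (T + 1)) : ℝ :=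
  if v.2 = 0 then L.init.real {v.1} else 0

omit [Fintype Q] in
lemma measurable_gR [Finite Q] (L : Learner d Q) (T t : ℕ) (v W : Q × Fin (T + 1)) :
    Measurable (Function.uncurry (gR L T t v W)) := by
  have := L.step_markov (t + 1)
  unfold gR
  by_cases h : v.2 = 0 ∧ t < T
  · simp only [h, and_self, if_true]
    have h1 : Measurable fun z : Vec d × ℝ => (v.1, z.1, z.2) :=
      measurable_const.prodMk (measurable_fst.prodMk measurable_snd)
    have h2 := ((L.step (t + 1)).measurable_coe
      (s := moveF T t ⁻¹' {W}) (MeasurableSet.of_discrete)).comp h1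
    exact h2.ennreal_toReal
  · simp only [h, if_false]
    exact measurable_const

omit [Fintype Q] [MeasurableSingletonClass Q] in
lemma gR_nonneg (L : Learner d Q) (T t : ℕ) (v W : Q × Fin (T + 1)) (x : Vec d) (y : ℝ) :
    0 ≤ gR L T t v W x y := by
  unfold gR
  split_ifs
  · exact measureReal_nonneg
  · exact zero_le_one
  · exact le_rfl

lemma sum_gR (L : Learner d Q) (T t : ℕ) (v : Q × Fin (T + 1)) (x : Vec d) (y : ℝ) :
    ∑ W, gR L T t v W x y = 1 := by
  have := L.step_markov (t + 1)
  unfold gR
  by_cases h : v.2 = 0 ∧ t < T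
  · simp only [h, and_self, if_true]
    have h1 : ∀ W, (L.step (t + 1) (v.1, x, y)).real (moveF T t ⁻¹' {W})
        = ((L.step (t + 1) (v.1, x, y)).map (moveF T t)).real {W} := by
      intro W
      rw [measureReal_def, measureReal_def, Measure.map_apply (measurable_of_countable _)
        (MeasurableSet.singleton _)]
    rw [Finset.sum_congr rfl fun W _ => h1 W]
    have h2 : IsProbabilityMeasure ((L.step (t + 1) (v.1, x, y)).map (moveF T t)) :=
      Measure.isProbabilityMeasure_map (measurable_of_countable _).aemeasurable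
    rw [sum_measureReal_singleton]
    simp
  · simp only [h, if_false]
    simp

lemma sum_pR (L : Learner d Q) (T : ℕ) : ∑ v, pR L T v = 1 := by
  have := L.init_prob
  rw [Fintype.sum_prod_type]
  have h1 : ∀ q : Q, ∑ i : Fin (T + 1), pR L T (q, i) = L.init.real {q} := by
    intro q
    rw [Finset.sum_eq_single 0]
    · simp [pR]
    · intro b _ hb
      simp [pR, hb]
    · intro hb
      exact absurd (Finset.mem_univ _) hb
  rw [Finset.sum_congr rfl fun q _ => h1 q, sum_measureReal_singleton]
  simp

omit [Fintype Q] [MeasurableSingletonClass Q] in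
lemma pR_nonneg (L : Learner d Q) (T : ℕ) (v : Q × Fin (T + 1)) : 0 ≤ pR L T v := by
  unfold pR
  split_ifs
  · exact measureReal_nonneg
  · exact le_rfl

lemma integrable_gR (L : Learner d Q) (T t : ℕ) (v W : Q × Fin (T + 1)) (s : Vec d) :
    Integrable (fun x : Vec d => gR L T t v W x (inner ℝ x s)) (stdGaussian (Vec d)) := by
  have hm : Measurable fun x : Vec d => gR L T t v W x (inner ℝ x s) :=
    (measurable_gR L T t v W).comp (measurable_id.prodMk
      (measurable_id.inner measurable_const))
  refine Integrable.of_bound (C := 1) hm.aestronglyMeasurable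
    (Filter.Eventually.of_forall fun x => ?_)
  rw [Real.norm_eq_abs, abs_of_nonneg (gR_nonneg L T t v W _ _)]
  rw [← sum_gR L T t v x (inner ℝ x s)]
  exact Finset.single_le_sum (f := fun W => gR L T t v W x (inner ℝ x s))
    (fun W _ => gR_nonneg L T t v W _ _) (Finset.mem_univ W)

lemma next_eq (L : Learner d Q) (T t : ℕ) (ht : t < T) (s : Sph d) (v : Q × Fin (T + 1))
    (B : Set (Q × ℕ)) :
    L.next s t (emb T v) B
      = ∑ W, ENNReal.ofReal (stepP (gR L T) t v W s) * Measure.dirac (emb T W) B := by
  have hB : MeasurableSet B := MeasurableSet.of_discrete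
  have hmk := L.step_markov (t + 1)
  by_cases hv : v.2 = 0
  · have h0 : (emb T v).2 = 0 := by simp [emb, hv]
    have h1 : (emb T v).1 = v.1 := rfl
    rw [Learner.next, if_pos h0, h1]
    have hx : Measurable fun x : Vec d => (v.1, x, (inner ℝ x (s : Vec d) : ℝ)) :=
      measurable_const.prodMk (measurable_id.prodMk (measurable_id.inner measurable_const))
    have hmap : Measurable fun r : Q × Bool => (r.1, if r.2 = true then t + 1 else 0) :=
      measurable_of_countable _
    have hm : Measurable fun x : Vec d =>
        (L.step (t + 1) (v.1, x, inner ℝ x (s : Vec d))).map fun r : Q × Bool =>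
          (r.1, if r.2 = true then t + 1 else 0) :=
      (Measure.measurable_map _ hmap).comp ((L.step (t + 1)).measurable.comp hx)
    rw [Measure.bind_apply hB hm.aemeasurable]
    have h2 : ∀ x : Vec d, ((L.step (t + 1) (v.1, x, inner ℝ x (s : Vec d))).map
        fun r : Q × Bool => (r.1, if r.2 = true then t + 1 else 0)) B
        = ∑ W, ENNReal.ofReal (gR L T t v W x (inner ℝ x (s : Vec d)))
            * Measure.dirac (emb T W) B := by
      intro x
      set κ := L.step (t + 1) (v.1, x, inner ℝ x (s : Vec d)) with hκ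
      have hfun : (fun r : Q × Bool => (r.1, if r.2 = true then t + 1 else 0))
          = emb T ∘ moveF T t := by
        funext r
        exact (emb_moveF T t ht r).symm
      have hemb : Measurable (emb (Q := Q) T) := measurable_of_countable _
      rw [hfun, ← Measure.map_map hemb (measurable_of_countable _),
        Measure.map_apply hemb hB]
      set ν := κ.map (moveF T t) with hν
      have h3 : ν (emb T ⁻¹' B) = ∑ W, ν {W} * Measure.dirac W (emb T ⁻¹' B) := by
        conv_lhs => rw [← Measure.sum_smul_dirac ν]
        rw [Measure.sum_apply _ (hemb hB), tsum_fintype]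
        rfl
      rw [h3]
      refine Finset.sum_congr rfl fun W _ => ?_
      have h4 : Measure.dirac W (emb T ⁻¹' B) = Measure.dirac (emb T W) B := by
        rw [Measure.dirac_apply' _ (hemb hB), Measure.dirac_apply' _ hB]
        rfl
      have h5 : ν {W} = ENNReal.ofReal (gR L T t v W x (inner ℝ x (s : Vec d))) := by
        rw [gR, if_pos ⟨hv, ht⟩, ← hκ, ofReal_measureReal, hν,
          Measure.map_apply (measurable_of_countable _) (MeasurableSet.singleton _)]
      rw [h4, h5]
    rw [lintegral_congr h2, lintegral_finsetSum]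
    · refine Finset.sum_congr rfl fun W _ => ?_
      rw [lintegral_mul_const, stepP, ofReal_integral_eq_lintegral_ofReal
        (integrable_gR L T t v W s)
        (Filter.Eventually.of_forall fun x => gR_nonneg L T t v W _ _)]
      exact ((measurable_gR L T t v W).comp (measurable_id.prodMk
        (measurable_id.inner measurable_const))).ennreal_ofReal
    · intro W _
      exact (((measurable_gR L T t v W).comp (measurable_id.prodMk
        (measurable_id.inner measurable_const))).ennreal_ofReal).mul_const _
  · have h0 : ¬ (emb T v).2 = 0 := by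
      intro h
      exact hv (Fin.ext h)
    rw [Learner.next, if_neg h0]
    have h1 : stepP (gR L T) t v v s = 1 := by
      simp only [stepP, gR, hv, false_and, if_false]
      simp
    have h2 : ∀ W, W ≠ v → stepP (gR L T) t v W s = 0 := by
      intro W hW
      simp only [stepP, gR, hv, false_and, if_false]
      simp [hW]
    rw [Finset.sum_eq_single v]
    · rw [h1, ENNReal.ofReal_one, one_mul]
    · intro W _ hW
      rw [h2 W hW, ENNReal.ofReal_zero, zero_mul]
    · intro hn
      exact absurd (Finset.mem_univ _) hn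

lemma law_eq (L : Learner d Q) (T : ℕ) (s : Sph d) (t : ℕ) (ht : t ≤ T) (B : Set (Q × ℕ)) :
    L.law s t B = ∑ v, ENNReal.ofReal (chain (gR L T) (pR L T) t v s)
      * Measure.dirac (emb T v) B := by
  induction t generalizing B with
  | zero =>
    have hB : MeasurableSet B := MeasurableSet.of_discrete
    have hinit := L.init_prob
    rw [Learner.law, Measure.map_apply (measurable_of_countable _) hB]
    conv_lhs => rw [← Measure.sum_smul_dirac L.init]
    rw [Measure.sum_apply _ MeasurableSet.of_discrete, tsum_fintype, Fintype.sum_prod_type]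
    refine Finset.sum_congr rfl fun q _ => ?_
    rw [Finset.sum_eq_single 0]
    · simp only [chain, pR, if_true]
      rw [ofReal_measureReal, Measure.smul_apply, smul_eq_mul,
        Measure.dirac_apply' _ MeasurableSet.of_discrete, Measure.dirac_apply' _ hB]
      rfl
    · intro b _ hb
      simp [chain, pR, hb]
    · intro hn
      exact absurd (Finset.mem_univ _) hn
  | succ t ih =>
    have hB : MeasurableSet B := MeasurableSet.of_discrete
    have ht' : t ≤ T := by omega
    have htT : t < T := by omega
    have hlaw : L.law s t = ∑ v, ENNReal.ofReal (chain (gR L T) (pR L T) t v s)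
        • Measure.dirac (emb T v) := by
      refine Measure.ext fun A _ => ?_
      rw [ih ht' A, Measure.finsetSum_apply]
      rfl
    rw [Learner.law, Measure.bind_apply hB (measurable_of_countable _).aemeasurable, hlaw,
      lintegral_finsetSum_measure]
    have h1 : ∀ v : Q × Fin (T + 1), ∫⁻ a, L.next s t a B
        ∂(ENNReal.ofReal (chain (gR L T) (pR L T) t v s) • Measure.dirac (emb T v))
        = ENNReal.ofReal (chain (gR L T) (pR L T) t v s) * L.next s t (emb T v) B := by
      intro v
      rw [lintegral_smul_measure, lintegral_dirac]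
      rfl
    rw [Finset.sum_congr rfl fun v _ => h1 v]
    have h2 : ∀ W : Q × Fin (T + 1), ENNReal.ofReal (chain (gR L T) (pR L T) (t + 1) W s)
        = ∑ v, ENNReal.ofReal (chain (gR L T) (pR L T) t v s)
          * ENNReal.ofReal (stepP (gR L T) t v W s) := by
      intro W
      have h3 : ∀ v, 0 ≤ chain (gR L T) (pR L T) t v s := fun v =>
        chain_nonneg (gR L T) (measurable_gR L T) (gR_nonneg L T) (sum_gR L T) (pR L T)
          (pR_nonneg L T) t v s
      have h4 : ∀ v, 0 ≤ stepP (gR L T) t v W s := fun v =>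
        integral_nonneg fun x => gR_nonneg L T t v W _ _
      rw [chain, ENNReal.ofReal_sum_of_nonneg fun v _ => mul_nonneg (h3 v) (h4 v)]
      exact Finset.sum_congr rfl fun v _ => ENNReal.ofReal_mul (h3 v)
    have h5 : ∑ W, ENNReal.ofReal (chain (gR L T) (pR L T) (t + 1) W s)
        * Measure.dirac (emb T W) B
        = ∑ v, ∑ W, ENNReal.ofReal (chain (gR L T) (pR L T) t v s)
          * ENNReal.ofReal (stepP (gR L T) t v W s) * Measure.dirac (emb T W) B := by
      rw [Finset.sum_comm]
      refine Finset.sum_congr rfl fun W _ => ?_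
      rw [h2 W, Finset.sum_mul]
    rw [h5]
    refine Finset.sum_congr rfl fun v _ => ?_
    rw [next_eq L T t htT s v B, Finset.mul_sum]
    refine Finset.sum_congr rfl fun W _ => ?_
    ring

/-- law of the output in the status `v` -/
noncomputable def outR (L : Learner d Q) (T : ℕ) (v : Q × Fin (T + 1)) : Measure (Sph d) :=
  L.out (if (v.2 : ℕ) = 0 then T else v.2) v.1

lemma output_eq (L : Learner d Q) (T : ℕ) (s : Sph d) (A : Set (Sph d)) (hA : MeasurableSet A) :
    L.output T s A = ∑ v, ENNReal.ofReal (chain (gR L T) (pR L T) T v s) * outR L T v A := by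
  have hlaw : L.law s T = ∑ v, ENNReal.ofReal (chain (gR L T) (pR L T) T v s)
      • Measure.dirac (emb T v) := by
    refine Measure.ext fun B _ => ?_
    rw [law_eq L T s T le_rfl B, Measure.finsetSum_apply]
    rfl
  rw [Learner.output, Measure.bind_apply hA (measurable_of_countable _).aemeasurable, hlaw,
    lintegral_finsetSum_measure]
  refine Finset.sum_congr rfl fun v _ => ?_
  rw [lintegral_smul_measure, lintegral_dirac]
  rfl

end

lemma norm_sub_le_of_arccos {d : ℕ} (w s : Sph d) (ε : ℝ)
    (h : Real.arccos (inner ℝ (w : EuclideanSpace ℝ (Fin d)) s) ≤ ε) :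
    ‖(s : Vec d) - (w : Vec d)‖ ≤ ε := by
  have hw : ‖(w : Vec d)‖ = 1 := norm_eq_of_mem_sphere w
  have hs : ‖(s : Vec d)‖ = 1 := norm_eq_of_mem_sphere s
  have hε : 0 ≤ ε := (Real.arccos_nonneg _).trans h
  set θ := Real.arccos (inner ℝ (w : EuclideanSpace ℝ (Fin d)) s) with hθ
  have hin : |inner ℝ (w : Vec d) (s : Vec d)| ≤ 1 := by
    have := abs_real_inner_le_norm (w : Vec d) (s : Vec d)
    rwa [hw, hs, mul_one] at this
  have hcos : Real.cos θ = inner ℝ (w : Vec d) (s : Vec d) :=
    Real.cos_arccos (by linarith [(abs_le.1 hin).1]) (abs_le.1 hin).2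
  have h1 := Real.one_sub_sq_div_two_le_cos (x := θ)
  have h2 : ‖(s : Vec d) - (w : Vec d)‖ ^ 2 = 2 - 2 * Real.cos θ := by
    rw [norm_sub_sq_real, hw, hs, hcos, real_inner_comm]
    ring
  have h3 : ‖(s : Vec d) - (w : Vec d)‖ ^ 2 ≤ θ ^ 2 := by
    rw [h2]; linarith
  have h4 : ‖(s : Vec d) - (w : Vec d)‖ ≤ θ :=
    le_of_sq_le_sq h3 (Real.arccos_nonneg _)
  exact h4.trans h

lemma isProb_unifSphere {d : ℕ} (hd : 1 ≤ d) : IsProbabilityMeasure (unifSphere d) := by
  have h0 : (volume : Measure (EuclideanSpace ℝ (Fin d))).toSphere Set.univ ≠ 0 := by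
    rw [Measure.toSphere_apply_univ]
    refine mul_ne_zero ?_ (Metric.measure_ball_pos _ _ one_pos).ne'
    rw [finrank_euclideanSpace_fin]
    exact_mod_cast (by omega : d ≠ 0)
  have h1 : (volume : Measure (EuclideanSpace ℝ (Fin d))).toSphere Set.univ ≠ ⊤ :=
    measure_ne_top _ _
  refine ⟨?_⟩
  rw [unifSphere, Measure.smul_apply, smul_eq_mul, ENNReal.inv_mul_cancel h0 h1]

lemma sphU_eq_map {d : ℕ} : sphU d = (unifSphere d).map Subtype.val := rfl

/-- Every learner with horizon `T` is a finite chain, with `(T + 2)` times as many states, that is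
at least as successful with deterministic outputs. -/
theorem exists_chain {d : ℕ} (hd : 1 ≤ d) {Q : Type} [Fintype Q] [MeasurableSpace Q]
    [MeasurableSingletonClass Q] (L : Learner d Q) (T : ℕ) (ε : ℝ)
    (h : ENNReal.ofReal (2 / 3) ≤ L.successProb T ε) :
    ∃ (V : Type) (_ : Fintype V) (g : ℕ → V → V → Vec d → ℝ → ℝ) (p0 : V → ℝ) (S : V → Vec d),
      Fintype.card V ≤ (T + 2) * Fintype.card Q ∧
      (∀ t v W, Measurable (Function.uncurry (g t v W))) ∧ (∀ t v W x y, 0 ≤ g t v W x y) ∧
      (∀ t v x y, ∑ W, g t v W x y = 1) ∧ (∀ v, 0 ≤ p0 v) ∧ ∑ v, p0 v = 1 ∧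
      (∀ v, ‖S v‖ = 1) ∧
      2 / 3 ≤ ∑ v, ∫ s in Metric.closedBall (S v) ε, chain g p0 T v s ∂(sphU d) := by
  have hprob := isProb_unifSphere hd
  have hchm : ∀ v, Measurable (chain (gR L T) (pR L T) T v) := fun v =>
    measurable_chain (gR L T) (measurable_gR L T) (gR_nonneg L T) (sum_gR L T) (pR L T) T v
  have hch0 : ∀ v s, 0 ≤ chain (gR L T) (pR L T) T v s := fun v s =>
    chain_nonneg (gR L T) (measurable_gR L T) (gR_nonneg L T) (sum_gR L T) (pR L T)
      (pR_nonneg L T) T v s
  have hch1 : ∀ s, ∑ v, chain (gR L T) (pR L T) T v s = 1 := fun s =>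
    chain_sum (gR L T) (measurable_gR L T) (gR_nonneg L T) (sum_gR L T) (pR L T)
      (sum_pR L T) T s
  have hchle : ∀ v s, chain (gR L T) (pR L T) T v s ≤ 1 := fun v s => by
    rw [← hch1 s]
    exact Finset.single_le_sum (f := fun v => chain (gR L T) (pR L T) T v s)
      (fun v _ => hch0 v s) (Finset.mem_univ v)
  have harc : Measurable fun z : Sph d × Sph d =>
      Real.arccos (inner ℝ (z.1 : EuclideanSpace ℝ (Fin d)) z.2) := by
    have h1 : Continuous fun z : Sph d × Sph d =>
        Real.arccos (inner ℝ (z.1 : EuclideanSpace ℝ (Fin d)) z.2) := by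
      fun_prop
    exact h1.measurable
  have hAset : MeasurableSet {z : Sph d × Sph d |
      Real.arccos (inner ℝ (z.1 : EuclideanSpace ℝ (Fin d)) z.2) ≤ ε} :=
    measurableSet_le harc measurable_const
  -- success probability as a sum
  have hsucc : L.successProb T ε = ∑ v, ∫⁻ w, (∫⁻ s, ENNReal.ofReal
      (chain (gR L T) (pR L T) T v s) * Set.indicator {z : Sph d × Sph d |
      Real.arccos (inner ℝ (z.1 : EuclideanSpace ℝ (Fin d)) z.2) ≤ ε} 1 (w, s)
      ∂(unifSphere d)) ∂(outR L T v) := by
    have h1 : ∀ s : Sph d, L.output T s {w | Real.arccos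
        (inner ℝ (w : EuclideanSpace ℝ (Fin d)) s) ≤ ε}
        = ∑ v, ∫⁻ w, ENNReal.ofReal (chain (gR L T) (pR L T) T v s)
          * Set.indicator {z : Sph d × Sph d |
            Real.arccos (inner ℝ (z.1 : EuclideanSpace ℝ (Fin d)) z.2) ≤ ε} 1 (w, s)
            ∂(outR L T v) := by
      intro s
      have hA : MeasurableSet {w : Sph d | Real.arccos
        (inner ℝ (w : EuclideanSpace ℝ (Fin d)) s) ≤ ε} := measurable_prodMk_right (y := s) hAset
      rw [output_eq L T s _ hA]
      refine Finset.sum_congr rfl fun v _ => ?_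
      have hi : Measurable fun w : Sph d => Set.indicator {z : Sph d × Sph d |
            Real.arccos (inner ℝ (z.1 : EuclideanSpace ℝ (Fin d)) z.2) ≤ ε}
            (1 : Sph d × Sph d → ENNReal) (w, s) :=
        (measurable_one.indicator hAset).comp (measurable_prodMk_right (y := s))
      rw [lintegral_const_mul _ hi]
      congr 1
      rw [← lintegral_indicator_one hA]
      rfl
    rw [Learner.successProb, lintegral_congr h1]
    have hF : ∀ v : Q × Fin (T + 1), Measurable fun z : Sph d × Sph d =>
        ENNReal.ofReal (chain (gR L T) (pR L T) T v z.1)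
          * Set.indicator {z : Sph d × Sph d |
            Real.arccos (inner ℝ (z.1 : EuclideanSpace ℝ (Fin d)) z.2) ≤ ε} 1 (z.2, z.1) := by
      intro v
      refine Measurable.mul ?_ ?_
      · exact ((hchm v).comp (measurable_subtype_coe.comp measurable_fst)).ennreal_ofReal
      · exact (measurable_one.indicator hAset).comp measurable_swap
    have hsf : ∀ v : Q × Fin (T + 1), IsProbabilityMeasure (outR L T v) := fun v => by
      have := L.out_markov (if (v.2 : ℕ) = 0 then T else v.2)
      unfold outR
      infer_instance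
    rw [lintegral_finsetSum]
    · refine Finset.sum_congr rfl fun v _ => ?_
      have := hsf v
      exact lintegral_lintegral_swap (hF v).aemeasurable
    · intro v _
      have := hsf v
      exact (hF v).lintegral_prod_right
  have hpt : ∀ v : Q × Fin (T + 1), ∃ w : Sph d, ∫⁻ w, (∫⁻ s, ENNReal.ofReal
      (chain (gR L T) (pR L T) T v s) * Set.indicator {z : Sph d × Sph d |
      Real.arccos (inner ℝ (z.1 : EuclideanSpace ℝ (Fin d)) z.2) ≤ ε} 1 (w, s)
      ∂(unifSphere d)) ∂(outR L T v) ≤ ENNReal.ofReal (∫ s in Metric.closedBall (w : Vec d) ε,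
        chain (gR L T) (pR L T) T v s ∂(sphU d)) := by
    intro v
    have hpv : IsProbabilityMeasure (outR L T v) := by
      have := L.out_markov (if (v.2 : ℕ) = 0 then T else v.2)
      unfold outR
      infer_instance
    have hle : ∀ w : Sph d, ∫⁻ s, ENNReal.ofReal
        (chain (gR L T) (pR L T) T v s) * Set.indicator {z : Sph d × Sph d |
        Real.arccos (inner ℝ (z.1 : EuclideanSpace ℝ (Fin d)) z.2) ≤ ε} 1 (w, s)
        ∂(unifSphere d) ≤ ENNReal.ofReal (∫ s in Metric.closedBall (w : Vec d) ε,
          chain (gR L T) (pR L T) T v s ∂(sphU d)) := by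
      intro w
      have hsU : IsProbabilityMeasure (sphU d) := by
        rw [sphU_eq_map]
        exact Measure.isProbabilityMeasure_map measurable_subtype_coe.aemeasurable
      have hint : Integrable (chain (gR L T) (pR L T) T v)
          ((sphU d).restrict (Metric.closedBall (w : Vec d) ε)) := by
        refine Integrable.of_bound (C := 1) (hchm v).aestronglyMeasurable
          (Filter.Eventually.of_forall fun s => ?_)
        rw [Real.norm_eq_abs, abs_of_nonneg (hch0 v s)]
        exact hchle v s
      rw [ofReal_integral_eq_lintegral_ofReal hint (Filter.Eventually.of_forall (hch0 v)),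
        ← lintegral_indicator Metric.isClosed_closedBall.measurableSet, sphU_eq_map,
        lintegral_map ((hchm v).ennreal_ofReal.indicator
          Metric.isClosed_closedBall.measurableSet) measurable_subtype_coe]
      refine lintegral_mono fun s => ?_
      by_cases hs : (w, s) ∈ {z : Sph d × Sph d |
        Real.arccos (inner ℝ (z.1 : EuclideanSpace ℝ (Fin d)) z.2) ≤ ε}
      · have hs2 : (s : Vec d) ∈ Metric.closedBall (w : Vec d) ε := by
          rw [Metric.mem_closedBall, dist_eq_norm]
          exact norm_sub_le_of_arccos w s ε hs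
        rw [Set.indicator_of_mem hs, Set.indicator_of_mem hs2, Pi.one_apply, mul_one]
      · rw [Set.indicator_of_notMem hs, mul_zero]
        exact zero_le
    have hfin : ∫⁻ w, (∫⁻ s, ENNReal.ofReal
        (chain (gR L T) (pR L T) T v s) * Set.indicator {z : Sph d × Sph d |
        Real.arccos (inner ℝ (z.1 : EuclideanSpace ℝ (Fin d)) z.2) ≤ ε} 1 (w, s)
        ∂(unifSphere d)) ∂(outR L T v) ≠ ⊤ := by
      refine ne_top_of_le_ne_top ENNReal.one_ne_top ?_
      calc _ ≤ ∫⁻ _w : Sph d, (1 : ENNReal) ∂(outR L T v) := by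
            refine lintegral_mono fun w => ?_
            calc _ ≤ ∫⁻ _s : Sph d, (1 : ENNReal) ∂(unifSphere d) := by
                  refine lintegral_mono fun s => ?_
                  refine mul_le_one' ?_ ?_
                  · exact ENNReal.ofReal_le_one.2 (hchle v s)
                  · exact Set.indicator_le' (fun _ _ => le_rfl) (fun _ _ => zero_le) _
              _ = 1 := by simp
        _ = 1 := by simp
    obtain ⟨w, hw⟩ := exists_lintegral_le hfin
    exact ⟨w, hw.trans (hle w)⟩
  choose S hS using hpt
  refine ⟨Q × Fin (T + 1), inferInstance, gR L T, pR L T, fun v => (S v : Vec d), ?_,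
    measurable_gR L T, gR_nonneg L T, sum_gR L T, pR_nonneg L T, sum_pR L T,
    fun v => norm_eq_of_mem_sphere (S v), ?_⟩
  · rw [Fintype.card_prod, Fintype.card_fin, mul_comm]
    exact Nat.mul_le_mul_right _ (by omega)
  · have hint0 : ∀ v, 0 ≤ ∫ s in Metric.closedBall (S v : Vec d) ε,
        chain (gR L T) (pR L T) T v s ∂(sphU d) := fun v =>
      integral_nonneg fun s => hch0 v s
    have h1 : ENNReal.ofReal (2 / 3) ≤ ENNReal.ofReal (∑ v, ∫ s in Metric.closedBall (S v : Vec d) ε,
        chain (gR L T) (pR L T) T v s ∂(sphU d)) := by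
      rw [ENNReal.ofReal_sum_of_nonneg fun v _ => hint0 v]
      refine h.trans ?_
      rw [hsucc]
      exact Finset.sum_le_sum fun v _ => hS v
    exact (ENNReal.ofReal_le_ofReal_iff (Finset.sum_nonneg fun v _ => hint0 v)).1 h1

end Vale.Agent.P309
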