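import Vale.Agent.Lib.P309.Assembly
import Vale.Agent.Lib.P309.Reduction

open MeasureTheory ProbabilityTheory

namespace Vale.Agent.P309

theorem num_card (d A K lV lT : ℝ) (hd : 32 ≤ d) (hA : 1 ≤ A) (hlT : lT ≤ d + K)
    (h : (d - 1) * K ≤ A * d ^ 2 + lT + 1.4 * d + 1) (hV : lV ≤ lT + A * d ^ 2) :
    lV ≤ 2 * A * d ^ 2 := by
  have h1 : (d - 2) * K ≤ A * d ^ 2 + 2.4 * d + 1 := by linarith
  have h2 : A * d ^ 2 + 2.4 * d + 1 ≤ (d - 2) * (2 * A * d) := by
    have h9 : 0 ≤ (A - 1) * d := mul_nonneg (by linarith) (by linarith)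
    nlinarith [mul_nonneg (mul_nonneg (by linarith : (0 : ℝ) ≤ A) (by linarith : (0 : ℝ) ≤ d))
      (by linarith : (0 : ℝ) ≤ d - 32)]
  have h3 : K ≤ 2 * A * d := le_of_mul_le_mul_left (h1.trans h2) (by linarith)
  nlinarith [mul_nonneg (by linarith : (0 : ℝ) ≤ A - 1) (by linarith : (0 : ℝ) ≤ d),
    mul_nonneg (mul_nonneg (by linarith : (0 : ℝ) ≤ A) (by linarith : (0 : ℝ) ≤ d))
      (by linarith : (0 : ℝ) ≤ d - 32)]

/-- Uniform form of the sample lower bound. -/
theorem learner_bound : ∃ c > 0, ∃ d₀ : ℕ, ∃ K₀ : ℝ, ∀ d ≥ d₀, ∀ A : ℝ, 1 ≤ A →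
    ∀ (Q : Type) [Fintype Q] [MeasurableSpace Q] [MeasurableSingletonClass Q] (M T : ℕ) (ε : ℝ)
      (L : Learner d Q), Fintype.card Q ≤ 2 ^ M → (M : ℝ) ≤ A * d ^ 2 → 0 < ε →
      K₀ * A ≤ Real.log (1 / ε) → ENNReal.ofReal (2 / 3) ≤ L.successProb T ε →
      c / A * d * Real.log (1 / ε) ≤ T := by
  obtain ⟨c, hc, d₀, K₀, hmain⟩ := chain_bound
  refine ⟨min (c / 2) 1, by positivity, max d₀ 32, max (2 * K₀) 1, ?_⟩
  intro d hd A hA Q _ _ _ M T ε L hcard hM hε hK hsucc
  have hd32 : 32 ≤ d := (le_max_right _ _).trans hd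
  have hd0 : d₀ ≤ d := (le_max_left _ _).trans hd
  have hdr : (32 : ℝ) ≤ d := by exact_mod_cast hd32
  set K := Real.log (1 / ε) with hKdef
  have hA0 : 0 < A := by linarith
  have hK1 : A ≤ K := by
    have : 1 * A ≤ max (2 * K₀) 1 * A := by
      apply mul_le_mul_of_nonneg_right (le_max_right _ _) hA0.le
    linarith
  have hK2 : K₀ * (2 * A) ≤ K := by
    have : 2 * K₀ * A ≤ max (2 * K₀) 1 * A := by
      apply mul_le_mul_of_nonneg_right (le_max_left _ _) hA0.le
    linarith
  by_contra hcon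
  push Not at hcon
  obtain ⟨V, hV, g, p0, S, hVcard, hg, hg0, hg1, h0, h1, _, hS⟩ :=
    exists_chain (by omega) L T ε hsucc
  have hle : ∀ v s, chain g p0 T v s ≤ 1 := by
    intro v s
    have h2 := chain_sum g hg hg0 hg1 p0 h1 T s
    have h3 := Finset.single_le_sum (f := fun v => chain g p0 T v s)
      (fun v _ => chain_nonneg g hg hg0 hg1 p0 h0 T v s) (Finset.mem_univ v)
    simp only [h2] at h3
    exact h3
  have hd1 : 1 ≤ d := by omega
  have hfloor := memory_floor hd1 (chain g p0 T) (chain_nonneg g hg hg0 hg1 p0 h0 T) hle ε hε S hS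
  have hVpos : (0 : ℝ) < Fintype.card V := by
    by_contra h
    have : (Fintype.card V : ℝ) = 0 := le_antisymm (not_lt.mp h) (Nat.cast_nonneg _)
    rw [this] at hfloor
    norm_num at hfloor
  have hlog2u : Real.log 2 < 0.7 := by linarith [Real.log_two_lt_d9]
  have hKε : Real.log ε = -K := by
    rw [hKdef, one_div, Real.log_inv, neg_neg]
  have hQpos : (0 : ℝ) < Fintype.card Q := by
    have h2 : (0 : ℝ) < ((T + 2) * Fintype.card Q : ℕ) :=
      lt_of_lt_of_le hVpos (by exact_mod_cast hVcard)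
    push_cast at h2
    exact (pos_iff_pos_of_mul_pos h2).mp (by positivity)
  -- logarithms of the number of states
  have hlT : Real.log (T + 2) ≤ d + K := by
    have h2 : (T : ℝ) + 2 ≤ d * (K + 1) := by
      have h3 : min (c / 2) 1 / A * d * K ≤ 1 * d * K := by
        have h4 : min (c / 2) 1 / A ≤ 1 := by
          rw [div_le_one hA0]
          exact (min_le_right _ _).trans hA
        have : 0 ≤ K := by linarith
        gcongr
      linarith
    have h5 : (0 : ℝ) < T + 2 := by positivity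
    refine (Real.log_le_log h5 h2).trans ?_
    rw [Real.log_mul (by linarith) (by linarith)]
    have h6 := Real.log_le_sub_one_of_pos (by linarith : (0 : ℝ) < d)
    have h7 := Real.log_le_sub_one_of_pos (by linarith : (0 : ℝ) < K + 1)
    linarith
  have hlV : Real.log (Fintype.card V) ≤ Real.log (T + 2) + A * d ^ 2 := by
    have h2 : (Fintype.card V : ℝ) ≤ (T + 2) * 2 ^ M := by
      have h3 : (Fintype.card V : ℝ) ≤ (T + 2) * Fintype.card Q := by exact_mod_cast hVcard
      have h4 : (Fintype.card Q : ℝ) ≤ 2 ^ M := by exact_mod_cast hcard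
      refine h3.trans ?_
      gcongr
    refine (Real.log_le_log hVpos h2).trans ?_
    rw [Real.log_mul (by positivity) (by positivity), Real.log_pow]
    have h5 : (M : ℝ) * Real.log 2 ≤ M * 1 := by
      apply mul_le_mul_of_nonneg_left (by linarith) (Nat.cast_nonneg M)
    linarith
  have hfl : (d - 1 : ℝ) * K ≤ A * d ^ 2 + Real.log (T + 2) + 1.4 * d + 1 := by
    have h2 := Real.log_le_log (by norm_num) hfloor
    rw [Real.log_mul hVpos.ne' (by positivity), Real.log_mul (by positivity) (by positivity),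
      Real.log_pow, Real.log_pow, Real.log_mul (by norm_num) hε.ne', hKε] at h2
    have h4 : ((d - 1 : ℕ) : ℝ) = d - 1 := by
      rw [Nat.cast_sub hd1]; norm_num
    rw [h4] at h2
    have h5 : (-1 : ℝ) ≤ Real.log (2 / 3) := by
      rw [Real.le_log_iff_exp_le (by norm_num)]
      have := Real.exp_one_gt_d9
      rw [Real.exp_neg]
      rw [inv_le_comm₀ (by positivity) (by norm_num)]
      linarith
    have h6 : (d : ℝ) * Real.log 2 ≤ d * 0.7 := mul_le_mul_of_nonneg_left hlog2u.le (by linarith)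
    have h7 : 0 < Real.log 2 := Real.log_pos (by norm_num)
    linarith
  have hcard2 := num_card d A K _ _ hdr hA hlT hfl hlV
  have hfin := hmain d hd0 (2 * A) (by linarith) V g p0 T ε S hg hg0 hg1 h0 h1 hcard2 hε hK2 hS
  have h3 : min (c / 2) 1 / A * d * K ≤ c / (2 * A) * d * K := by
    have h4 : min (c / 2) 1 / A ≤ c / (2 * A) := by
      rw [← div_div]
      gcongr
      exact min_le_left _ _
    have : 0 ≤ K := by linarith
    gcongr
  linarith

end Vale.Agent.P309
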