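import Vale.Agent.Lib.P309.Final

/-! P309: the memory floor. -/

open MeasureTheory ProbabilityTheory

namespace Vale.Agent.P309

theorem cap_le {d : ℕ} (hd : 1 ≤ d) (w : Sph d) (ε : ℝ) (hε : 0 < ε) :
    unifSphere d {s | Real.arccos (inner ℝ (w : EuclideanSpace ℝ (Fin d)) s) ≤ ε}
      ≤ ENNReal.ofReal (2 ^ d * (2 * ε) ^ (d - 1)) := by
  have h1 : {s : Sph d | Real.arccos (inner ℝ (w : EuclideanSpace ℝ (Fin d)) s) ≤ ε}
      ⊆ Subtype.val ⁻¹' (Metric.closedBall (w : EuclideanSpace ℝ (Fin d)) ε) := by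
    intro s hs
    rw [Set.mem_preimage, Metric.mem_closedBall, dist_eq_norm]
    exact norm_sub_le_of_arccos w s ε hs
  refine (measure_mono h1).trans ?_
  rw [← Measure.map_apply measurable_subtype_coe Metric.isClosed_closedBall.measurableSet,
    ← sphU_eq_map]
  refine sphU_diam hd _ (2 * ε) (by positivity) ?_
  intro u hu v hv
  rw [Metric.mem_closedBall, dist_eq_norm] at hu hv
  calc ‖u - v‖ = ‖(u - w) - (v - w)‖ := by congr 1; abel
    _ ≤ ‖u - w‖ + ‖v - w‖ := norm_sub_le _ _
    _ ≤ 2 * ε := by linarith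

/-- A learner whose output rule depends only on the final state cannot succeed with too little
memory, whatever its horizon. -/
theorem learner_floor {d : ℕ} (hd : 1 ≤ d) {Q : Type} [Fintype Q] [MeasurableSpace Q]
    [MeasurableSingletonClass Q] (L : Learner d Q) (hout : ∀ t, L.out t = L.out 0) (T : ℕ)
    (ε : ℝ) (hε : 0 < ε) (h : ENNReal.ofReal (2 / 3) ≤ L.successProb T ε) :
    2 / 3 ≤ (Fintype.card Q : ℝ) * (2 ^ d * (2 * ε) ^ (d - 1)) := by
  have hμ := isProb_unifSphere hd
  have hmk := L.out_markov 0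
  have hset : MeasurableSet {p : Sph d × Sph d |
      Real.arccos (inner ℝ (p.2 : EuclideanSpace ℝ (Fin d)) (p.1 : EuclideanSpace ℝ (Fin d)))
        ≤ ε} := by
    apply measurableSet_le _ measurable_const
    apply Real.continuous_arccos.measurable.comp
    fun_prop
  have h1 : ∀ s : Sph d, L.output T s
      {w | Real.arccos (inner ℝ (w : EuclideanSpace ℝ (Fin d)) s) ≤ ε}
      ≤ ∑ q : Q, L.out 0 q
        {w | Real.arccos (inner ℝ (w : EuclideanSpace ℝ (Fin d)) s) ≤ ε} := by
    intro s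
    have hmeas : MeasurableSet {w : Sph d |
        Real.arccos (inner ℝ (w : EuclideanSpace ℝ (Fin d)) (s : EuclideanSpace ℝ (Fin d))) ≤ ε} :=
      measurable_prodMk_left (x := s) hset
    rw [output_eq L T s _ hmeas, Fintype.sum_prod_type]
    apply Finset.sum_le_sum
    intro q _
    have h2 : ∀ τ : Fin (T + 1), outR L T (q, τ) = L.out 0 q := by
      intro τ; unfold outR; rw [hout]
    simp_rw [h2]
    rw [← Finset.sum_mul]
    have h3 : ∑ τ : Fin (T + 1), ENNReal.ofReal (chain (gR L T) (pR L T) T (q, τ) s) ≤ 1 := by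
      have h4 : ∀ v, 0 ≤ chain (gR L T) (pR L T) T v s := fun v =>
        chain_nonneg (gR L T) (measurable_gR L T) (gR_nonneg L T) (sum_gR L T) (pR L T)
          (pR_nonneg L T) T v s
      rw [← ENNReal.ofReal_sum_of_nonneg fun τ _ => h4 (q, τ)]
      rw [← ENNReal.ofReal_one]
      apply ENNReal.ofReal_le_ofReal
      have h5 := chain_sum (gR L T) (measurable_gR L T) (gR_nonneg L T) (sum_gR L T) (pR L T)
        (sum_pR L T) T (s : Vec d)
      rw [Fintype.sum_prod_type] at h5
      rw [← h5]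
      exact Finset.single_le_sum
        (f := fun q => ∑ τ : Fin (T + 1), chain (gR L T) (pR L T) T (q, τ) (s : Vec d))
        (fun q _ => Finset.sum_nonneg fun τ _ => h4 (q, τ)) (Finset.mem_univ q)
    calc (∑ τ : Fin (T + 1), ENNReal.ofReal (chain (gR L T) (pR L T) T (q, τ) s))
          * L.out 0 q {w | Real.arccos (inner ℝ (w : EuclideanSpace ℝ (Fin d)) s) ≤ ε}
        ≤ 1 * L.out 0 q {w | Real.arccos (inner ℝ (w : EuclideanSpace ℝ (Fin d)) s) ≤ ε} := by
          gcongr
      _ = _ := one_mul _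
  have h2 : L.successProb T ε ≤ ∑ _q : Q, ENNReal.ofReal (2 ^ d * (2 * ε) ^ (d - 1)) := by
    unfold Learner.successProb
    refine (lintegral_mono h1).trans ?_
    have h6 : ∀ q ∈ (Finset.univ : Finset Q), Measurable fun s : Sph d => L.out 0 q
        {w | Real.arccos (inner ℝ (w : EuclideanSpace ℝ (Fin d)) s) ≤ ε} := fun q _ =>
      measurable_measure_prodMk_left hset
    rw [lintegral_finsetSum _ h6]
    apply Finset.sum_le_sum
    intro q _
    have h3 : ∫⁻ s : Sph d, L.out 0 q
        {w | Real.arccos (inner ℝ (w : EuclideanSpace ℝ (Fin d)) s) ≤ ε} ∂(unifSphere d)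
        = ∫⁻ w : Sph d, unifSphere d
          {s | Real.arccos (inner ℝ (w : EuclideanSpace ℝ (Fin d)) s) ≤ ε} ∂(L.out 0 q) := by
      have h4 := Measure.prod_apply (μ := unifSphere d) (ν := L.out 0 q) hset
      have h5 := Measure.prod_apply_symm (μ := unifSphere d) (ν := L.out 0 q) hset
      exact h4.symm.trans h5
    rw [h3]
    calc ∫⁻ w : Sph d, unifSphere d
          {s | Real.arccos (inner ℝ (w : EuclideanSpace ℝ (Fin d)) s) ≤ ε} ∂(L.out 0 q)
        ≤ ∫⁻ _w : Sph d, ENNReal.ofReal (2 ^ d * (2 * ε) ^ (d - 1)) ∂(L.out 0 q) :=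
          lintegral_mono fun w => cap_le hd w ε hε
      _ = _ := by rw [lintegral_const, measure_univ, mul_one]
  have h3 := h.trans h2
  rw [Finset.sum_const, Finset.card_univ, nsmul_eq_mul] at h3
  rw [← ENNReal.ofReal_natCast, ← ENNReal.ofReal_mul (Nat.cast_nonneg _)] at h3
  exact (ENNReal.ofReal_le_ofReal_iff (by positivity)).mp h3

end Vale.Agent.P309
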