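import Vale.Agent.Lib.P309.Learner

/-! P309: the averaged contraction of one Kaczmarz step on Gaussian rows. -/

open MeasureTheory ProbabilityTheory

namespace Vale.Agent.P309

section

variable {d : ℕ}

/-- One Kaczmarz step. -/
noncomputable def kz (z x : EuclideanSpace ℝ (Fin d)) (y : ℝ) : EuclideanSpace ℝ (Fin d) :=
  z + ((y - inner ℝ x z) / ‖x‖ ^ 2) • x

theorem kz_norm_sq (z x s : EuclideanSpace ℝ (Fin d)) :
    ‖kz z x (inner ℝ x s) - s‖ ^ 2
      = ‖z - s‖ ^ 2 - (inner ℝ x (z - s)) ^ 2 / ‖x‖ ^ 2 := by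
  by_cases hx : x = 0
  · subst hx
    simp [kz]
  have hx' : ‖x‖ ≠ 0 := norm_ne_zero_iff.mpr hx
  set e := z - s with he
  have h1 : kz z x (inner ℝ x s) - s = e - (inner ℝ x e / ‖x‖ ^ 2) • x := by
    unfold kz
    rw [he, inner_sub_right]
    have : (inner ℝ x s - inner ℝ x z) / ‖x‖ ^ 2 = -((inner ℝ x z - inner ℝ x s) / ‖x‖ ^ 2) := by
      ring
    rw [this, neg_smul]
    abel
  rw [h1, norm_sub_sq_real, inner_smul_right, norm_smul, real_inner_comm, Real.norm_eq_abs,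
    mul_pow, sq_abs]
  field_simp
  ring

theorem stdGaussian_zero (hd : 1 ≤ d) :
    stdGaussian (EuclideanSpace ℝ (Fin d)) {0} = 0 := by
  rw [← map_pi_eq_stdGaussian, Measure.map_apply (by fun_prop) (measurableSet_singleton _)]
  have : (WithLp.toLp 2 : (Fin d → ℝ) → EuclideanSpace ℝ (Fin d)) ⁻¹' {0} = {0} := by
    ext x
    simp
  rw [this]
  have h1 : NullSingletonClass (gaussianReal 0 1) := nullSingletonClass_gaussianReal (by norm_num)
  have h2 : NullSingletonClass (Measure.pi fun _ : Fin d => gaussianReal 0 1) :=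
    Measure.pi_nullSingletonClass (⟨0, hd⟩ : Fin d)
  exact measure_singleton _

/-- Mean of the squared cosine between a Gaussian row and a fixed vector. -/
theorem integral_cos_sq (hd : 1 ≤ d) (e : EuclideanSpace ℝ (Fin d)) :
    ∫ x, (inner ℝ x e) ^ 2 / ‖x‖ ^ 2 ∂(stdGaussian (EuclideanSpace ℝ (Fin d)))
      = ‖e‖ ^ 2 / d := by
  set γ := stdGaussian (EuclideanSpace ℝ (Fin d)) with hγ
  have hmeas : ∀ v : EuclideanSpace ℝ (Fin d), Measurable
      fun x : EuclideanSpace ℝ (Fin d) => (inner ℝ x v) ^ 2 / ‖x‖ ^ 2 := by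
    intro v; fun_prop
  have hbd : ∀ v x : EuclideanSpace ℝ (Fin d), ‖(inner ℝ x v) ^ 2 / ‖x‖ ^ 2‖ ≤ ‖v‖ ^ 2 := by
    intro v x
    rw [Real.norm_eq_abs, abs_of_nonneg (by positivity)]
    by_cases hx : x = 0
    · subst hx; simp
    have hx' : 0 < ‖x‖ ^ 2 := by positivity
    rw [div_le_iff₀ hx', ← mul_pow]
    have := abs_real_inner_le_norm x v
    rw [← sq_abs (inner ℝ x v)]
    have h2 : |inner ℝ x v| ≤ ‖v‖ * ‖x‖ := by linarith [mul_comm ‖x‖ ‖v‖]
    gcongr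
  have hint : ∀ v : EuclideanSpace ℝ (Fin d), Integrable
      (fun x : EuclideanSpace ℝ (Fin d) => (inner ℝ x v) ^ 2 / ‖x‖ ^ 2) γ := fun v =>
    Integrable.of_bound (hmeas v).aestronglyMeasurable _ (Filter.Eventually.of_forall (hbd v))
  -- rotation invariance
  have hrot : ∀ v w : EuclideanSpace ℝ (Fin d), ‖v‖ = ‖w‖ →
      ∫ x, (inner ℝ x v) ^ 2 / ‖x‖ ^ 2 ∂γ = ∫ x, (inner ℝ x w) ^ 2 / ‖x‖ ^ 2 ∂γ := by
    intro v w hvw
    set U := (ℝ ∙ (v - w))ᗮ.reflection with hU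
    have hUv : U v = w := Submodule.reflection_sub hvw
    have hmap : γ.map U = γ := stdGaussian_map U
    conv_rhs => rw [← hmap]
    rw [integral_map U.continuous.measurable.aemeasurable (hmeas w).aestronglyMeasurable]
    apply integral_congr_ae
    filter_upwards with x
    rw [← hUv, U.inner_map_map, U.norm_map]
  -- sum over the standard basis
  have hsum : ∑ i : Fin d, ∫ x, (inner ℝ x (EuclideanSpace.basisFun (Fin d) ℝ i)) ^ 2
      / ‖x‖ ^ 2 ∂γ = 1 := by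
    rw [← integral_finsetSum _ (fun i _ => hint _)]
    have : (fun x : EuclideanSpace ℝ (Fin d) =>
        ∑ i : Fin d, (inner ℝ x (EuclideanSpace.basisFun (Fin d) ℝ i)) ^ 2 / ‖x‖ ^ 2)
        =ᵐ[γ] fun _ => 1 := by
      have h0 : ∀ᵐ x ∂γ, x ≠ 0 := by
        rw [ae_iff]
        simpa using stdGaussian_zero hd
      filter_upwards [h0] with x hx
      rw [← Finset.sum_div]
      have h1 : ∑ i : Fin d, (inner ℝ x (EuclideanSpace.basisFun (Fin d) ℝ i)) ^ 2 = ‖x‖ ^ 2 :=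
        (EuclideanSpace.basisFun (Fin d) ℝ).sum_sq_inner_left x
      rw [h1, div_self (by positivity)]
    rw [integral_congr_ae this]
    simp
  have hdpos : (0 : ℝ) < d := by exact_mod_cast hd
  -- unit vectors
  have hunit : ∀ v : EuclideanSpace ℝ (Fin d), ‖v‖ = 1 →
      ∫ x, (inner ℝ x v) ^ 2 / ‖x‖ ^ 2 ∂γ = 1 / d := by
    intro v hv
    have h1 : ∀ i : Fin d, ∫ x, (inner ℝ x (EuclideanSpace.basisFun (Fin d) ℝ i)) ^ 2
        / ‖x‖ ^ 2 ∂γ = ∫ x, (inner ℝ x v) ^ 2 / ‖x‖ ^ 2 ∂γ := fun i =>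
      hrot _ _ (by simp [hv])
    rw [Finset.sum_congr rfl (fun i _ => h1 i), Finset.sum_const, Finset.card_univ,
      Fintype.card_fin, nsmul_eq_mul] at hsum
    rw [eq_div_iff hdpos.ne', mul_comm]
    exact hsum
  by_cases he : e = 0
  · subst he; simp
  have hne : ‖e‖ ≠ 0 := norm_ne_zero_iff.mpr he
  have h2 := hunit ((1 / ‖e‖) • e) (by rw [norm_smul, norm_div, norm_one, norm_norm]; field_simp)
  have h3 : (fun x : EuclideanSpace ℝ (Fin d) =>
      (inner ℝ x ((1 / ‖e‖) • e)) ^ 2 / ‖x‖ ^ 2)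
      = fun x => (1 / ‖e‖) ^ 2 * ((inner ℝ x e) ^ 2 / ‖x‖ ^ 2) := by
    funext x
    rw [inner_smul_right]
    ring
  rw [h3, integral_const_mul] at h2
  field_simp at h2 ⊢
  linarith

/-- Mean error after one Kaczmarz step. -/
theorem integral_kz_le (hd : 1 ≤ d) (z s : EuclideanSpace ℝ (Fin d)) :
    ∫⁻ x, ENNReal.ofReal ‖kz z x (inner ℝ x s) - s‖ ∂(stdGaussian (EuclideanSpace ℝ (Fin d)))
      ≤ ENNReal.ofReal ((1 - 1 / (2 * d)) * ‖z - s‖) := by
  set γ := stdGaussian (EuclideanSpace ℝ (Fin d)) with hγ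
  have hdpos : (0 : ℝ) < d := by exact_mod_cast hd
  by_cases he : ‖z - s‖ = 0
  · have h1 : ∀ x, ‖kz z x (inner ℝ x s) - s‖ = 0 := by
      intro x
      have h2 := kz_norm_sq z x s
      have h3 : z - s = 0 := norm_eq_zero.mp he
      rw [h3] at h2
      simp at h2
      simpa using h2
    simp [h1]
  have hepos : 0 < ‖z - s‖ := lt_of_le_of_ne (norm_nonneg _) (Ne.symm he)
  have hmeas : Measurable fun x : EuclideanSpace ℝ (Fin d) =>
      (inner ℝ x (z - s)) ^ 2 / ‖x‖ ^ 2 := by fun_prop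
  have hbd : ∀ x : EuclideanSpace ℝ (Fin d), (inner ℝ x (z - s)) ^ 2 / ‖x‖ ^ 2 ≤ ‖z - s‖ ^ 2 := by
    intro x
    have := kz_norm_sq z x s
    nlinarith [sq_nonneg ‖kz z x (inner ℝ x s) - s‖]
  have hint : Integrable
      (fun x : EuclideanSpace ℝ (Fin d) => (inner ℝ x (z - s)) ^ 2 / ‖x‖ ^ 2) γ := by
    refine Integrable.of_bound hmeas.aestronglyMeasurable (‖z - s‖ ^ 2) ?_
    filter_upwards with x
    rw [Real.norm_eq_abs, abs_of_nonneg (by positivity)]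
    exact hbd x
  have hpt : ∀ x : EuclideanSpace ℝ (Fin d), ‖kz z x (inner ℝ x s) - s‖
      ≤ ‖z - s‖ - (inner ℝ x (z - s)) ^ 2 / ‖x‖ ^ 2 / (2 * ‖z - s‖) := by
    intro x
    have h2 := kz_norm_sq z x s
    have h3 : ‖kz z x (inner ℝ x s) - s‖ * (2 * ‖z - s‖)
        ≤ ‖kz z x (inner ℝ x s) - s‖ ^ 2 + ‖z - s‖ ^ 2 := by
      nlinarith [sq_nonneg (‖kz z x (inner ℝ x s) - s‖ - ‖z - s‖)]
    rw [h2] at h3
    have h4 : ‖kz z x (inner ℝ x s) - s‖
        ≤ (‖z - s‖ ^ 2 - (inner ℝ x (z - s)) ^ 2 / ‖x‖ ^ 2 + ‖z - s‖ ^ 2) / (2 * ‖z - s‖) := by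
      rw [le_div_iff₀ (by positivity)]
      exact h3
    refine h4.trans (le_of_eq ?_)
    field_simp
    ring
  have hint2 : Integrable (fun x : EuclideanSpace ℝ (Fin d) =>
      ‖z - s‖ - (inner ℝ x (z - s)) ^ 2 / ‖x‖ ^ 2 / (2 * ‖z - s‖)) γ :=
    (integrable_const _).sub (hint.div_const _)
  calc ∫⁻ x, ENNReal.ofReal ‖kz z x (inner ℝ x s) - s‖ ∂γ
      ≤ ∫⁻ x, ENNReal.ofReal
        (‖z - s‖ - (inner ℝ x (z - s)) ^ 2 / ‖x‖ ^ 2 / (2 * ‖z - s‖)) ∂γ :=
        lintegral_mono fun x => ENNReal.ofReal_le_ofReal (hpt x)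
    _ = ENNReal.ofReal (∫ x, (‖z - s‖ - (inner ℝ x (z - s)) ^ 2 / ‖x‖ ^ 2 / (2 * ‖z - s‖)) ∂γ) := by
        rw [ofReal_integral_eq_lintegral_ofReal hint2]
        filter_upwards with x
        exact (norm_nonneg _).trans (hpt x)
    _ = ENNReal.ofReal ((1 - 1 / (2 * d)) * ‖z - s‖) := by
        congr 1
        rw [integral_sub (integrable_const _) (hint.div_const _), integral_div,
          integral_cos_sq hd]
        simp
        field_simp

end

end Vale.Agent.P309
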