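import Vale.Agent.Lib.P309.Core

open MeasureTheory ProbabilityTheory

namespace Vale.Agent.P309

/-! ### Gibbs inequality -/

theorem gibbs_term {p q : ℝ} (hp : 0 < p) (hq : 0 < q) :
    (-Real.log p + 1) * p ≤ -Real.log q * p + q := by
  have h1 := Real.log_le_sub_one_of_pos (div_pos hq hp)
  rw [Real.log_div hq.ne' hp.ne'] at h1
  have h2 : (Real.log q - Real.log p) * p ≤ (q / p - 1) * p :=
    mul_le_mul_of_nonneg_right h1 hp.le
  have h3 : (q / p - 1) * p = q - p := by field_simp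
  rw [h3] at h2
  linarith

/-- Gibbs inequality for a countable alphabet. -/
theorem gibbs {Z : Type*} [Countable Z] [MeasurableSpace Z] [MeasurableSingletonClass Z]
    (m : Measure Z) [IsProbabilityMeasure m] (q : Z → ℝ) (hq0 : ∀ z, 0 < q z)
    (hq1 : ∀ z, q z ≤ 1) (hq : ∑' z, ENNReal.ofReal (q z) ≤ 1) :
    ∫⁻ z, ENNReal.ofReal (-Real.log (m.real {z})) ∂m ≤
      ∫⁻ z, ENNReal.ofReal (-Real.log (q z)) ∂m := by
  have h1 : ∫⁻ z, ENNReal.ofReal (-Real.log (m.real {z})) ∂m + 1 ≤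
      ∫⁻ z, ENNReal.ofReal (-Real.log (q z)) ∂m + 1 := by
    calc _ = ∫⁻ z, (ENNReal.ofReal (-Real.log (m.real {z})) + 1) ∂m := by
          rw [lintegral_add_right _ measurable_const]
          simp
      _ = ∑' z, (ENNReal.ofReal (-Real.log (m.real {z})) + 1) * m {z} := lintegral_countable' _
      _ ≤ ∑' z, (ENNReal.ofReal (-Real.log (q z)) * m {z} + ENNReal.ofReal (q z)) := by
          refine ENNReal.tsum_le_tsum fun z => ?_
          have hm : m {z} = ENNReal.ofReal (m.real {z}) := (ofReal_measureReal).symm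
          have hp1 : m.real {z} ≤ 1 := measureReal_le_one
          rcases eq_or_lt_of_le (measureReal_nonneg (μ := m) (s := {z})) with h0 | h0
          · rw [hm, ← h0]
            simp
          · have hl1 : 0 ≤ -Real.log (m.real {z}) := by
              have := Real.log_nonpos h0.le hp1
              linarith
            have hl2 : 0 ≤ -Real.log (q z) := by
              have := Real.log_nonpos (hq0 z).le (hq1 z)
              linarith
            rw [hm, ← ENNReal.ofReal_one, ← ENNReal.ofReal_add hl1 zero_le_one,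
              ← ENNReal.ofReal_mul (by linarith), ← ENNReal.ofReal_mul hl2,
              ← ENNReal.ofReal_add (mul_nonneg hl2 h0.le) (hq0 z).le]
            exact ENNReal.ofReal_le_ofReal (gibbs_term h0 (hq0 z))
      _ = ∑' z, ENNReal.ofReal (-Real.log (q z)) * m {z} + ∑' z, ENNReal.ofReal (q z) :=
          ENNReal.tsum_add
      _ ≤ ∫⁻ z, ENNReal.ofReal (-Real.log (q z)) ∂m + 1 := by
          rw [lintegral_countable']
          gcongr
  exact ENNReal.le_of_add_le_add_right ENNReal.one_ne_top h1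

/-! ### Lower bounds for Gaussian cells -/

/-- A cell of width `2^(-k)`. -/
theorem cell_eq (k : ℕ) (n : ℤ) : {y : ℝ | ⌊(2 : ℝ) ^ k * y⌋ = n} =
    Set.Ico ((n : ℝ) / 2 ^ k) (((n : ℝ) + 1) / 2 ^ k) := by
  have h2 : (0 : ℝ) < 2 ^ k := by positivity
  ext y
  rw [Set.mem_ofPred_eq, Int.floor_eq_iff, Set.mem_Ico, div_le_iff₀ h2, lt_div_iff₀ h2]
  rw [mul_comm y]

theorem volume_cell (k : ℕ) (n : ℤ) :
    volume.real {y : ℝ | ⌊(2 : ℝ) ^ k * y⌋ = n} = 1 / 2 ^ k := by
  have h2 : (0 : ℝ) < 2 ^ k := by positivity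
  rw [cell_eq, measureReal_def, Real.volume_Ico, ENNReal.toReal_ofReal]
  · field_simp
    ring
  · rw [sub_nonneg]
    gcongr
    linarith

/-- The square of a real number, as a nonnegative real number. -/
noncomputable def sqN (D : ℝ) : NNReal := Real.toNNReal (D ^ 2)

theorem coe_sqN (D : ℝ) : (sqN D : ℝ) = D ^ 2 := Real.coe_toNNReal _ (sq_nonneg D)

theorem sqN_ne_zero {D : ℝ} (hD : 0 < D) : sqN D ≠ 0 := by
  intro h
  have h1 := coe_sqN D
  rw [h, NNReal.coe_zero] at h1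
  have h2 : 0 < D ^ 2 := by positivity
  linarith

/-- The lower bound for the probability of a cell. -/
theorem cell_lower (μ y₀ D : ℝ) (hD : 0 < D) (k : ℕ) :
    (Real.sqrt (2 * Real.pi * D ^ 2))⁻¹ *
        Real.exp (-((y₀ - μ) ^ 2 + (1 / 2 ^ k) ^ 2) / D ^ 2) * (1 / 2 ^ k) ≤
      (gaussianReal μ (sqN D)).real {y : ℝ | ⌊(2 : ℝ) ^ k * y⌋ = ⌊(2 : ℝ) ^ k * y₀⌋} := by
  have h2 : (0 : ℝ) < 2 ^ k := by positivity
  rw [measureReal_def, gaussianReal_apply_eq_integral _ (sqN_ne_zero hD),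
    ENNReal.toReal_ofReal (integral_nonneg fun _ => gaussianPDFReal_nonneg _ _ _)]
  suffices key : (Real.sqrt (2 * Real.pi * D ^ 2))⁻¹ *
        Real.exp (-((y₀ - μ) ^ 2 + (1 / 2 ^ k) ^ 2) / D ^ 2) *
        volume.real {y : ℝ | ⌊(2 : ℝ) ^ k * y⌋ = ⌊(2 : ℝ) ^ k * y₀⌋} ≤
        ∫ x in {y : ℝ | ⌊(2 : ℝ) ^ k * y⌋ = ⌊(2 : ℝ) ^ k * y₀⌋},
          gaussianPDFReal μ (sqN D) x by
    rwa [volume_cell] at key
  refine setIntegral_ge_of_const_le_real ?_ ?_ ?_ (integrable_gaussianPDFReal _ _).integrableOn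
  · rw [cell_eq]
    exact measurableSet_Ico
  · rw [cell_eq, Real.volume_Ico]
    exact ENNReal.ofReal_ne_top
  · intro y hy
    unfold gaussianPDFReal
    rw [coe_sqN]
    refine mul_le_mul_of_nonneg_left ?_ (by positivity)
    rw [Real.exp_le_exp]
    have h0 : y₀ ∈ {y : ℝ | ⌊(2 : ℝ) ^ k * y⌋ = ⌊(2 : ℝ) ^ k * y₀⌋} := rfl
    rw [cell_eq, Set.mem_Ico] at hy h0
    have h3 : |y - y₀| ≤ 1 / 2 ^ k := by
      have h4 : ((⌊(2 : ℝ) ^ k * y₀⌋ : ℝ) + 1) / 2 ^ k = (⌊(2 : ℝ) ^ k * y₀⌋ : ℝ) / 2 ^ k + 1 / 2 ^ k :=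
        add_div _ _ _
      rw [h4] at hy h0
      rw [abs_le]
      constructor <;> linarith [hy.1, hy.2, h0.1, h0.2]
    have h5 : (y - μ) ^ 2 ≤ 2 * ((y₀ - μ) ^ 2 + (1 / 2 ^ k) ^ 2) := by
      have h6 : (y - y₀) ^ 2 ≤ (1 / 2 ^ k) ^ 2 := by
        rw [← sq_abs (y - y₀)]
        exact pow_le_pow_left₀ (abs_nonneg _) h3 2
      nlinarith [sq_nonneg ((y₀ - μ) - (y - y₀))]
    rw [neg_div, neg_div, neg_le_neg_iff]
    have h7 : 0 < D ^ 2 := by positivity
    rw [div_le_div_iff₀ (by positivity) h7]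
    nlinarith

theorem neg_log_cell_le (μ y₀ D : ℝ) (hD : 0 < D) (k : ℕ) (hk : 1 ≤ D * 2 ^ k) :
    0 < (gaussianReal μ (sqN D)).real
      {y : ℝ | ⌊(2 : ℝ) ^ k * y⌋ = ⌊(2 : ℝ) ^ k * y₀⌋} ∧
    -Real.log ((gaussianReal μ (sqN D)).real
      {y : ℝ | ⌊(2 : ℝ) ^ k * y⌋ = ⌊(2 : ℝ) ^ k * y₀⌋}) ≤
      Real.log (D * 2 ^ k) + 2 + (y₀ - μ) ^ 2 / D ^ 2 := by
  have h2 : (0 : ℝ) < 2 ^ k := by positivity
  have h1 := cell_lower μ y₀ D hD k
  set c := (Real.sqrt (2 * Real.pi * D ^ 2))⁻¹ *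
        Real.exp (-((y₀ - μ) ^ 2 + (1 / 2 ^ k) ^ 2) / D ^ 2) * (1 / 2 ^ k) with hc
  have hs : 0 < Real.sqrt (2 * Real.pi * D ^ 2) := by positivity
  have hc0 : 0 < c := by positivity
  refine ⟨hc0.trans_le h1, ?_⟩
  have h3 : -Real.log c ≤ Real.log (D * 2 ^ k) + 2 + (y₀ - μ) ^ 2 / D ^ 2 := by
    rw [hc, Real.log_mul (by positivity) (by positivity), Real.log_mul (by positivity)
      (by positivity), Real.log_inv, Real.log_exp, Real.log_div one_ne_zero h2.ne', Real.log_one,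
      Real.log_mul hD.ne' h2.ne', Real.sqrt_mul (by positivity), Real.sqrt_sq hD.le,
      Real.log_mul (by positivity) hD.ne']
    have h4 : Real.log (Real.sqrt (2 * Real.pi)) ≤ 1 := by
      rw [Real.log_sqrt (by positivity)]
      have h5 : Real.log (2 * Real.pi) ≤ 2 := by
        rw [Real.log_le_iff_le_exp (by positivity)]
        have h6 := Real.pi_lt_d2
        have h7 := Real.exp_one_gt_d9
        have h8 : Real.exp 2 = Real.exp 1 * Real.exp 1 := by
          rw [← Real.exp_add]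
          norm_num
        rw [h8]
        nlinarith
      linarith
    have h9 : (1 / 2 ^ k : ℝ) ^ 2 / D ^ 2 ≤ 1 := by
      rw [div_pow, one_pow, div_div, div_le_one (by positivity), ← mul_pow]
      have : 1 ≤ (2 ^ k * D) := by linarith
      exact one_le_pow₀ this
    have h10 : -((y₀ - μ) ^ 2 + (1 / 2 ^ k) ^ 2) / D ^ 2 =
        -((y₀ - μ) ^ 2 / D ^ 2) - (1 / 2 ^ k) ^ 2 / D ^ 2 := by ring
    rw [h10]
    linarith
  have h4 := Real.log_le_log hc0 h1
  linarith

/-! ### The entropy of the labels for fixed rows -/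

theorem measurable_qlab {d N : ℕ} (k : ℕ) (X : Fin N → Vec d) : Measurable (qlab k X) := by
  refine measurable_pi_iff.2 fun i => ?_
  unfold qlab
  refine Int.measurable_floor.comp ?_
  fun_prop

theorem tsum_cell_le {N : ℕ} (ν : Fin N → Measure ℝ) [∀ i, IsProbabilityMeasure (ν i)] (k : ℕ) :
    ∑' z : Fin N → ℤ, ENNReal.ofReal (∏ i, (ν i).real {y : ℝ | ⌊(2 : ℝ) ^ k * y⌋ = z i}) ≤ 1 := by
  set g : (Fin N → ℝ) → (Fin N → ℤ) := fun y i => ⌊(2 : ℝ) ^ k * y i⌋ with hg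
  have hgm : Measurable g := by
    refine measurable_pi_iff.2 fun i => ?_
    refine Int.measurable_floor.comp ?_
    fun_prop
  have : IsProbabilityMeasure ((Measure.pi ν).map g) :=
    Measure.isProbabilityMeasure_map hgm.aemeasurable
  have h1 : ∀ z : Fin N → ℤ, ENNReal.ofReal (∏ i, (ν i).real {y : ℝ | ⌊(2 : ℝ) ^ k * y⌋ = z i}) =
      ((Measure.pi ν).map g) {z} := by
    intro z
    rw [Measure.map_apply hgm (measurableSet_singleton z)]
    have h2 : g ⁻¹' {z} = Set.pi Set.univ (fun i => {y : ℝ | ⌊(2 : ℝ) ^ k * y⌋ = z i}) := by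
      ext y
      simp [hg, funext_iff]
    rw [h2, Measure.pi_pi, ENNReal.ofReal_prod_of_nonneg (fun i _ => measureReal_nonneg)]
    exact Finset.prod_congr rfl fun i _ => ofReal_measureReal
  simp_rw [h1]
  have h3 := lintegral_countable' (μ := (Measure.pi ν).map g) (fun _ => 1)
  simp only [lintegral_const, measure_univ, one_mul] at h3
  rw [← h3]

theorem label_entropy_fixed {d N : ℕ} (ρ : Measure (Vec d)) [IsProbabilityMeasure ρ] (s₀ : Vec d)
    (D : ℝ) (hD : 0 < D) (k : ℕ) (hk : 1 ≤ D * 2 ^ k) (X : Fin N → Vec d) :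
    ∫⁻ s, ENNReal.ofReal (-Real.log (ρ.real {s' | qlab k X s' = qlab k X s})) ∂ρ ≤
      ∫⁻ s, ENNReal.ofReal (∑ i, (Real.log (D * 2 ^ k) + 2 + (inner ℝ (X i) (s - s₀)) ^ 2 / D ^ 2))
        ∂ρ := by
  have hm := measurable_qlab k X
  have : IsProbabilityMeasure (ρ.map (qlab k X)) := Measure.isProbabilityMeasure_map hm.aemeasurable
  set q : (Fin N → ℤ) → ℝ := fun z => ∏ i,
    (gaussianReal (inner ℝ (X i) s₀) (sqN D)).real {y : ℝ | ⌊(2 : ℝ) ^ k * y⌋ = z i}
    with hq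
  have h2 : (0 : ℝ) < 2 ^ k := by positivity
  have hpos : ∀ (i : Fin N) (n : ℤ), 0 <
      (gaussianReal (inner ℝ (X i) s₀) (sqN D)).real
        {y : ℝ | ⌊(2 : ℝ) ^ k * y⌋ = n} := by
    intro i n
    have h3 := (neg_log_cell_le (inner ℝ (X i) s₀) ((n : ℝ) / 2 ^ k) D hD k hk).1
    have h4 : ⌊(2 : ℝ) ^ k * ((n : ℝ) / 2 ^ k)⌋ = n := by
      rw [mul_div_cancel₀ _ h2.ne', Int.floor_intCast]
    rwa [h4] at h3
  have hq0 : ∀ z, 0 < q z := fun z => Finset.prod_pos fun i _ => hpos i (z i)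
  have hq1 : ∀ z, q z ≤ 1 := fun z =>
    Finset.prod_le_one (fun i _ => measureReal_nonneg) fun i _ => measureReal_le_one
  have h3 := gibbs (ρ.map (qlab k X)) q hq0 hq1 (tsum_cell_le _ k)
  rw [lintegral_map Measurable.of_discrete hm, lintegral_map Measurable.of_discrete hm] at h3
  have h4 : ∀ s, (ρ.map (qlab k X)).real {qlab k X s} =
      ρ.real {s' | qlab k X s' = qlab k X s} := by
    intro s
    rw [map_measureReal_apply hm (measurableSet_singleton _)]
    rfl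
  simp only [h4] at h3
  refine h3.trans (lintegral_mono fun s => ENNReal.ofReal_le_ofReal ?_)
  rw [hq]
  simp only
  rw [Real.log_prod (fun i _ => (hpos i _).ne'), ← Finset.sum_neg_distrib]
  refine Finset.sum_le_sum fun i _ => ?_
  have h5 := (neg_log_cell_le (inner ℝ (X i) s₀) (inner ℝ (X i) s) D hD k hk).2
  rw [inner_sub_right]
  exact h5

/-! ### Integration over the rows -/

theorem integral_inner_sq {d : ℕ} (u : Vec d) :
    Integrable (fun x : Vec d => (inner ℝ x u) ^ 2) (stdGaussian (Vec d)) ∧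
      ∫ x, (inner ℝ x u) ^ 2 ∂(stdGaussian (Vec d)) = ‖u‖ ^ 2 := by
  have h1 := variance_dual_stdGaussian (E := Vec d) (innerSL ℝ u)
  have h2 : MemLp (innerSL ℝ u : Vec d → ℝ) 2 (stdGaussian (Vec d)) :=
    IsGaussian.memLp_dual _ _ 2 (by simp)
  have h3 : (fun x : Vec d => (inner ℝ x u) ^ 2) = fun x => (innerSL ℝ u x) ^ 2 := by
    ext x
    rw [real_inner_comm]
    rfl
  rw [variance_of_integral_eq_zero h2.aemeasurable (integral_strongDual_stdGaussian _),
    innerSL_apply_norm] at h1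
  rw [h3]
  exact ⟨h2.integrable_sq, h1⟩

/-- Entropy of the rounded labels of a window is at most that of a Gaussian label law. -/
theorem label_entropy {d N : ℕ} (ρ : Measure (Vec d)) [IsProbabilityMeasure ρ] (s₀ : Vec d)
    (D : ℝ) (hD : 0 < D) (hρ : ∀ᵐ s ∂ρ, ‖s - s₀‖ ≤ D) (k : ℕ) (hk : 1 ≤ D * 2 ^ k) :
    ∫⁻ X, ∫⁻ s, ENNReal.ofReal (-Real.log (ρ.real {s' | qlab k X s' = qlab k X s})) ∂ρ
        ∂(gam d N) ≤ ENNReal.ofReal (N * (Real.log (D * 2 ^ k) + 3)) := by
  have hlog : 0 ≤ Real.log (D * 2 ^ k) := Real.log_nonneg hk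
  have hD2 : 0 < D ^ 2 := by positivity
  refine (lintegral_mono fun X => label_entropy_fixed ρ s₀ D hD k hk X).trans ?_
  rw [lintegral_lintegral_swap]
  · have hs : ∀ᵐ s ∂ρ, ∫⁻ X, ENNReal.ofReal
        (∑ i, (Real.log (D * 2 ^ k) + 2 + (inner ℝ (X i) (s - s₀)) ^ 2 / D ^ 2)) ∂(gam d N) ≤
        ENNReal.ofReal (N * (Real.log (D * 2 ^ k) + 3)) := by
      filter_upwards [hρ] with s hs
      have hnn : ∀ x : Vec d, 0 ≤ Real.log (D * 2 ^ k) + 2 + (inner ℝ x (s - s₀)) ^ 2 / D ^ 2 := by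
        intro x
        positivity
      have hi := integral_inner_sq (s - s₀)
      have hone : ∫⁻ x, ENNReal.ofReal (Real.log (D * 2 ^ k) + 2 +
          (inner ℝ x (s - s₀)) ^ 2 / D ^ 2) ∂(stdGaussian (Vec d)) ≤
          ENNReal.ofReal (Real.log (D * 2 ^ k) + 3) := by
        rw [← ofReal_integral_eq_lintegral_ofReal
          (f := fun x : Vec d => Real.log (D * 2 ^ k) + 2 + (inner ℝ x (s - s₀)) ^ 2 / D ^ 2)
          ((integrable_const _).add (hi.1.div_const _)) (Filter.Eventually.of_forall hnn)]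
        apply ENNReal.ofReal_le_ofReal
        rw [integral_add (integrable_const _) (hi.1.div_const _), integral_div, hi.2]
        have h5 : ‖s - s₀‖ ^ 2 / D ^ 2 ≤ 1 := by
          rw [div_le_one hD2]
          exact pow_le_pow_left₀ (norm_nonneg _) hs 2
        simp only [integral_const, probReal_univ, smul_eq_mul, one_mul]
        linarith
      have hsum : ∀ X : Fin N → Vec d, ENNReal.ofReal
          (∑ i, (Real.log (D * 2 ^ k) + 2 + (inner ℝ (X i) (s - s₀)) ^ 2 / D ^ 2)) =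
          ∑ i, ENNReal.ofReal (Real.log (D * 2 ^ k) + 2 +
            (inner ℝ (X i) (s - s₀)) ^ 2 / D ^ 2) := fun X =>
        ENNReal.ofReal_sum_of_nonneg fun i _ => hnn (X i)
      simp_rw [hsum]
      rw [lintegral_finsetSum _ (fun i _ => by fun_prop)]
      have heach : ∀ i ∈ (Finset.univ : Finset (Fin N)), ∫⁻ X : Fin N → Vec d,
          ENNReal.ofReal (Real.log (D * 2 ^ k) + 2 +
            (inner ℝ (X i) (s - s₀)) ^ 2 / D ^ 2) ∂(gam d N) ≤
          ENNReal.ofReal (Real.log (D * 2 ^ k) + 3) := by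
        intro i _
        have hmp := measurePreserving_eval (fun _ : Fin N => stdGaussian (Vec d)) i
        have h6 := hmp.lintegral_comp (f := fun x : Vec d =>
          ENNReal.ofReal (Real.log (D * 2 ^ k) + 2 + (inner ℝ x (s - s₀)) ^ 2 / D ^ 2))
          (by fun_prop)
        unfold gam
        rw [← h6] at hone
        exact hone
      refine (Finset.sum_le_sum heach).trans ?_
      rw [Finset.sum_const, Finset.card_univ, Fintype.card_fin, nsmul_eq_mul,
        ENNReal.ofReal_mul (Nat.cast_nonneg N), ENNReal.ofReal_natCast]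
    calc _ ≤ ∫⁻ _s, ENNReal.ofReal (N * (Real.log (D * 2 ^ k) + 3)) ∂ρ := lintegral_mono_ae hs
      _ = _ := by simp
  · apply Measurable.aemeasurable
    unfold Function.uncurry
    fun_prop

end Vale.Agent.P309
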