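import Mathlib

/-! P309: the model. Learners that read pairs (row, exact label) of a noiseless Gaussian linear
regression stream and keep only a state from a finite set. -/

open MeasureTheory ProbabilityTheory

namespace Vale.Agent.P309

/-- The unit sphere of `d`-dimensional Euclidean space. -/
abbrev Sph (d : ℕ) := Metric.sphere (0 : EuclideanSpace ℝ (Fin d)) 1

/-- The uniform probability measure on the unit sphere (normalised surface measure). -/
noncomputable def unifSphere (d : ℕ) : Measure (Sph d) :=
  ((volume : Measure (EuclideanSpace ℝ (Fin d))).toSphere Set.univ)⁻¹ •
    (volume : Measure (EuclideanSpace ℝ (Fin d))).toSphere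

/-- A learner with persistent states in the set `Q`. The initial state is random with law `init`.
At index `t` (the first index is `1`) the new state together with the decision whether to stop
(`true` means stop) is a measurable randomised function, i.e. a Markov kernel `step t`, of the
current state and the current pair (row, label). A learner that stops after index `t`, or is forced
to stop because `t` is the horizon, outputs a point of the sphere which is a randomised function
`out t` of its final state (and even of the index `t`). -/
structure Learner (d : ℕ) (Q : Type) [MeasurableSpace Q] where
  init : Measure Q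
  init_prob : IsProbabilityMeasure init
  step : ℕ → Kernel (Q × EuclideanSpace ℝ (Fin d) × ℝ) (Q × Bool)
  step_markov : ∀ t, IsMarkovKernel (step t)
  out : ℕ → Kernel Q (Sph d)
  out_markov : ∀ t, IsMarkovKernel (out t)

namespace Learner

variable {d : ℕ} {Q : Type} [MeasurableSpace Q]

/-- Law of the status after index `t + 1`, given the signal `s` and the status after index `t`.
The status `(q, 0)` means that the learner is running in state `q`, the status `(q, τ)` with
`τ ≥ 1` that it has stopped after index `τ` in state `q`. A running learner receives a fresh row
`x ~ N(0, I_d)` with its exact label `⟪x, s⟫`. -/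
noncomputable def next (L : Learner d Q) (s : Sph d) (t : ℕ) (z : Q × ℕ) : Measure (Q × ℕ) :=
  if z.2 = 0 then
    (stdGaussian (EuclideanSpace ℝ (Fin d))).bind fun x =>
      (L.step (t + 1) (z.1, x, inner ℝ x (s : EuclideanSpace ℝ (Fin d)))).map fun r =>
        (r.1, if r.2 = true then t + 1 else 0)
  else Measure.dirac z

/-- Law of the status after `t` samples, given the signal `s`. -/
noncomputable def law (L : Learner d Q) (s : Sph d) : ℕ → Measure (Q × ℕ)
  | 0 => L.init.map fun q => (q, 0)
  | t + 1 => (L.law s t).bind (L.next s t)

/-- Law of the output of the learner with horizon `T`, given the signal `s`. -/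
noncomputable def output (L : Learner d Q) (T : ℕ) (s : Sph d) : Measure (Sph d) :=
  (L.law s T).bind fun z => L.out (if z.2 = 0 then T else z.2) z.1

/-- Probability that the angle between the output and the uniformly random signal is at
most `ε`. -/
noncomputable def successProb (L : Learner d Q) (T : ℕ) (ε : ℝ) : ENNReal :=
  ∫⁻ s, L.output T s {w | Real.arccos (inner ℝ (w : EuclideanSpace ℝ (Fin d)) s) ≤ ε}
    ∂(unifSphere d)

end Learner

end Vale.Agent.P309
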