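import Vale.Agent.Lib.P309.Core

open MeasureTheory ProbabilityTheory

namespace Vale.Agent.P309

/-- Under the standard Gaussian law, the coordinate along a unit vector is independent of the
rest. -/
lemma sc_indep {d : ℕ} (e : Vec d) (he : ‖e‖ = 1) :
    IndepFun (fun x : Vec d => x - (inner ℝ e x : ℝ) • e) (fun x : Vec d => (inner ℝ e x : ℝ))
      (stdGaussian (Vec d)) := by
  have hid : HasGaussianLaw (id : Vec d → Vec d) (stdGaussian (Vec d)) :=
    IsGaussian.hasGaussianLaw_id
  have h2 := hid.map_fun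
    ((ContinuousLinearMap.id ℝ (Vec d) - (innerSL ℝ e).smulRight e).prod (innerSL ℝ e))
  refine HasGaussianLaw.indepFun_of_covariance_inner (by simpa using h2) ?_
  intro x y
  have hx : (fun ω : Vec d => (inner ℝ x (ω - (inner ℝ e ω : ℝ) • e) : ℝ)) =
      fun ω => (inner ℝ (x - (inner ℝ x e : ℝ) • e) ω : ℝ) := by
    funext ω
    simp only [inner_sub_left, inner_sub_right, inner_smul_left, inner_smul_right]
    simp
    ring
  have hy : (fun ω : Vec d => (inner ℝ y (inner ℝ e ω : ℝ) : ℝ)) =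
      fun ω => (inner ℝ (y • e) ω : ℝ) := by
    funext ω
    rw [inner_smul_left]
    simp [mul_comm]
  rw [hx, hy, ← covarianceBilin_apply_eq_cov IsGaussian.memLp_two_id, covarianceBilin_stdGaussian]
  have h8 : (inner ℝ (x - (inner ℝ x e : ℝ) • e) (y • e) : ℝ) = 0 := by
    rw [inner_smul_right, inner_sub_left, inner_smul_left, real_inner_self_eq_norm_sq, he]
    simp
  exact h8

lemma sc_map_inner {d : ℕ} (e : Vec d) (he : ‖e‖ = 1) :
    (stdGaussian (Vec d)).map (fun x : Vec d => (inner ℝ e x : ℝ)) = gaussianReal 0 1 := by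
  have hid : HasGaussianLaw (id : Vec d → Vec d) (stdGaussian (Vec d)) :=
    IsGaussian.hasGaussianLaw_id
  have h2 := hid.map_fun (innerSL ℝ e)
  have h3 := h2.map_eq_gaussianReal
  have h4 : (fun ω : Vec d => (innerSL ℝ e) (id ω)) = fun x : Vec d => (inner ℝ e x : ℝ) := by
    funext ω; simp
  have h5 : ((innerSL ℝ e : StrongDual ℝ (Vec d)) : Vec d → ℝ) =
      fun x : Vec d => (inner ℝ e x : ℝ) := by
    funext ω; simp
  have h6 := integral_strongDual_stdGaussian (E := Vec d) (innerSL ℝ e)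
  have h7 := variance_dual_stdGaussian (E := Vec d) (innerSL ℝ e)
  rw [h5] at h6 h7
  rw [h4, h6, h7] at h3
  rw [h3]
  simp [he]

lemma sc_floor_le (a δ : ℝ) (hδ : 0 < δ) (n : ℤ) (k : ℕ) :
    gaussianReal 0 1 {t : ℝ | ⌊(2:ℝ) ^ k * (a + δ * t)⌋ = n} ≤
      ENNReal.ofReal (1 / (2 ^ k * δ)) := by
  have h2k : (0:ℝ) < 2 ^ k := by positivity
  have hsub : {t : ℝ | ⌊(2:ℝ) ^ k * (a + δ * t)⌋ = n} ⊆
      Set.Ico ((n / 2 ^ k - a) / δ) (((n + 1) / 2 ^ k - a) / δ) := by
    intro t ht
    simp only [Set.mem_ofPred_eq, Int.floor_eq_iff] at ht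
    constructor
    · rw [div_le_iff₀ hδ, sub_le_iff_le_add, div_le_iff₀ h2k]
      nlinarith [ht.1]
    · rw [lt_div_iff₀ hδ, lt_sub_iff_add_lt, lt_div_iff₀ h2k]
      nlinarith [ht.2]
  refine (measure_mono hsub).trans ?_
  rw [gaussianReal_of_var_ne_zero 0 one_ne_zero, withDensity_apply _ measurableSet_Ico]
  calc ∫⁻ x in Set.Ico ((n / 2 ^ k - a) / δ) (((n + 1) / 2 ^ k - a) / δ), gaussianPDF 0 1 x
      ≤ ∫⁻ x in Set.Ico ((n / 2 ^ k - a) / δ) (((n + 1) / 2 ^ k - a) / δ), 1 := by
        apply lintegral_mono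
        intro x
        simp only [gaussianPDF]
        rw [← ENNReal.ofReal_one]
        apply ENNReal.ofReal_le_ofReal
        rw [gaussianPDFReal]
        have h1 : Real.exp (-(x - 0) ^ 2 / (2 * ((1 : NNReal) : ℝ))) ≤ 1 := by
          apply Real.exp_le_one_iff.2
          have : 0 ≤ (x - 0) ^ 2 := sq_nonneg _
          simp only [NNReal.coe_one]
          linarith
        have h2 : (Real.sqrt (2 * Real.pi * ((1 : NNReal) : ℝ)))⁻¹ ≤ 1 := by
          apply inv_le_one_of_one_le₀
          rw [Real.one_le_sqrt]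
          simp only [NNReal.coe_one]
          nlinarith [Real.pi_gt_three]
        exact mul_le_one₀ h2 (Real.exp_pos _).le h1
    _ = ENNReal.ofReal (1 / (2 ^ k * δ)) := by
        simp only [lintegral_const, Measure.restrict_apply MeasurableSet.univ, Set.univ_inter,
          Real.volume_Ico, one_mul]
        congr 1
        field_simp
        ring

/-- One row: the probability that the new label falls in a prescribed cell, given the labels of
points of a subspace. -/
lemma sc_one_row {d : ℕ} (L : Submodule ℝ (Vec d)) (A : Set (Vec d)) (hA : MeasurableSet A)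
    (g : Vec d → ℤ) (hg : Measurable g)
    (hAL : ∀ x y : Vec d, (∀ v ∈ L, (inner ℝ x v : ℝ) = inner ℝ y v) → (x ∈ A ↔ y ∈ A))
    (hgL : ∀ x y : Vec d, (∀ v ∈ L, (inner ℝ x v : ℝ) = inner ℝ y v) → g x = g y)
    (s : Vec d) (k : ℕ) :
    stdGaussian (Vec d) {x | x ∈ A ∧ ⌊(2:ℝ) ^ k * inner ℝ x s⌋ = g x} ≤
      stdGaussian (Vec d) A *
        (ENNReal.ofReal (1 / 2 ^ k) / ENNReal.ofReal (Metric.infDist s (L : Set (Vec d)))) := by
  have h2k : (0:ℝ) < 2 ^ k := by positivity
  rcases eq_or_lt_of_le (Metric.infDist_nonneg (x := s) (s := (L : Set (Vec d)))) with h0 | hpos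
  · rw [← h0]
    have hle : stdGaussian (Vec d) {x | x ∈ A ∧ ⌊(2:ℝ) ^ k * inner ℝ x s⌋ = g x} ≤
        stdGaussian (Vec d) A := measure_mono fun x hx => hx.1
    rcases eq_or_ne (stdGaussian (Vec d) A) 0 with hz | hz
    · rw [hz] at hle
      exact hle.trans (by simp)
    · rw [ENNReal.ofReal_zero, ENNReal.div_zero (by simp [h2k]), ENNReal.mul_top hz]
      exact le_top
  · set p : Vec d := L.starProjection s with hp
    set w : Vec d := s - p with hw
    have hpL : p ∈ L := by rw [hp]; exact Submodule.starProjection_apply_mem L s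
    have hwL : ∀ v ∈ L, (inner ℝ w v : ℝ) = 0 := by
      intro v hv
      rw [hw, hp]
      have := Submodule.sub_starProjection_mem_orthogonal (K := L) s
      rw [real_inner_comm]
      exact this v hv
    have hdist : Metric.infDist s (L : Set (Vec d)) ≤ ‖w‖ := by
      rw [hw, ← dist_eq_norm]
      exact Metric.infDist_le_dist_of_mem hpL
    have hδ : 0 < ‖w‖ := hpos.trans_le hdist
    set e : Vec d := ‖w‖⁻¹ • w with he
    have hen : ‖e‖ = 1 := by
      rw [he, norm_smul, norm_inv, norm_norm, inv_mul_cancel₀ hδ.ne']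
    have hew : s = p + ‖w‖ • e := by
      rw [he, smul_smul, mul_inv_cancel₀ hδ.ne', one_smul, hw]; abel
    have heL : ∀ v ∈ L, (inner ℝ e v : ℝ) = 0 := by
      intro v hv
      rw [he, inner_smul_left, hwL v hv, mul_zero]
    set Pi : Vec d → Vec d := fun x => x - (inner ℝ e x : ℝ) • e with hPi
    have hPiL : ∀ x : Vec d, ∀ v ∈ L, (inner ℝ x v : ℝ) = inner ℝ (Pi x) v := by
      intro x v hv
      rw [hPi]
      simp only [inner_sub_left, inner_smul_left, heL v hv]
      simp
    have hPim : Measurable Pi := by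
      rw [hPi]; fun_prop
    have hIm : Measurable (fun x : Vec d => (inner ℝ e x : ℝ)) := by fun_prop
    have hind := sc_indep e hen
    have hprod := (indepFun_iff_map_prod_eq_prod_map_map hPim.aemeasurable hIm.aemeasurable).1 hind
    set S : Set (Vec d × ℝ) := {q | q.1 ∈ A ∧ ⌊(2:ℝ) ^ k * (inner ℝ q.1 p + ‖w‖ * q.2)⌋ = g q.1}
      with hS
    have hSm : MeasurableSet S := by
      rw [hS]
      apply MeasurableSet.inter
      · exact measurable_fst hA
      · apply measurableSet_eq_fun
        · apply Int.measurable_floor.comp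
          fun_prop
        · exact hg.comp measurable_fst
    have hev : {x | x ∈ A ∧ ⌊(2:ℝ) ^ k * inner ℝ x s⌋ = g x} =
        (fun x => (Pi x, (inner ℝ e x : ℝ))) ⁻¹' S := by
      ext x
      simp only [Set.mem_ofPred_eq, Set.mem_preimage, hS]
      rw [hAL x (Pi x) (hPiL x), hgL x (Pi x) (hPiL x)]
      have : (inner ℝ x s : ℝ) = inner ℝ (Pi x) p + ‖w‖ * inner ℝ e x := by
        conv_lhs => rw [hew]
        rw [inner_add_right, inner_smul_right, hPiL x p hpL, real_inner_comm e x]
      rw [this]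
    rw [hev, ← Measure.map_apply (hPim.prodMk hIm) hSm, hprod, Measure.prod_apply hSm,
      sc_map_inner e hen]
    calc ∫⁻ y, gaussianReal 0 1 (Prod.mk y ⁻¹' S) ∂(Measure.map Pi (stdGaussian (Vec d)))
        ≤ ∫⁻ y, A.indicator (fun _ => ENNReal.ofReal (1 / (2 ^ k * ‖w‖))) y
            ∂(Measure.map Pi (stdGaussian (Vec d))) := by
          apply lintegral_mono
          intro y
          by_cases hy : y ∈ A
          · simp only [Set.indicator_of_mem hy]
            have : Prod.mk y ⁻¹' S = {t : ℝ | ⌊(2:ℝ) ^ k * (inner ℝ y p + ‖w‖ * t)⌋ = g y} := by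
              ext t
              simp [hS, hy]
            rw [this]
            exact sc_floor_le _ _ hδ _ _
          · have : Prod.mk y ⁻¹' S = ∅ := by
              ext t
              simp [hS, hy]
            simp only [this, measure_empty]
            exact zero_le
      _ = stdGaussian (Vec d) A * ENNReal.ofReal (1 / (2 ^ k * ‖w‖)) := by
          rw [lintegral_indicator_const hA, Measure.map_apply hPim hA, mul_comm]
          congr 2
          ext x
          exact (hAL x (Pi x) (hPiL x)).symm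
      _ ≤ _ := by
          gcongr
          rw [← ENNReal.ofReal_div_of_pos hpos]
          apply ENNReal.ofReal_le_ofReal
          rw [div_div]
          gcongr

lemma sc_event_eq {d N m : ℕ} (k : ℕ) (s : Fin (m + 1) → Vec d) :
    {X : Fin N → Vec d | ∀ i, qlab k X (s i) = qlab k X (s 0)} =
      Set.univ.pi (fun _ : Fin N => {x : Vec d | ∀ i, ⌊(2:ℝ) ^ k * inner ℝ x (s i)⌋ =
        ⌊(2:ℝ) ^ k * inner ℝ x (s 0)⌋}) := by
  ext X
  simp only [Set.mem_ofPred_eq, Set.mem_univ_pi, qlab, funext_iff]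
  constructor
  · intro h r i
    exact h i r
  · intro h i r
    exact h r i

lemma sc_gam_eq {d N m : ℕ} (k : ℕ) (s : Fin (m + 1) → Vec d) :
    gam d N {X | ∀ i, qlab k X (s i) = qlab k X (s 0)} =
      (stdGaussian (Vec d) {x : Vec d | ∀ i, ⌊(2:ℝ) ^ k * inner ℝ x (s i)⌋ =
        ⌊(2:ℝ) ^ k * inner ℝ x (s 0)⌋}) ^ N := by
  rw [sc_event_eq, gam, Measure.pi_pi]
  simp

lemma sc_floor_meas {d : ℕ} (k : ℕ) (v : Vec d) :
    Measurable (fun x : Vec d => ⌊(2:ℝ) ^ k * inner ℝ x v⌋) := by
  apply Int.measurable_floor.comp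
  fun_prop

/-- Adding one point. -/
lemma sc_step {d N m : ℕ} (k : ℕ) (s : Fin (m + 1) → Vec d) (t : Vec d) :
    gam d N {X | ∀ i, qlab k X ((Fin.snoc s t : Fin (m + 2) → Vec d) i) =
        qlab k X ((Fin.snoc s t : Fin (m + 2) → Vec d) 0)} ≤
      gam d N {X | ∀ i, qlab k X (s i) = qlab k X (s 0)} *
        (ENNReal.ofReal (1 / 2 ^ k) / ENNReal.ofReal (Metric.infDist t
          ((Submodule.span ℝ (Set.range s) : Submodule ℝ (Vec d)) : Set (Vec d)))) ^ N := by
  rw [sc_gam_eq, sc_gam_eq, ← mul_pow]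
  gcongr
  have h0 : (Fin.snoc s t : Fin (m + 2) → Vec d) 0 = s 0 := by
    have : (0 : Fin (m + 2)) = Fin.castSucc 0 := rfl
    rw [this, Fin.snoc_castSucc]
  have hset : {x : Vec d | ∀ i, ⌊(2:ℝ) ^ k * inner ℝ x ((Fin.snoc s t : Fin (m + 2) → Vec d) i)⌋ =
        ⌊(2:ℝ) ^ k * inner ℝ x ((Fin.snoc s t : Fin (m + 2) → Vec d) 0)⌋} =
      {x : Vec d | x ∈ {x : Vec d | ∀ i, ⌊(2:ℝ) ^ k * inner ℝ x (s i)⌋ =
        ⌊(2:ℝ) ^ k * inner ℝ x (s 0)⌋} ∧
        ⌊(2:ℝ) ^ k * inner ℝ x t⌋ = ⌊(2:ℝ) ^ k * inner ℝ x (s 0)⌋} := by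
    ext x
    simp only [Set.mem_ofPred_eq, h0]
    rw [Fin.forall_fin_succ']
    simp only [Fin.snoc_castSucc, Fin.snoc_last]
  rw [hset]
  have hmem : ∀ i, s i ∈ Submodule.span ℝ (Set.range s) := fun i =>
    Submodule.subset_span (Set.mem_range_self i)
  apply sc_one_row (Submodule.span ℝ (Set.range s)) _ _ _ (sc_floor_meas k (s 0))
  · intro x y hxy
    simp only [Set.mem_ofPred_eq]
    apply forall_congr'
    intro i
    rw [hxy (s i) (hmem i), hxy (s 0) (hmem 0)]
  · intro x y hxy
    rw [hxy (s 0) (hmem 0)]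
  · have : {x : Vec d | ∀ i, ⌊(2:ℝ) ^ k * inner ℝ x (s i)⌋ = ⌊(2:ℝ) ^ k * inner ℝ x (s 0)⌋} =
        ⋂ i, {x : Vec d | ⌊(2:ℝ) ^ k * inner ℝ x (s i)⌋ = ⌊(2:ℝ) ^ k * inner ℝ x (s 0)⌋} := by
      ext x; simp
    rw [this]
    exact MeasurableSet.iInter fun i =>
      measurableSet_eq_fun (sc_floor_meas k (s i)) (sc_floor_meas k (s 0))

lemma sc_measurable {d N m : ℕ} (k : ℕ) :
    Measurable (fun s : Fin (m + 1) → Vec d =>
      (gam d N {X | ∀ i, qlab k X (s i) = qlab k X (s 0)}) ^ 2) := by
  apply Measurable.pow_const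
  have hS : MeasurableSet {q : (Fin (m + 1) → Vec d) × (Fin N → Vec d) |
      ∀ i, qlab k q.2 (q.1 i) = qlab k q.2 (q.1 0)} := by
    have hm : ∀ i, Measurable (fun q : (Fin (m + 1) → Vec d) × (Fin N → Vec d) =>
        qlab k q.2 (q.1 i)) := by
      intro i
      apply measurable_pi_lambda
      intro r
      simp only [qlab]
      apply Int.measurable_floor.comp
      fun_prop
    have : {q : (Fin (m + 1) → Vec d) × (Fin N → Vec d) |
        ∀ i, qlab k q.2 (q.1 i) = qlab k q.2 (q.1 0)} =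
        ⋂ i, {q : (Fin (m + 1) → Vec d) × (Fin N → Vec d) |
          qlab k q.2 (q.1 i) = qlab k q.2 (q.1 0)} := by
      ext q; simp
    rw [this]
    exact MeasurableSet.iInter fun i => measurableSet_eq_fun (hm i) (hm 0)
  exact measurable_measure_prodMk_left hS

/-- Second moment of the probability (over the rows of the window) that `m+1` independent
points with law `ρ` all have the same rounded labels. -/
theorem same_cell_moment {d N m : ℕ} (ρ : Measure (Vec d)) [IsProbabilityMeasure ρ] (D Λ : ℝ)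
    (hD : 0 < D) (hΛ : 0 < Λ)
    (hL : ∀ L : Submodule ℝ (Vec d), Module.finrank ℝ L ≤ m →
      ∫⁻ s, (ENNReal.ofReal D / ENNReal.ofReal (Metric.infDist s (L : Set (Vec d)))) ^ (2 * N) ∂ρ
        ≤ ENNReal.ofReal Λ) (k : ℕ) :
    ∫⁻ s : Fin (m + 1) → Vec d, (gam d N {X | ∀ i, qlab k X (s i) = qlab k X (s 0)}) ^ 2
        ∂(Measure.pi fun _ => ρ)
      ≤ ENNReal.ofReal (((1 / (D * 2 ^ k)) ^ (2 * N) * Λ) ^ m) := by
  induction m with
  | zero =>
    have : ∀ s : Fin (0 + 1) → Vec d,
        (gam d N {X | ∀ i, qlab k X (s i) = qlab k X (s 0)}) ^ 2 ≤ 1 := by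
      intro s
      exact pow_le_one₀ zero_le prob_le_one
    calc _ ≤ ∫⁻ s : Fin (0 + 1) → Vec d, 1 ∂(Measure.pi fun _ => ρ) := lintegral_mono this
      _ ≤ _ := by simp
  | succ m ih =>
    have ih' := ih (fun L hLm => hL L (hLm.trans (Nat.le_succ m)))
    have hmp := (measurePreserving_piFinSuccAbove (fun _ : Fin (m + 2) => ρ)
      (Fin.last (m + 1))).symm
    set F : (Fin (m + 2) → Vec d) → ENNReal := fun s =>
      (gam d N {X | ∀ i, qlab k X (s i) = qlab k X (s 0)}) ^ 2 with hF
    have hFm : Measurable F := sc_measurable k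
    have hsn : ∀ a : Vec d × (Fin (m + 1) → Vec d),
        (MeasurableEquiv.piFinSuccAbove (fun _ => Vec d) (Fin.last (m + 1))).symm a =
          Fin.snoc a.2 a.1 := by
      intro a
      exact Fin.insertNth_last' a.1 a.2
    have hcomp : Measurable (fun a : Vec d × (Fin (m + 1) → Vec d) =>
        F ((MeasurableEquiv.piFinSuccAbove (fun _ => Vec d) (Fin.last (m + 1))).symm a)) :=
      hFm.comp (MeasurableEquiv.measurable _)
    have hinner : ∀ y : Fin (m + 1) → Vec d,
        ∫⁻ x, F ((MeasurableEquiv.piFinSuccAbove (fun _ => Vec d) (Fin.last (m + 1))).symm (x, y))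
            ∂ρ ≤
          (gam d N {X | ∀ i, qlab k X (y i) = qlab k X (y 0)}) ^ 2 *
            ENNReal.ofReal ((1 / (D * 2 ^ k)) ^ (2 * N) * Λ) := by
      intro y
      have hfr : Module.finrank ℝ (Submodule.span ℝ (Set.range y)) ≤ m + 1 := by
        have := finrank_range_le_card (R := ℝ) y
        rw [Fintype.card_fin] at this
        exact this
      calc ∫⁻ x, F ((MeasurableEquiv.piFinSuccAbove (fun _ => Vec d)
              (Fin.last (m + 1))).symm (x, y)) ∂ρ
          ≤ ∫⁻ x, (gam d N {X | ∀ i, qlab k X (y i) = qlab k X (y 0)}) ^ 2 *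
              (ENNReal.ofReal ((1 / (D * 2 ^ k)) ^ (2 * N)) *
              (ENNReal.ofReal D / ENNReal.ofReal (Metric.infDist x
          ((Submodule.span ℝ (Set.range y) : Submodule ℝ (Vec d)) : Set (Vec d)))) ^ (2 * N)) ∂ρ := by
            apply lintegral_mono
            intro x
            simp only [hF, hsn]
            have h1 := sc_step (N := N) k y x
            calc _ ≤ (gam d N {X | ∀ i, qlab k X (y i) = qlab k X (y 0)} *
        (ENNReal.ofReal (1 / 2 ^ k) / ENNReal.ofReal (Metric.infDist x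
          ((Submodule.span ℝ (Set.range y) : Submodule ℝ (Vec d)) : Set (Vec d)))) ^ N) ^ 2 := by
                  gcongr
              _ = _ := by
                  rw [mul_pow, ← pow_mul, mul_comm N 2]
                  congr 1
                  rw [ENNReal.ofReal_pow (by positivity), ← mul_pow]
                  congr 1
                  rw [← mul_div_assoc, ← ENNReal.ofReal_mul (by positivity)]
                  congr 2
                  field_simp
        _ = (gam d N {X | ∀ i, qlab k X (y i) = qlab k X (y 0)}) ^ 2 *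
              (ENNReal.ofReal ((1 / (D * 2 ^ k)) ^ (2 * N)) *
              ∫⁻ x, (ENNReal.ofReal D / ENNReal.ofReal (Metric.infDist x
          ((Submodule.span ℝ (Set.range y) : Submodule ℝ (Vec d)) : Set (Vec d)))) ^ (2 * N)
                ∂ρ) := by
            have hm : Measurable (fun x : Vec d => (ENNReal.ofReal D / ENNReal.ofReal
              (Metric.infDist x ((Submodule.span ℝ (Set.range y) : Submodule ℝ (Vec d)) :
                Set (Vec d)))) ^ (2 * N)) := by
              apply Measurable.pow_const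
              apply Measurable.const_div
              exact (Metric.continuous_infDist_pt _).measurable.ennreal_ofReal
            rw [lintegral_const_mul _ (hm.const_mul _), lintegral_const_mul _ hm]
        _ ≤ _ := by
            gcongr
            rw [ENNReal.ofReal_mul (by positivity)]
            gcongr
            exact hL _ hfr
    calc ∫⁻ s, F s ∂(Measure.pi fun _ => ρ)
        = ∫⁻ a, F ((MeasurableEquiv.piFinSuccAbove (fun _ => Vec d) (Fin.last (m + 1))).symm a)
            ∂(ρ.prod (Measure.pi fun _ => ρ)) := by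
          rw [← hmp.map_eq, lintegral_map hFm (MeasurableEquiv.measurable _)]
      _ = ∫⁻ y, ∫⁻ x, F ((MeasurableEquiv.piFinSuccAbove (fun _ => Vec d)
            (Fin.last (m + 1))).symm (x, y)) ∂ρ ∂(Measure.pi fun _ => ρ) :=
          lintegral_prod_symm _ hcomp.aemeasurable
      _ ≤ ∫⁻ y, (gam d N {X | ∀ i, qlab k X (y i) = qlab k X (y 0)}) ^ 2 *
            ENNReal.ofReal ((1 / (D * 2 ^ k)) ^ (2 * N) * Λ) ∂(Measure.pi fun _ => ρ) :=
          lintegral_mono hinner
      _ = (∫⁻ y, (gam d N {X | ∀ i, qlab k X (y i) = qlab k X (y 0)}) ^ 2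
            ∂(Measure.pi fun _ => ρ)) *
            ENNReal.ofReal ((1 / (D * 2 ^ k)) ^ (2 * N) * Λ) :=
          lintegral_mul_const _ (sc_measurable k)
      _ ≤ ENNReal.ofReal (((1 / (D * 2 ^ k)) ^ (2 * N) * Λ) ^ m) *
            ENNReal.ofReal ((1 / (D * 2 ^ k)) ^ (2 * N) * Λ) := by
          gcongr
      _ = _ := by
          rw [← ENNReal.ofReal_mul (by positivity), ← pow_succ]

end Vale.Agent.P309
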