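import Vale.Agent.Lib.P309.Replica
import Vale.Agent.Lib.P309.LabelEntropy
import Vale.Agent.Lib.P309.SameCell

open MeasureTheory ProbabilityTheory

namespace Vale.Agent.P309

section InfoLimit

variable {Ω Q : Type*} [MeasurableSpace Ω] [Fintype Q] {ρ : Measure Ω} [IsProbabilityMeasure ρ]

lemma ll_integrable_unit {g : Ω → ℝ} (hg : AEStronglyMeasurable g ρ) (h0 : ∀ s, 0 ≤ g s)
    (h1 : ∀ s, g s ≤ 1) : Integrable g ρ :=
  Integrable.of_bound hg 1 (Filter.Eventually.of_forall fun s => by
    rw [Real.norm_eq_abs, abs_of_nonneg (h0 s)]; exact h1 s)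

lemma ll_negMulLog_mem {x : ℝ} (h0 : 0 ≤ x) (h1 : x ≤ 1) :
    0 ≤ Real.negMulLog x ∧ Real.negMulLog x ≤ 1 :=
  ⟨Real.negMulLog_nonneg h0 h1, (Real.negMulLog_le_one_sub_self h0).trans (by linarith)⟩

/-- The information as a difference of entropies. -/
lemma ll_infoR_eq (K : Q → Ω → ℝ) (hK : ∀ W, AEStronglyMeasurable (K W) ρ)
    (h0 : ∀ W s, 0 ≤ K W s) (h1 : ∀ W s, K W s ≤ 1) :
    infoR ρ K = ∑ W, (Real.negMulLog (∫ s, K W s ∂ρ) - ∫ s, Real.negMulLog (K W s) ∂ρ) := by
  unfold infoR
  apply Finset.sum_congr rfl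
  intro W _
  have hint : Integrable (K W) ρ := ll_integrable_unit (hK W) (h0 W) (h1 W)
  have hnm : AEStronglyMeasurable (fun s => Real.negMulLog (K W s)) ρ :=
    Real.continuous_negMulLog.comp_aestronglyMeasurable (hK W)
  have hint2 : Integrable (fun s => Real.negMulLog (K W s)) ρ :=
    ll_integrable_unit hnm (fun s => (ll_negMulLog_mem (h0 W s) (h1 W s)).1)
      (fun s => (ll_negMulLog_mem (h0 W s) (h1 W s)).2)
  set M : ℝ := ∫ s, K W s ∂ρ with hM
  have hM0 : 0 ≤ M := integral_nonneg (h0 W)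
  rcases hM0.lt_or_eq with hMpos | hMz
  · have e : ∀ s, K W s * Real.log (K W s / M) = -Real.negMulLog (K W s) - K W s * Real.log M := by
      intro s
      unfold Real.negMulLog
      rcases (h0 W s).lt_or_eq with h | h
      · rw [Real.log_div h.ne' hMpos.ne']; ring
      · rw [← h]; ring
    simp only [e]
    have hneg : Integrable (fun s => -Real.negMulLog (K W s)) ρ := hint2.neg
    rw [integral_sub hneg (hint.mul_const _), integral_mul_const, integral_neg, ← hM]
    unfold Real.negMulLog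
    ring
  · have hKz : K W =ᵐ[ρ] 0 := by
      rw [← integral_eq_zero_iff_of_nonneg (h0 W) hint]
      exact hMz.symm
    have a1 : ∫ s, K W s * Real.log (K W s / M) ∂ρ = 0 := by
      rw [integral_eq_zero_of_ae]
      filter_upwards [hKz] with s hs
      rw [hs]; simp
    have a2 : ∫ s, Real.negMulLog (K W s) ∂ρ = 0 := by
      rw [integral_eq_zero_of_ae]
      filter_upwards [hKz] with s hs
      rw [hs]; simp
    rw [a1, a2, ← hMz]; simp

/-- Continuity of the information under bounded almost everywhere convergence. -/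
lemma ll_infoR_tendsto (K : Q → Ω → ℝ) (Kn : ℕ → Q → Ω → ℝ)
    (hK : ∀ W, AEStronglyMeasurable (K W) ρ) (hKn : ∀ n W, AEStronglyMeasurable (Kn n W) ρ)
    (h0 : ∀ W s, 0 ≤ K W s) (h1 : ∀ W s, K W s ≤ 1)
    (h0n : ∀ n W s, 0 ≤ Kn n W s) (h1n : ∀ n W s, Kn n W s ≤ 1)
    (hlim : ∀ W, ∀ᵐ s ∂ρ, Filter.Tendsto (fun n => Kn n W s) Filter.atTop (nhds (K W s))) :
    Filter.Tendsto (fun n => infoR ρ (Kn n)) Filter.atTop (nhds (infoR ρ K)) := by
  have e1 : ∀ n, infoR ρ (Kn n)
      = ∑ W, (Real.negMulLog (∫ s, Kn n W s ∂ρ) - ∫ s, Real.negMulLog (Kn n W s) ∂ρ) :=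
    fun n => ll_infoR_eq (Kn n) (hKn n) (h0n n) (h1n n)
  rw [ll_infoR_eq K hK h0 h1]
  simp only [e1]
  apply tendsto_finsetSum
  intro W _
  apply Filter.Tendsto.sub
  · apply (Real.continuous_negMulLog.tendsto _).comp
    apply tendsto_integral_of_dominated_convergence (fun _ => (1:ℝ)) (fun n => hKn n W)
      (integrable_const 1)
    · intro n
      apply Filter.Eventually.of_forall
      intro s
      rw [Real.norm_eq_abs, abs_of_nonneg (h0n n W s)]; exact h1n n W s
    · exact hlim W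
  · apply tendsto_integral_of_dominated_convergence (fun _ => (1:ℝ))
      (fun n => Real.continuous_negMulLog.comp_aestronglyMeasurable (hKn n W))
      (integrable_const 1)
    · intro n
      apply Filter.Eventually.of_forall
      intro s
      have h := ll_negMulLog_mem (h0n n W s) (h1n n W s)
      rw [Real.norm_eq_abs, abs_of_nonneg h.1]; exact h.2
    · filter_upwards [hlim W] with s hs
      exact (Real.continuous_negMulLog.tendsto _).comp hs

end InfoLimit

section Approx

variable {d N : ℕ}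

lemma ll_measurable_lab : Measurable (fun z : (Fin N → Vec d) × Vec d => lab z.1 z.2) := by
  apply measurable_pi_lambda
  intro i
  unfold lab
  exact ((measurable_pi_apply i).comp measurable_fst).inner measurable_snd

lemma ll_measurable_qlab (k : ℕ) :
    Measurable (fun z : (Fin N → Vec d) × Vec d => qlab k z.1 z.2) := by
  apply measurable_pi_lambda
  intro i
  unfold qlab
  apply Int.measurable_floor.comp
  exact (((measurable_pi_apply i).comp measurable_fst).inner measurable_snd).const_mul _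

/-- The coordinate map of level `k`. -/
noncomputable def ll_lev (d N k : ℕ) (z : (Fin N → Vec d) × Vec d) :
    (Fin N → Vec d) × (Fin N → ℤ) := (z.1, qlab k z.1 z.2)

lemma ll_measurable_lev (k : ℕ) : Measurable (ll_lev d N k) :=
  measurable_fst.prodMk (ll_measurable_qlab k)

lemma ll_qlab_succ (k : ℕ) (X : Fin N → Vec d) (s : Vec d) (i : Fin N) :
    qlab k X s i = qlab (k + 1) X s i / 2 := by
  unfold qlab
  have h : ⌊((2:ℝ) ^ (k + 1) * inner ℝ (X i) s) / 2⌋
      = ⌊(2:ℝ) ^ (k + 1) * inner ℝ (X i) s⌋ / 2 := by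
    exact_mod_cast Int.floor_div_natCast ((2:ℝ) ^ (k + 1) * inner ℝ (X i) s) 2
  rw [← h]
  congr 1
  rw [pow_succ]; ring

lemma ll_comap_lev_le_succ (k : ℕ) :
    MeasurableSpace.comap (ll_lev d N k) inferInstance
      ≤ MeasurableSpace.comap (ll_lev d N (k + 1)) inferInstance := by
  have h : ll_lev d N k
      = (fun q : (Fin N → Vec d) × (Fin N → ℤ) => (q.1, fun i => q.2 i / 2)) ∘ ll_lev d N (k + 1) := by
    funext z
    unfold ll_lev
    simp only [Function.comp_apply, Prod.mk.injEq, true_and]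
    funext i
    exact ll_qlab_succ k z.1 z.2 i
  rw [h, ← MeasurableSpace.comap_comp]
  apply MeasurableSpace.comap_mono
  rw [← measurable_iff_comap_le]
  apply measurable_fst.prodMk
  apply measurable_pi_lambda
  intro i
  exact (measurable_of_countable (fun a : ℤ => a / 2)).comp
    ((measurable_pi_apply i).comp measurable_snd)

/-- The filtration generated by the rows and the rounded labels. -/
noncomputable def ll_levF (d N : ℕ) :
    Filtration ℕ (inferInstance : MeasurableSpace ((Fin N → Vec d) × Vec d)) where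
  seq k := MeasurableSpace.comap (ll_lev d N k) inferInstance
  mono' := monotone_nat_of_le_succ ll_comap_lev_le_succ
  le' k := (ll_measurable_lev k).comap_le

lemma ll_measurable_sup_fst :
    @Measurable _ _ (⨆ k, ll_levF d N k) _ (fun z : (Fin N → Vec d) × Vec d => z.1) := by
  have h : @Measurable _ _ (ll_levF d N 0) _ (fun z : (Fin N → Vec d) × Vec d => z.1) := by
    have h2 : (fun z : (Fin N → Vec d) × Vec d => z.1) = Prod.fst ∘ ll_lev d N 0 := rfl
    rw [h2]
    exact measurable_fst.comp (comap_measurable (ll_lev d N 0))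
  exact h.mono (le_iSup (fun k => (ll_levF d N k : MeasurableSpace _)) 0) le_rfl

lemma ll_measurable_sup_lab :
    @Measurable _ _ (⨆ k, ll_levF d N k) _ (fun z : (Fin N → Vec d) × Vec d => lab z.1 z.2) := by
  apply @measurable_pi_lambda _ _ _ (⨆ k, ll_levF d N k)
  intro i
  have hq : ∀ k, @Measurable _ _ (⨆ k, ll_levF d N k) _
      (fun z : (Fin N → Vec d) × Vec d => (qlab k z.1 z.2 i : ℝ) / (2:ℝ) ^ k) := by
    intro k
    have h : @Measurable _ _ (ll_levF d N k) _
        (fun z : (Fin N → Vec d) × Vec d => (qlab k z.1 z.2 i : ℝ) / (2:ℝ) ^ k) := by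
      have h2 : (fun z : (Fin N → Vec d) × Vec d => (qlab k z.1 z.2 i : ℝ) / (2:ℝ) ^ k)
          = (fun q : (Fin N → Vec d) × (Fin N → ℤ) => (q.2 i : ℝ) / (2:ℝ) ^ k) ∘ ll_lev d N k := rfl
      rw [h2]
      apply Measurable.comp _ (comap_measurable (ll_lev d N k))
      apply Measurable.div_const
      exact (measurable_of_countable (fun a : ℤ => (a : ℝ))).comp
        ((measurable_pi_apply i).comp measurable_snd)
    exact h.mono (le_iSup (fun k => (ll_levF d N k : MeasurableSpace _)) k) le_rfl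
  refine @measurable_of_tendsto_metrizable _ _ (⨆ k, ll_levF d N k) _ _ _ _ _ _ hq ?_
  rw [tendsto_pi_nhds]
  intro z
  have hlow : ∀ k : ℕ, lab z.1 z.2 i - (1 / 2) ^ k ≤ (qlab k z.1 z.2 i : ℝ) / (2:ℝ) ^ k := by
    intro k
    have h2 : (0:ℝ) < 2 ^ k := by positivity
    rw [le_div_iff₀ h2]
    have h3 := Int.lt_floor_add_one ((2:ℝ) ^ k * inner ℝ (z.1 i) z.2)
    have h4 : ((1:ℝ) / 2) ^ k * 2 ^ k = 1 := by rw [← mul_pow]; norm_num
    have h5 : lab z.1 z.2 i = inner ℝ (z.1 i) z.2 := rfl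
    have h6 : qlab k z.1 z.2 i = ⌊(2:ℝ) ^ k * inner ℝ (z.1 i) z.2⌋ := rfl
    rw [h5, h6, sub_mul, h4]
    linarith
  have hup : ∀ k : ℕ, (qlab k z.1 z.2 i : ℝ) / (2:ℝ) ^ k ≤ lab z.1 z.2 i := by
    intro k
    have h2 : (0:ℝ) < 2 ^ k := by positivity
    rw [div_le_iff₀ h2]
    have h3 := Int.floor_le ((2:ℝ) ^ k * inner ℝ (z.1 i) z.2)
    have h5 : lab z.1 z.2 i = inner ℝ (z.1 i) z.2 := rfl
    have h6 : qlab k z.1 z.2 i = ⌊(2:ℝ) ^ k * inner ℝ (z.1 i) z.2⌋ := rfl
    rw [h5, h6]
    linarith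
  have hz : Filter.Tendsto (fun k : ℕ => lab z.1 z.2 i - (1 / 2 : ℝ) ^ k) Filter.atTop
      (nhds (lab z.1 z.2 i)) := by
    have := tendsto_pow_atTop_nhds_zero_of_lt_one (r := (1 / 2 : ℝ)) (by norm_num) (by norm_num)
    simpa using this.const_sub (lab z.1 z.2 i)
  exact tendsto_of_tendsto_of_tendsto_of_le_of_le hz tendsto_const_nhds hlow hup

/-- Approximation of the transition weights by functions of the rounded labels. -/
lemma ll_exists_approx (P : Measure ((Fin N → Vec d) × Vec d)) [IsProbabilityMeasure P]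
    {Q : Type*} [Fintype Q]
    (f : Q → (Fin N → Vec d) → (Fin N → ℝ) → ℝ) (hf : ∀ W, Measurable (Function.uncurry (f W)))
    (hf0 : ∀ W X y, 0 ≤ f W X y) (hf1 : ∀ X y, ∑ W, f W X y = 1) :
    ∃ g : ℕ → Q → (Fin N → Vec d) → (Fin N → ℤ) → ℝ,
      (∀ k W, Measurable (Function.uncurry (g k W))) ∧ (∀ k W X i, 0 ≤ g k W X i) ∧
      (∀ k W X i, g k W X i ≤ 1) ∧ (∀ k, ∀ᵐ z ∂P, ∑ W, g k W z.1 (qlab k z.1 z.2) = 1) ∧
      (∀ W, ∀ᵐ z ∂P, Filter.Tendsto (fun k => g k W z.1 (qlab k z.1 z.2)) Filter.atTop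
        (nhds (f W z.1 (lab z.1 z.2)))) := by
  classical
  set G : Q → (Fin N → Vec d) × Vec d → ℝ := fun W z => f W z.1 (lab z.1 z.2) with hG
  have hf1' : ∀ W X y, f W X y ≤ 1 := by
    intro W X y
    rw [← hf1 X y]
    exact Finset.single_le_sum (f := fun W => f W X y) (fun V _ => hf0 V X y) (Finset.mem_univ W)
  have hGm : ∀ W, Measurable (G W) := fun W => (hf W).comp (measurable_fst.prodMk ll_measurable_lab)
  have hGsup : ∀ W, StronglyMeasurable[⨆ k, ll_levF d N k] (G W) := by
    intro W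
    have hpair : @Measurable ((Fin N → Vec d) × Vec d) ((Fin N → Vec d) × (Fin N → ℝ))
        (⨆ k, ll_levF d N k) Prod.instMeasurableSpace
        (fun z : (Fin N → Vec d) × Vec d => (z.1, lab z.1 z.2)) :=
      Measurable.prodMk (m := ⨆ k, ll_levF d N k) ll_measurable_sup_fst ll_measurable_sup_lab
    have h : @Measurable _ _ (⨆ k, ll_levF d N k) _
        (Function.uncurry (f W) ∘ fun z : (Fin N → Vec d) × Vec d => (z.1, lab z.1 z.2)) :=
      (hf W).comp hpair
    exact h.stronglyMeasurable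
  have hGint : ∀ W, Integrable (G W) P := fun W =>
    ll_integrable_unit (hGm W).aestronglyMeasurable (fun z => hf0 W _ _) (fun z => hf1' W _ _)
  -- factorisation of the conditional expectations
  have hfac : ∀ k W, ∃ h : (Fin N → Vec d) × (Fin N → ℤ) → ℝ, Measurable h ∧
      P[G W | ll_levF d N k] = h ∘ ll_lev d N k := by
    intro k W
    have hm : @Measurable _ _ (MeasurableSpace.comap (ll_lev d N k) inferInstance) _
        (P[G W | ll_levF d N k]) := stronglyMeasurable_condExp.measurable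
    exact hm.exists_eq_measurable_comp
  choose h hhm hhe using hfac
  have hae0 : ∀ k W, ∀ᵐ z ∂P, 0 ≤ h k W (ll_lev d N k z) := by
    intro k W
    have h1 : 0 ≤ᵐ[P] P[G W | ll_levF d N k] :=
      condExp_nonneg (Filter.Eventually.of_forall fun z => hf0 W _ _)
    rw [hhe k W] at h1
    exact h1
  have hae1 : ∀ k, ∀ᵐ z ∂P, ∑ W, h k W (ll_lev d N k z) = 1 := by
    intro k
    have h1 : P[∑ W, G W | ll_levF d N k] =ᵐ[P] ∑ W, P[G W | ll_levF d N k] :=
      condExp_finsetSum (fun W _ => hGint W) _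
    have h2 : ∑ W, G W = fun _ => (1:ℝ) := by
      funext z
      rw [Finset.sum_apply]
      exact hf1 _ _
    rw [h2, condExp_const ((ll_levF d N).le k)] at h1
    filter_upwards [h1] with z hz
    rw [Finset.sum_apply] at hz
    rw [hz]
    apply Finset.sum_congr rfl
    intro W _
    rw [hhe k W]; rfl
  refine ⟨fun k W X i => max 0 (min 1 (h k W (X, i))), ?_, ?_, ?_, ?_, ?_⟩
  · intro k W
    exact measurable_const.max (measurable_const.min (hhm k W))
  · intro k W X i
    exact le_max_left _ _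
  · intro k W X i
    exact max_le zero_le_one (min_le_left _ _)
  · intro k
    have hall : ∀ᵐ z ∂P, ∀ W, 0 ≤ h k W (ll_lev d N k z) := ae_all_iff.mpr (hae0 k)
    filter_upwards [hall, hae1 k] with z hz1 hz2
    refine Eq.trans ?_ hz2
    apply Finset.sum_congr rfl
    intro W _
    have hle : h k W (ll_lev d N k z) ≤ 1 := by
      rw [← hz2]
      exact Finset.single_le_sum (f := fun W => h k W (ll_lev d N k z)) (fun V _ => hz1 V)
        (Finset.mem_univ W)
    have : (z.1, qlab k z.1 z.2) = ll_lev d N k z := rfl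
    rw [this, min_eq_right hle, max_eq_right (hz1 W)]
  · intro W
    have hlim : ∀ᵐ z ∂P, Filter.Tendsto (fun k => (P[G W | ll_levF d N k]) z) Filter.atTop
        (nhds (G W z)) := (hGint W).tendsto_ae_condExp (hGsup W)
    filter_upwards [hlim] with z hz
    have hcont : Continuous (fun x : ℝ => max 0 (min 1 x)) := by fun_prop
    have h1 := (hcont.tendsto (G W z)).comp hz
    have h2 : max 0 (min 1 (G W z)) = G W z := by
      rw [min_eq_right (hf1' W _ _), max_eq_right (hf0 W _ _)]
    rw [h2] at h1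
    refine h1.congr ?_
    intro k
    simp only [Function.comp_apply]
    rw [hhe k W]
    rfl

end Approx

/-- One-window information bound: an output with `card Q` values, computed at random from `N`
fresh rows and their exact labels, has little information on a signal whose law `ρ` does not
concentrate near low-dimensional subspaces. -/
theorem local_lemma {d N m : ℕ} (ρ : Measure (Vec d)) [IsProbabilityMeasure ρ] (s₀ : Vec d)
    (D Λ : ℝ) (hD : 0 < D) (hρ : ∀ᵐ s ∂ρ, ‖s - s₀‖ ≤ D) (hΛ : 0 < Λ)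
    (hL : ∀ L : Submodule ℝ (Vec d), Module.finrank ℝ L ≤ m →
      ∫⁻ s, (ENNReal.ofReal D / ENNReal.ofReal (Metric.infDist s (L : Set (Vec d)))) ^ (2 * N) ∂ρ
        ≤ ENNReal.ofReal Λ)
    {Q : Type*} [Fintype Q] [Nonempty Q]
    (f : Q → (Fin N → Vec d) → (Fin N → ℝ) → ℝ) (hf : ∀ W, Measurable (Function.uncurry (f W)))
    (hf0 : ∀ W X y, 0 ≤ f W X y) (hf1 : ∀ X y, ∑ W, f W X y = 1) :
    (m + 1) * infoR ρ (fun W => avgK (f W))
      ≤ Real.log (Fintype.card Q) + 6 * N * m + m * Real.log Λ := by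
  obtain ⟨g, hgm, hg0, hg1, hgs, hglim⟩ := ll_exists_approx ((gam d N).prod ρ) f hf hf0 hf1
  have hf1' : ∀ W X y, f W X y ≤ 1 := by
    intro W X y
    rw [← hf1 X y]
    exact Finset.single_le_sum (f := fun W => f W X y) (fun V _ => hf0 V X y) (Finset.mem_univ W)
  set Kn : ℕ → Q → Vec d → ℝ := fun k W s => ∫ X, g k W X (qlab k X s) ∂(gam d N) with hKn
  -- measurability
  have hgm2 : ∀ k W, Measurable (fun z : (Fin N → Vec d) × Vec d => g k W z.1 (qlab k z.1 z.2)) :=
    fun k W => (hgm k W).comp (measurable_fst.prodMk (ll_measurable_qlab k))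
  have hfm2 : ∀ W, Measurable (fun z : (Fin N → Vec d) × Vec d => f W z.1 (lab z.1 z.2)) :=
    fun W => (hf W).comp (measurable_fst.prodMk ll_measurable_lab)
  have hKnm : ∀ k W, AEStronglyMeasurable (Kn k W) ρ := by
    intro k W
    have h1 : StronglyMeasurable (fun z : Vec d × (Fin N → Vec d) => g k W z.2 (qlab k z.2 z.1)) :=
      ((hgm2 k W).comp measurable_swap).stronglyMeasurable
    exact (h1.integral_prod_right' (ν := gam d N)).aestronglyMeasurable
  have hKm : ∀ W, AEStronglyMeasurable (avgK (f W)) ρ := by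
    intro W
    have h1 : StronglyMeasurable (fun z : Vec d × (Fin N → Vec d) => f W z.2 (lab z.2 z.1)) :=
      ((hfm2 W).comp measurable_swap).stronglyMeasurable
    exact (h1.integral_prod_right' (ν := gam d N)).aestronglyMeasurable
  -- convergence
  have hconv : ∀ W, ∀ᵐ s ∂ρ, Filter.Tendsto (fun k => Kn k W s) Filter.atTop
      (nhds (avgK (f W) s)) := by
    intro W
    have h1 : ∀ᵐ z ∂(ρ.prod (gam d N)), Filter.Tendsto
        (fun k => g k W z.2 (qlab k z.2 z.1)) Filter.atTop (nhds (f W z.2 (lab z.2 z.1))) := by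
      have h2 := (Measure.measurePreserving_swap (μ := ρ) (ν := gam d N)).quasiMeasurePreserving.ae
        (hglim W)
      exact h2
    have h3 := Measure.ae_ae_of_ae_prod h1
    filter_upwards [h3] with s hs
    apply tendsto_integral_of_dominated_convergence (fun _ => (1:ℝ))
    · intro k
      exact ((hgm2 k W).comp (measurable_id.prodMk measurable_const)).aestronglyMeasurable
    · exact integrable_const 1
    · intro k
      apply Filter.Eventually.of_forall
      intro X
      rw [Real.norm_eq_abs, abs_of_nonneg (hg0 k W _ _)]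
      exact hg1 k W _ _
    · exact hs
  have hint1 : ∀ (u : (Fin N → Vec d) → ℝ), (∀ X, 0 ≤ u X) → (∀ X, u X ≤ 1) →
      0 ≤ ∫ X, u X ∂(gam d N) ∧ ∫ X, u X ∂(gam d N) ≤ 1 := by
    intro u hu0 hu1
    refine ⟨integral_nonneg hu0, ?_⟩
    by_cases hui : Integrable u (gam d N)
    · calc ∫ X, u X ∂(gam d N) ≤ ∫ _X, (1:ℝ) ∂(gam d N) :=
            integral_mono hui (integrable_const 1) hu1
        _ = 1 := by simp
    · rw [integral_undef hui]; exact zero_le_one
  have hinfo := ll_infoR_tendsto (ρ := ρ) (fun W => avgK (f W)) Kn hKm hKnm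
    (fun W s => (hint1 _ (fun X => hf0 W _ _) (fun X => hf1' W _ _)).1)
    (fun W s => (hint1 _ (fun X => hf0 W _ _) (fun X => hf1' W _ _)).2)
    (fun k W s => (hint1 _ (fun X => hg0 k W _ _) (fun X => hg1 k W _ _)).1)
    (fun k W s => (hint1 _ (fun X => hg0 k W _ _) (fun X => hg1 k W _ _)).2) hconv
  have hlarge : ∀ᶠ k : ℕ in Filter.atTop, 1 ≤ D * 2 ^ k := by
    have h2 : Filter.Tendsto (fun k : ℕ => D * (2:ℝ) ^ k) Filter.atTop Filter.atTop :=
      (tendsto_pow_atTop_atTop_of_one_lt (by norm_num : (1:ℝ) < 2)).const_mul_atTop hD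
    exact h2.eventually_ge_atTop 1
  apply le_of_tendsto (hinfo.const_mul ((m:ℝ) + 1))
  filter_upwards [hlarge] with k hk
  have hDk : 0 < D * 2 ^ k := by positivity
  have hlog : 0 ≤ Real.log (D * 2 ^ k) := Real.log_nonneg hk
  have hMpos : 0 < (1 / (D * 2 ^ k)) ^ (2 * N) * Λ := by positivity
  have hrep := replica_bound (gam d N) ρ (qlab k) (ll_measurable_qlab k) (g k) (hgm k) (hg0 k) (hg1 k)
    (hgs k) m (N * (Real.log (D * 2 ^ k) + 3)) (((1 / (D * 2 ^ k)) ^ (2 * N) * Λ) ^ m)
    (by positivity) (by positivity) (label_entropy ρ s₀ D hD hρ k hk)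
    (same_cell_moment ρ D Λ hD hΛ hL k)
  refine hrep.trans (le_of_eq ?_)
  rw [Real.log_pow, Real.log_mul (by positivity) hΛ.ne', Real.log_pow, one_div, Real.log_inv]
  push_cast
  ring

end Vale.Agent.P309
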