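import Vale.Agent.Lib.P309.Core

open MeasureTheory ProbabilityTheory

namespace Vale.Agent.P309

variable {Ω ι : Type*} [MeasurableSpace Ω]

/-- Mass of the cell `i` of level `x` under the density `p`. -/
noncomputable def cellMass (μ : Measure Ω) (D : ℕ → Ω → ι) (p : Ω → ℝ) (x : ℕ) (i : ι) : ℝ :=
  ∫ s in {s | D x s = i}, p s ∂μ

/-- Dyadic Riesz-type potential of the density `p`. -/
noncomputable def kerF (μ : Measure Ω) (D : ℕ → Ω → ι) (c : ℕ → ℝ) (cs : ℝ) (n : ℕ)
    (p : Ω → ℝ) (s : Ω) : ℝ :=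
  ∑ x ∈ Finset.range (n + 1), c x * cellMass μ D p x (D x s) + cs * p s

/-- The density divided by its potential. -/
noncomputable def eta (μ : Measure Ω) (D : ℕ → Ω → ι) (c : ℕ → ℝ) (cs : ℝ) (n : ℕ)
    (p : Ω → ℝ) (s : Ω) : ℝ :=
  p s / kerF μ D c cs n p s

/-- The logarithmic potential of a family of densities. -/
noncomputable def pot {V : Type*} [Fintype V] (μ : Measure Ω) (D : ℕ → Ω → ι) (c : ℕ → ℝ)
    (cs : ℝ) (n : ℕ) (p : V → Ω → ℝ) : ℝ :=
  ∑ v, ∫ s, p v s * Real.log (eta μ D c cs n (p v) s) ∂μ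

/-- The measure with density `η` on the set `A`, normalised to a probability measure. -/
noncomputable def tilt (μ : Measure Ω) (A : Set Ω) (η : Ω → ℝ) : Measure Ω :=
  (ENNReal.ofReal (∫ s in A, η s ∂μ))⁻¹ • (μ.restrict A).withDensity (fun s => ENNReal.ofReal (η s))

end Vale.Agent.P309
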