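import Vale.Agent.Lib.P309.Kaczmarz

/-! P309: a quantised Kaczmarz learner. -/

open MeasureTheory ProbabilityTheory

namespace Vale.Agent.P309

/-- Value of a grid index. -/
noncomputable def gval (b : ℕ) (k : Fin (2 ^ b)) : ℝ := -1 + 2 / 2 ^ b * (k : ℕ)

/-- Index of the grid point just below a number (after clipping to `[-1, 1]`). -/
noncomputable def genc (b : ℕ) (r : ℝ) : Fin (2 ^ b) :=
  ⟨min ⌊(max (-1) (min r 1) + 1) / (2 / 2 ^ b)⌋₊ (2 ^ b - 1), by
    have := Nat.two_pow_pos b; omega⟩

theorem gval_genc (b : ℕ) (r t : ℝ) (ht : |t| ≤ 1) :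
    |gval b (genc b r) - t| ≤ |r - t| + 2 / 2 ^ b := by
  set c := max (-1) (min r 1) with hc
  have hc1 : -1 ≤ c := le_max_left _ _
  have hc2 : c ≤ 1 := max_le (by norm_num) (min_le_right _ _)
  rw [abs_le] at ht
  have h1 : |c - t| ≤ |r - t| := by
    rcases le_total r 1 with h | h
    · rw [min_eq_left h] at hc
      rcases le_total (-1) r with h' | h'
      · rw [max_eq_right h'] at hc
        rw [hc]
      · rw [max_eq_left h'] at hc
        rw [hc, abs_of_nonpos (by linarith), abs_of_nonpos (by linarith)]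
        linarith
    · rw [min_eq_right h, max_eq_right (by norm_num)] at hc
      rw [hc, abs_of_nonneg (by linarith), abs_of_nonneg (by linarith)]
      linarith
  have hh : (0 : ℝ) < 2 / 2 ^ b := by positivity
  set h := (2 : ℝ) / 2 ^ b with hhdef
  set k := ⌊(c + 1) / h⌋₊ with hk
  have hk1 : (k : ℝ) * h ≤ c + 1 := by
    have := Nat.floor_le (div_nonneg (by linarith) hh.le : 0 ≤ (c + 1) / h)
    rwa [le_div_iff₀ hh] at this
  have hk2 : c + 1 < (k + 1) * h := by
    have := Nat.lt_floor_add_one ((c + 1) / h)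
    rwa [div_lt_iff₀ hh] at this
  have hval : gval b (genc b r) = -1 + h * (min k (2 ^ b - 1) : ℕ) := rfl
  have h2 : |gval b (genc b r) - c| ≤ h := by
    rw [hval]
    rcases le_or_gt k (2 ^ b - 1) with h3 | h3
    · rw [min_eq_left h3, abs_le]
      constructor <;> nlinarith
    · rw [min_eq_right h3.le]
      have h4 : ((2 ^ b - 1 : ℕ) : ℝ) = 2 ^ b - 1 := by
        rw [Nat.cast_sub Nat.one_le_two_pow]; norm_num
      have h5 : h * (2 ^ b - 1) = 2 - h := by
        rw [hhdef]; field_simp
      have h6 : (2 : ℝ) ^ b ≤ k := by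
        have : 2 ^ b ≤ k := by omega
        exact_mod_cast this
      have h7 : (2 : ℝ) ≤ k * h := by
        calc (2 : ℝ) = 2 ^ b * h := by rw [hhdef]; field_simp
          _ ≤ k * h := by gcongr
      have h8 : c = 1 := le_antisymm hc2 (by linarith)
      rw [h4, h5, h8, abs_le]
      constructor <;> linarith
  calc |gval b (genc b r) - t| = |(gval b (genc b r) - c) + (c - t)| := by congr 1; ring
    _ ≤ |gval b (genc b r) - c| + |c - t| := abs_add_le _ _
    _ ≤ |r - t| + h := by linarith

section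

variable {d : ℕ}

/-- The vector stored in a state. -/
noncomputable def decv (b : ℕ) (q : Fin d → Fin (2 ^ b)) : EuclideanSpace ℝ (Fin d) :=
  WithLp.toLp 2 (fun i => gval b (q i))

/-- Coordinatewise quantisation. -/
noncomputable def encv (b : ℕ) (u : EuclideanSpace ℝ (Fin d)) : Fin d → Fin (2 ^ b) :=
  fun i => genc b (u i)

theorem measurable_genc (b : ℕ) : Measurable (genc b) := by
  have h1 : Measurable fun r : ℝ => ⌊(max (-1) (min r 1) + 1) / (2 / 2 ^ b)⌋₊ := by
    apply Nat.measurable_floor.comp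
    fun_prop
  have h2 : genc b = (fun k : ℕ => (⟨min k (2 ^ b - 1), by
      have := Nat.two_pow_pos b; omega⟩ : Fin (2 ^ b))) ∘
      fun r : ℝ => ⌊(max (-1) (min r 1) + 1) / (2 / 2 ^ b)⌋₊ := rfl
  rw [h2]
  exact measurable_from_top.comp h1

theorem measurable_encv (b : ℕ) : Measurable (encv (d := d) b) := by
  unfold encv
  refine measurable_pi_lambda _ fun i => (measurable_genc b).comp ?_
  fun_prop

theorem norm_decv_encv (b : ℕ) (u s : EuclideanSpace ℝ (Fin d)) (hs : ‖s‖ ≤ 1) :
    ‖decv b (encv b u) - s‖ ≤ ‖u - s‖ + 2 / 2 ^ b * Real.sqrt d := by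
  set h := (2 : ℝ) / 2 ^ b with hh
  have hh0 : 0 ≤ h := by positivity
  set V : EuclideanSpace ℝ (Fin d) := WithLp.toLp 2 (fun i => |u i - s i|) with hV
  set H : EuclideanSpace ℝ (Fin d) := WithLp.toLp 2 (fun _ => h) with hH
  have h1 : ‖decv b (encv b u) - s‖ ≤ ‖V + H‖ := by
    rw [EuclideanSpace.norm_eq, EuclideanSpace.norm_eq]
    apply Real.sqrt_le_sqrt
    apply Finset.sum_le_sum
    intro i _
    have hsi : |s i| ≤ 1 := by
      have := PiLp.norm_apply_le s i
      rw [Real.norm_eq_abs] at this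
      linarith
    have h2 := gval_genc b (u i) (s i) hsi
    have h3 : ‖(decv b (encv b u) - s) i‖ ≤ ‖(V + H) i‖ := by
      simp only [hV, hH, PiLp.sub_apply, PiLp.add_apply, Real.norm_eq_abs, decv, encv]
      rw [abs_of_nonneg (by positivity : 0 ≤ |u i - s i| + h)]
      exact h2
    gcongr
  have h2 : ‖V‖ = ‖u - s‖ := by
    rw [EuclideanSpace.norm_eq, EuclideanSpace.norm_eq]
    simp [hV]
  have h3 : ‖H‖ = h * Real.sqrt d := by
    rw [EuclideanSpace.norm_eq]
    simp only [hH, Real.norm_eq_abs, sq_abs, Finset.sum_const, Finset.card_univ,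
      Fintype.card_fin, nsmul_eq_mul]
    rw [Real.sqrt_mul (Nat.cast_nonneg d), Real.sqrt_sq hh0, mul_comm]
  calc ‖decv b (encv b u) - s‖ ≤ ‖V + H‖ := h1
    _ ≤ ‖V‖ + ‖H‖ := norm_add_le _ _
    _ = ‖u - s‖ + h * Real.sqrt d := by rw [h2, h3]

/-- Normalisation onto the sphere. -/
noncomputable def toSph (e : Sph d) (z : EuclideanSpace ℝ (Fin d)) : Sph d :=
  if hz : z = 0 then e else
    ⟨(1 / ‖z‖) • z, by
      rw [mem_sphere_zero_iff_norm, norm_smul, norm_div, norm_one, norm_norm,
        one_div_mul_cancel (norm_ne_zero_iff.mpr hz)]⟩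

/-- The quantised Kaczmarz learner. -/
noncomputable def kLearner (b : ℕ) (e : Sph d) : Learner d (Fin d → Fin (2 ^ b)) where
  init := Measure.dirac (encv b 0)
  init_prob := inferInstance
  step _ := Kernel.deterministic
    (fun w : (Fin d → Fin (2 ^ b)) × EuclideanSpace ℝ (Fin d) × ℝ =>
      (encv b (kz (decv b w.1) w.2.1 w.2.2), false)) (by
        refine Measurable.prodMk ((measurable_encv b).comp ?_) measurable_const
        have h1 : Measurable (decv (d := d) b) := Measurable.of_discrete
        unfold kz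
        have h2 : Measurable fun w : (Fin d → Fin (2 ^ b)) × EuclideanSpace ℝ (Fin d) × ℝ =>
          decv b w.1 := h1.comp measurable_fst
        fun_prop)
  step_markov _ := inferInstance
  out _ := Kernel.deterministic (fun q => toSph e (decv b q)) Measurable.of_discrete
  out_markov _ := inferInstance

end

end Vale.Agent.P309
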