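import Vale.Agent.Lib.P309.Core

namespace Vale.Agent.P309

open MeasureTheory ProbabilityTheory
open scoped ENNReal

noncomputable section
variable {Ω X C Q : Type*} [MeasurableSpace Ω] [MeasurableSpace X]
    [MeasurableSpace C] [Countable C] [MeasurableSingletonClass C]

/-- integral over the replicas of a function of one replica, on the event that all labels agree -/
lemma lintegral_same (R : Measure Ω) [IsProbabilityMeasure R] (c : Ω → C) (hc : Measurable c)
    (k : ℕ) (φ : C → ℝ≥0∞) (G : Ω → ℝ≥0∞) (hG : Measurable G) (j : Fin (k + 1)) :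
    ∫⁻ s : Fin (k + 1) → Ω,
        Set.indicator {s | ∀ i, c (s i) = c (s 0)} (fun s => φ (c (s 0)) * G (s j)) s
          ∂(Measure.pi fun _ => R)
      = ∫⁻ t, φ (c t) * (R {t' | c t' = c t}) ^ k * G t ∂(R) := by
  set F : Ω × (Fin k → Ω) → ℝ≥0∞ := fun p =>
    Set.indicator {p : Ω × (Fin k → Ω) | ∀ i, c (p.2 i) = c p.1} (fun p => φ (c p.1) * G p.1) p
    with hF
  have hφ : Measurable φ := measurable_of_countable φ
  have hset : MeasurableSet {p : Ω × (Fin k → Ω) | ∀ i, c (p.2 i) = c p.1} := by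
    have h : {p : Ω × (Fin k → Ω) | ∀ i, c (p.2 i) = c p.1}
      = ⋂ i, {p : Ω × (Fin k → Ω) | c (p.2 i) = c p.1} := by
      ext p; simp
    rw [h]
    refine MeasurableSet.iInter fun i => ?_
    exact measurableSet_eq_fun (hc.comp ((measurable_pi_apply i).comp measurable_snd))
      (hc.comp measurable_fst)
  have hFm : Measurable F := by
    refine Measurable.indicator ?_ hset
    exact ((hφ.comp hc).comp measurable_fst).mul (hG.comp measurable_fst)
  have key : ∀ s : Fin (k + 1) → Ω,
      Set.indicator {s | ∀ i, c (s i) = c (s 0)} (fun s => φ (c (s 0)) * G (s j)) s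
        = F (MeasurableEquiv.piFinSuccAbove (fun _ => Ω) j s) := by
    intro s
    have hiff : (∀ i, c (s i) = c (s 0)) ↔ ∀ i : Fin k, c (s (j.succAbove i)) = c (s j) := by
      constructor
      · intro h i
        rw [h, h j]
      · intro h i
        have h2 : ∀ i, c (s i) = c (s j) := by
          intro i
          rcases Fin.eq_self_or_eq_succAbove j i with hi | ⟨l, hl⟩
          · rw [hi]
          · rw [hl]; exact h l
        rw [h2 i, h2 0]
    have he : MeasurableEquiv.piFinSuccAbove (fun _ => Ω) j s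
        = (s j, fun i => s (j.succAbove i)) := rfl
    rw [he]
    by_cases hs : ∀ i, c (s i) = c (s 0)
    · rw [Set.indicator_of_mem (show s ∈ {s | ∀ i, c (s i) = c (s 0)} from hs)]
      have hm : (s j, fun i => s (j.succAbove i))
          ∈ {p : Ω × (Fin k → Ω) | ∀ i, c (p.2 i) = c p.1} := hiff.1 hs
      simp only [hF, Set.indicator_of_mem hm, hs j]
    · rw [Set.indicator_of_notMem (show s ∉ {s | ∀ i, c (s i) = c (s 0)} from hs)]
      have hm : (s j, fun i => s (j.succAbove i))
          ∉ {p : Ω × (Fin k → Ω) | ∀ i, c (p.2 i) = c p.1} := mt hiff.2 hs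
      simp only [hF, Set.indicator_of_notMem hm]
  rw [lintegral_congr key,
    (measurePreserving_piFinSuccAbove (fun _ => R) j).lintegral_comp_emb
      (MeasurableEquiv.measurableEmbedding _),
    lintegral_prod _ hFm.aemeasurable]
  refine lintegral_congr fun t => ?_
  have h2 : ∀ s : Fin k → Ω, F (t, s)
      = Set.indicator (Set.univ.pi fun _ => {t' | c t' = c t}) (fun _ => φ (c t) * G t) s := by
    intro s
    by_cases hs : ∀ i, c (s i) = c t
    · have h1 : (t, s) ∈ {p : Ω × (Fin k → Ω) | ∀ i, c (p.2 i) = c p.1} := hs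
      have h3 : s ∈ Set.univ.pi fun _ : Fin k => {t' | c t' = c t} := fun i _ => hs i
      simp only [hF, Set.indicator_of_mem h1, Set.indicator_of_mem h3]
    · have h1 : (t, s) ∉ {p : Ω × (Fin k → Ω) | ∀ i, c (p.2 i) = c p.1} := hs
      have h3 : s ∉ Set.univ.pi fun _ : Fin k => {t' | c t' = c t} :=
        fun h => hs fun i => h i (Set.mem_univ i)
      simp only [hF, Set.indicator_of_notMem h1, Set.indicator_of_notMem h3]
  rw [lintegral_congr h2, lintegral_indicator]
  · rw [lintegral_const, Measure.restrict_apply MeasurableSet.univ, Set.univ_inter,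
      Measure.pi_pi]
    simp
    ring
  · refine MeasurableSet.univ_pi fun _ => ?_
    exact measurableSet_eq_fun hc measurable_const


/-- probability of a label cell -/
def rE (R : Measure Ω) (c : X → Ω → C) (x : X) (a : C) : ℝ≥0∞ := R {t | c x t = a}

/-- the event that all replicas have the same label -/
def sameSet (c : X → Ω → C) (k : ℕ) : Set (X × (Fin (k + 1) → Ω)) :=
  {p | ∀ j, c p.1 (p.2 j) = c p.1 (p.2 0)}

/-- the density of the replica measure -/
def repDens (R : Measure Ω) (c : X → Ω → C) (g : X → C → ℝ≥0∞) (k : ℕ) :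
    X × (Fin (k + 1) → Ω) → ℝ≥0∞ :=
  Set.indicator (sameSet c k)
    (fun p => (rE R c p.1 (c p.1 (p.2 0)))⁻¹ ^ k * g p.1 (c p.1 (p.2 0)))

/-- the replica measure -/
def repMeas (R : Measure Ω) (γ : Measure X) (c : X → Ω → C) (g : X → C → ℝ≥0∞) (k : ℕ) :
    Measure (X × (Fin (k + 1) → Ω)) :=
  (γ.prod (Measure.pi fun _ => R)).withDensity (repDens R c g k)

lemma measurable_rE (R : Measure Ω) [IsProbabilityMeasure R] (c : X → Ω → C)
    (hc : Measurable (Function.uncurry c)) : Measurable (Function.uncurry (rE R c)) := by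
  refine measurable_from_prod_countable_left fun a => ?_
  have hs : MeasurableSet {p : X × Ω | c p.1 p.2 = a} :=
    measurableSet_eq_fun hc measurable_const
  exact measurable_measure_prodMk_left hs

lemma measurableSet_sameSet (c : X → Ω → C) (hc : Measurable (Function.uncurry c)) (k : ℕ) :
    MeasurableSet (sameSet c k) := by
  have h : sameSet c k
      = ⋂ j, {p : X × (Fin (k + 1) → Ω) | c p.1 (p.2 j) = c p.1 (p.2 0)} := by
    ext p; simp [sameSet]
  rw [h]
  refine MeasurableSet.iInter fun j => ?_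
  have h1 : Measurable fun p : X × (Fin (k + 1) → Ω) => c p.1 (p.2 j) :=
    hc.comp (measurable_fst.prodMk ((measurable_pi_apply j).comp measurable_snd))
  have h2 : Measurable fun p : X × (Fin (k + 1) → Ω) => c p.1 (p.2 0) :=
    hc.comp (measurable_fst.prodMk ((measurable_pi_apply 0).comp measurable_snd))
  exact measurableSet_eq_fun h1 h2

lemma measurable_lab (c : X → Ω → C) (hc : Measurable (Function.uncurry c)) (k : ℕ)
    (j : Fin (k + 1)) :
    Measurable fun p : X × (Fin (k + 1) → Ω) => (p.1, c p.1 (p.2 j)) :=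
  measurable_fst.prodMk
    (hc.comp (measurable_fst.prodMk ((measurable_pi_apply j).comp measurable_snd)))

lemma measurable_repDens (R : Measure Ω) [IsProbabilityMeasure R] (c : X → Ω → C)
    (hc : Measurable (Function.uncurry c)) (g : X → C → ℝ≥0∞)
    (hg : Measurable (Function.uncurry g)) (k : ℕ) : Measurable (repDens R c g k) := by
  refine Measurable.indicator ?_ (measurableSet_sameSet c hc k)
  exact (((measurable_rE R c hc).comp (measurable_lab c hc k 0)).inv.pow_const k).mul
    (hg.comp (measurable_lab c hc k 0))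

lemma ae_rE_pos (R : Measure Ω) [IsProbabilityMeasure R] (c : Ω → C) (hc : Measurable c) :
    ∀ᵐ t ∂(R), R {t' | c t' = c t} ≠ 0 := by
  have h : {t | ¬ (R {t' | c t' = c t} ≠ 0)}
      ⊆ ⋃ a ∈ {a : C | R {t' | c t' = a} = 0}, {t | c t = a} := by
    intro t ht
    simp only [ne_eq, not_not, Set.mem_setOf_eq] at ht
    simp only [Set.mem_iUnion]
    exact ⟨c t, ht, rfl⟩
  refine measure_mono_null h ?_
  rw [measure_biUnion_null_iff (Set.to_countable _)]
  intro a ha
  exact ha

/-- the marginal of the replica measure on the rows and one replica -/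
lemma map_repMeas (R : Measure Ω) [IsProbabilityMeasure R] (γ : Measure X)
    [IsProbabilityMeasure γ] (c : X → Ω → C)
    (hc : Measurable (Function.uncurry c)) (g : X → C → ℝ≥0∞)
    (hg : Measurable (Function.uncurry g)) (k : ℕ) (j : Fin (k + 1)) :
    (repMeas R γ c g k).map (fun p => (p.1, p.2 j))
      = (γ.prod R).withDensity (fun q => g q.1 (c q.1 q.2)) := by
  have hmj : Measurable fun p : X × (Fin (k + 1) → Ω) => (p.1, p.2 j) :=
    measurable_fst.prodMk ((measurable_pi_apply j).comp measurable_snd)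
  have hgc : Measurable fun q : X × Ω => g q.1 (c q.1 q.2) :=
    hg.comp (measurable_fst.prodMk hc)
  have hD := measurable_repDens R c hc g hg k
  refine Measure.ext fun B hB => ?_
  rw [Measure.map_apply hmj hB, repMeas, withDensity_apply _ (hmj hB), withDensity_apply _ hB,
    ← lintegral_indicator (hmj hB), ← lintegral_indicator hB,
    lintegral_prod _ (hD.indicator (hmj hB)).aemeasurable,
    lintegral_prod _ (hgc.indicator hB).aemeasurable]
  refine lintegral_congr fun x => ?_
  have hcx : Measurable (c x) := hc.comp measurable_prodMk_left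
  have hBx : MeasurableSet {t | (x, t) ∈ B} := measurable_prodMk_left hB
  have h1 : ∀ s : Fin (k + 1) → Ω,
      Set.indicator ((fun p : X × (Fin (k + 1) → Ω) => (p.1, p.2 j)) ⁻¹' B) (repDens R c g k) (x, s)
      = Set.indicator {s | ∀ i, c x (s i) = c x (s 0)}
          (fun s => ((rE R c x (c x (s 0)))⁻¹ ^ k * g x (c x (s 0)))
            * Set.indicator {t | (x, t) ∈ B} (fun _ => 1) (s j)) s := by
    intro s
    by_cases hs : ∀ i, c x (s i) = c x (s 0)
    · have hm : s ∈ {s : Fin (k + 1) → Ω | ∀ i, c x (s i) = c x (s 0)} := hs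
      have hm' : (x, s) ∈ sameSet c k := hs
      rw [Set.indicator_of_mem hm]
      by_cases hb : (x, s j) ∈ B
      · have hb' : (x, s) ∈ (fun p : X × (Fin (k + 1) → Ω) => (p.1, p.2 j)) ⁻¹' B := hb
        have hb2 : s j ∈ {t | (x, t) ∈ B} := hb
        rw [Set.indicator_of_mem hb', repDens, Set.indicator_of_mem hm',
          Set.indicator_of_mem hb2, mul_one]
      · have hb' : (x, s) ∉ (fun p : X × (Fin (k + 1) → Ω) => (p.1, p.2 j)) ⁻¹' B := hb
        have hb2 : s j ∉ {t | (x, t) ∈ B} := hb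
        rw [Set.indicator_of_notMem hb', Set.indicator_of_notMem hb2, mul_zero]
    · have hm : s ∉ {s : Fin (k + 1) → Ω | ∀ i, c x (s i) = c x (s 0)} := hs
      have hm' : (x, s) ∉ sameSet c k := hs
      rw [Set.indicator_of_notMem hm]
      by_cases hb : (x, s) ∈ (fun p : X × (Fin (k + 1) → Ω) => (p.1, p.2 j)) ⁻¹' B
      · rw [Set.indicator_of_mem hb, repDens, Set.indicator_of_notMem hm']
      · rw [Set.indicator_of_notMem hb]
  rw [lintegral_congr h1, lintegral_same R (c x) hcx k
    (fun a => (rE R c x a)⁻¹ ^ k * g x a) _ (measurable_const.indicator hBx) j]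
  refine lintegral_congr_ae ?_
  filter_upwards [ae_rE_pos R (c x) hcx] with t ht
  have h2 : (rE R c x (c x t))⁻¹ ^ k * g x (c x t) * (R {t' | c x t' = c x t}) ^ k
      = g x (c x t) := by
    have h3 : rE R c x (c x t) = R {t' | c x t' = c x t} := rfl
    rw [h3]
    have h4 : (R {t' | c x t' = c x t})⁻¹ ^ k * (R {t' | c x t' = c x t}) ^ k = 1 := by
      rw [← mul_pow, ENNReal.inv_mul_cancel ht (measure_ne_top _ _), one_pow]
    calc _ = ((R {t' | c x t' = c x t})⁻¹ ^ k * (R {t' | c x t' = c x t}) ^ k) * g x (c x t) := by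
          ring
      _ = _ := by rw [h4, one_mul]
  rw [h2]
  by_cases hb : (x, t) ∈ B
  · have hb2 : t ∈ {t | (x, t) ∈ B} := hb
    rw [Set.indicator_of_mem hb2, Set.indicator_of_mem hb, mul_one]
  · have hb2 : t ∉ {t | (x, t) ∈ B} := hb
    rw [Set.indicator_of_notMem hb2, Set.indicator_of_notMem hb, mul_zero]

/-- the marginal on the signal alone -/
lemma map_snd_withDensity (R : Measure Ω) [IsProbabilityMeasure R] (γ : Measure X)
    [IsProbabilityMeasure γ] (G : X × Ω → ℝ≥0∞) (hG : Measurable G) :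
    ((γ.prod R).withDensity G).map Prod.snd
      = R.withDensity (fun s => ∫⁻ x, G (x, s) ∂γ) := by
  refine Measure.ext fun B hB => ?_
  rw [Measure.map_apply measurable_snd hB, withDensity_apply _ (measurable_snd hB),
    withDensity_apply _ hB, ← lintegral_indicator (measurable_snd hB), ← lintegral_indicator hB,
    lintegral_prod_symm _ (hG.indicator (measurable_snd hB)).aemeasurable]
  refine lintegral_congr fun t => ?_
  by_cases hb : t ∈ B
  · rw [Set.indicator_of_mem hb]
    refine lintegral_congr fun x => ?_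
    rw [Set.indicator_of_mem]
    exact hb
  · rw [Set.indicator_of_notMem hb, ← lintegral_zero]
    refine lintegral_congr fun x => ?_
    rw [Set.indicator_of_notMem]
    exact hb


/-- the probability that all labels agree, given the replicas -/
def wfun (γ : Measure X) (c : X → Ω → C) (k : ℕ) (s : Fin (k + 1) → Ω) : ℝ :=
  γ.real {x | ∀ j, c x (s j) = c x (s 0)}

lemma wfun_nonneg (γ : Measure X) (c : X → Ω → C) (k : ℕ) (s : Fin (k + 1) → Ω) :
    0 ≤ wfun γ c k s := measureReal_nonneg

lemma wfun_le_one (γ : Measure X) [IsProbabilityMeasure γ] (c : X → Ω → C) (k : ℕ)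
    (s : Fin (k + 1) → Ω) : wfun γ c k s ≤ 1 := measureReal_le_one

lemma measurable_wE (γ : Measure X) [IsProbabilityMeasure γ] (c : X → Ω → C)
    (hc : Measurable (Function.uncurry c)) (k : ℕ) :
    Measurable fun s : Fin (k + 1) → Ω => γ {x | ∀ j, c x (s j) = c x (s 0)} := by
  exact measurable_measure_prodMk_right (measurableSet_sameSet c hc k)

lemma measurable_wfun (γ : Measure X) [IsProbabilityMeasure γ] (c : X → Ω → C)
    (hc : Measurable (Function.uncurry c)) (k : ℕ) : Measurable (wfun γ c k) :=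
  (measurable_wE γ c hc k).ennreal_toReal

/-- kernel averaged over the rows -/
def kav (γ : Measure X) (c : X → Ω → C) (f : X → C → ℝ) (s : Ω) : ℝ := ∫ x, f x (c x s) ∂γ

/-- mass of the kernel on the agreement event -/
def afun (γ : Measure X) (c : X → Ω → C) (f : X → C → ℝ) (k : ℕ) (s : Fin (k + 1) → Ω) : ℝ :=
  ∫ x, Set.indicator {x | ∀ j, c x (s j) = c x (s 0)} (fun x => f x (c x (s 0))) x ∂γ

lemma measurable_kav (γ : Measure X) [IsProbabilityMeasure γ] (c : X → Ω → C)
    (hc : Measurable (Function.uncurry c)) (f : X → C → ℝ)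
    (hf : Measurable (Function.uncurry f)) : Measurable (kav γ c f) := by
  have h : Measurable fun p : Ω × X => f p.2 (c p.2 p.1) :=
    hf.comp (measurable_snd.prodMk (hc.comp (measurable_snd.prodMk measurable_fst)))
  exact (h.stronglyMeasurable.integral_prod_right).measurable

lemma kav_nonneg (γ : Measure X) (c : X → Ω → C) (f : X → C → ℝ) (hf0 : ∀ x a, 0 ≤ f x a)
    (s : Ω) : 0 ≤ kav γ c f s := integral_nonneg fun x => hf0 _ _

lemma kav_le_one (γ : Measure X) [IsProbabilityMeasure γ] (c : X → Ω → C) (f : X → C → ℝ)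
    (hf0 : ∀ x a, 0 ≤ f x a) (hf1 : ∀ x a, f x a ≤ 1)
    (s : Ω) : kav γ c f s ≤ 1 := by
  have h := integral_mono_of_nonneg (μ := γ) (f := fun x => f x (c x s)) (g := fun _ => (1 : ℝ))
    (Filter.Eventually.of_forall fun x => hf0 _ _) (integrable_const _)
    (Filter.Eventually.of_forall fun x => hf1 _ _)
  simpa [kav] using h

lemma lintegral_kav (γ : Measure X) [IsProbabilityMeasure γ] (c : X → Ω → C)
    (hc : Measurable (Function.uncurry c)) (f : X → C → ℝ)
    (hf : Measurable (Function.uncurry f)) (hf0 : ∀ x a, 0 ≤ f x a) (hf1 : ∀ x a, f x a ≤ 1)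
    (s : Ω) : ∫⁻ x, ENNReal.ofReal (f x (c x s)) ∂γ = ENNReal.ofReal (kav γ c f s) := by
  rw [kav, ofReal_integral_eq_lintegral_ofReal]
  · refine Integrable.of_bound (C := 1) ?_ (Filter.Eventually.of_forall fun x => ?_)
    · exact (hf.comp (measurable_id.prodMk (hc.comp (measurable_id.prodMk
        measurable_const)))).aestronglyMeasurable
    · rw [Real.norm_eq_abs, abs_of_nonneg (hf0 _ _)]
      exact hf1 _ _
  · exact Filter.Eventually.of_forall fun x => hf0 _ _

/-- marginal of the replica measure on one replica -/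
lemma map_rep_one (R : Measure Ω) [IsProbabilityMeasure R] (γ : Measure X)
    [IsProbabilityMeasure γ] (c : X → Ω → C) (hc : Measurable (Function.uncurry c))
    (f : X → C → ℝ) (hf : Measurable (Function.uncurry f)) (hf0 : ∀ x a, 0 ≤ f x a)
    (hf1 : ∀ x a, f x a ≤ 1) (k : ℕ) (j : Fin (k + 1)) :
    (repMeas R γ c (fun x a => ENNReal.ofReal (f x a)) k).map (fun p => p.2 j)
      = R.withDensity (fun s => ENNReal.ofReal (kav γ c f s)) := by
  have hg : Measurable (Function.uncurry fun x a => ENNReal.ofReal (f x a)) := hf.ennreal_ofReal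
  have hmj : Measurable fun p : X × (Fin (k + 1) → Ω) => (p.1, p.2 j) :=
    measurable_fst.prodMk ((measurable_pi_apply j).comp measurable_snd)
  have h1 : (fun p : X × (Fin (k + 1) → Ω) => p.2 j)
      = Prod.snd ∘ (fun p : X × (Fin (k + 1) → Ω) => (p.1, p.2 j)) := rfl
  have hgc : Measurable fun q : X × Ω => ENNReal.ofReal (f q.1 (c q.1 q.2)) :=
    hg.comp (measurable_fst.prodMk hc)
  rw [h1, ← Measure.map_map measurable_snd hmj, map_repMeas R γ c hc _ hg k j,
    map_snd_withDensity R γ _ hgc]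
  congr 1
  funext s
  exact lintegral_kav γ c hc f hf hf0 hf1 s

lemma integrable_kav (R : Measure Ω) [IsProbabilityMeasure R] (γ : Measure X)
    [IsProbabilityMeasure γ] (c : X → Ω → C) (hc : Measurable (Function.uncurry c))
    (f : X → C → ℝ) (hf : Measurable (Function.uncurry f)) (hf0 : ∀ x a, 0 ≤ f x a)
    (hf1 : ∀ x a, f x a ≤ 1) : Integrable (kav γ c f) R := by
  refine Integrable.of_bound (C := 1) (measurable_kav γ c hc f hf).aestronglyMeasurable
    (Filter.Eventually.of_forall fun s => ?_)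
  rw [Real.norm_eq_abs, abs_of_nonneg (kav_nonneg γ c f hf0 s)]
  exact kav_le_one γ c f hf0 hf1 s

lemma repMeas_univ (R : Measure Ω) [IsProbabilityMeasure R] (γ : Measure X)
    [IsProbabilityMeasure γ] (c : X → Ω → C) (hc : Measurable (Function.uncurry c))
    (f : X → C → ℝ) (hf : Measurable (Function.uncurry f)) (hf0 : ∀ x a, 0 ≤ f x a)
    (hf1 : ∀ x a, f x a ≤ 1) (k : ℕ) :
    repMeas R γ c (fun x a => ENNReal.ofReal (f x a)) k Set.univ
      = ENNReal.ofReal (∫ s, kav γ c f s ∂(R)) := by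
  have h := congrArg (fun μ => μ Set.univ) (map_rep_one R γ c hc f hf hf0 hf1 k 0)
  have hm0 : Measurable fun p : X × (Fin (k + 1) → Ω) => p.2 0 :=
    (measurable_pi_apply 0).comp measurable_snd
  rw [Measure.map_apply hm0 MeasurableSet.univ,
    Set.preimage_univ, withDensity_apply _ MeasurableSet.univ, Measure.restrict_univ,
    ← ofReal_integral_eq_lintegral_ofReal (integrable_kav R γ c hc f hf hf0 hf1)
      (Filter.Eventually.of_forall (kav_nonneg γ c f hf0))] at h
  exact h


/-- integrating a function of one replica against the replica measure -/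
lemma integral_rep_one (R : Measure Ω) [IsProbabilityMeasure R] (γ : Measure X)
    [IsProbabilityMeasure γ] (c : X → Ω → C) (hc : Measurable (Function.uncurry c))
    (f : X → C → ℝ) (hf : Measurable (Function.uncurry f)) (hf0 : ∀ x a, 0 ≤ f x a)
    (hf1 : ∀ x a, f x a ≤ 1) (k : ℕ) (j : Fin (k + 1)) (G : Ω → ℝ) (hG : Measurable G)
    (hGi : Integrable (fun s => kav γ c f s * G s) R) :
    Integrable (fun p : X × (Fin (k + 1) → Ω) => G (p.2 j))
        (repMeas R γ c (fun x a => ENNReal.ofReal (f x a)) k)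
      ∧ ∫ p, G (p.2 j) ∂(repMeas R γ c (fun x a => ENNReal.ofReal (f x a)) k)
        = ∫ s, kav γ c f s * G s ∂(R) := by
  have hm : Measurable fun p : X × (Fin (k + 1) → Ω) => p.2 j :=
    (measurable_pi_apply j).comp measurable_snd
  have hmap := map_rep_one R γ c hc f hf hf0 hf1 k j
  have hkm : Measurable fun s => ENNReal.ofReal (kav γ c f s) :=
    (measurable_kav γ c hc f hf).ennreal_ofReal
  have hkt : ∀ᵐ s ∂(R), ENNReal.ofReal (kav γ c f s) < ∞ :=
    Filter.Eventually.of_forall fun s => ENNReal.ofReal_lt_top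
  have hsm : ∀ s, (ENNReal.ofReal (kav γ c f s)).toReal = kav γ c f s := fun s =>
    ENNReal.toReal_ofReal (kav_nonneg γ c f hf0 s)
  have h1 : Integrable G (R.withDensity (fun s => ENNReal.ofReal (kav γ c f s))) := by
    rw [integrable_withDensity_iff_integrable_smul' hkm hkt]
    simpa only [hsm, smul_eq_mul] using hGi
  constructor
  · have h2 := (integrable_map_measure (μ := repMeas R γ c (fun x a => ENNReal.ofReal (f x a)) k)
      (f := fun p => p.2 j) (g := G) hG.aestronglyMeasurable hm.aemeasurable).1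
    exact h2 (by rw [hmap]; exact h1)
  · have h3 := integral_map (μ := repMeas R γ c (fun x a => ENNReal.ofReal (f x a)) k)
      (φ := fun p => p.2 j) hm.aemeasurable (f := G) hG.aestronglyMeasurable
    rw [← h3, hmap, integral_withDensity_eq_integral_toReal_smul hkm hkt]
    simp only [hsm, smul_eq_mul]

/-- integrating a function of the rows and one replica against the replica measure -/
lemma integral_rep_two (R : Measure Ω) [IsProbabilityMeasure R] (γ : Measure X)
    [IsProbabilityMeasure γ] (c : X → Ω → C) (hc : Measurable (Function.uncurry c))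
    (f : X → C → ℝ) (hf : Measurable (Function.uncurry f)) (hf0 : ∀ x a, 0 ≤ f x a)
    (hf1 : ∀ x a, f x a ≤ 1) (k : ℕ) (j : Fin (k + 1)) (G : X × Ω → ℝ) (hG : Measurable G)
    (hGi : Integrable G (γ.prod R)) :
    Integrable (fun p : X × (Fin (k + 1) → Ω) => G (p.1, p.2 j))
        (repMeas R γ c (fun x a => ENNReal.ofReal (f x a)) k)
      ∧ ∫ p, G (p.1, p.2 j) ∂(repMeas R γ c (fun x a => ENNReal.ofReal (f x a)) k)
        = ∫ q, f q.1 (c q.1 q.2) * G q ∂(γ.prod R)
      ∧ Integrable (fun q => f q.1 (c q.1 q.2) * G q) (γ.prod R) := by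
  have hg : Measurable (Function.uncurry fun x a => ENNReal.ofReal (f x a)) := hf.ennreal_ofReal
  have hm : Measurable fun p : X × (Fin (k + 1) → Ω) => (p.1, p.2 j) :=
    measurable_fst.prodMk ((measurable_pi_apply j).comp measurable_snd)
  have hmap := map_repMeas R γ c hc (fun x a => ENNReal.ofReal (f x a)) hg k j
  have hfm : Measurable fun q : X × Ω => f q.1 (c q.1 q.2) := hf.comp (measurable_fst.prodMk hc)
  have hkm : Measurable fun q : X × Ω => ENNReal.ofReal (f q.1 (c q.1 q.2)) := hfm.ennreal_ofReal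
  have hkt : ∀ᵐ q ∂(γ.prod R), ENNReal.ofReal (f q.1 (c q.1 q.2)) < ∞ :=
    Filter.Eventually.of_forall fun s => ENNReal.ofReal_lt_top
  have hsm : ∀ q : X × Ω, (ENNReal.ofReal (f q.1 (c q.1 q.2))).toReal = f q.1 (c q.1 q.2) :=
    fun q => ENNReal.toReal_ofReal (hf0 _ _)
  have hGi' : Integrable (fun q => f q.1 (c q.1 q.2) * G q) (γ.prod R) := by
    refine hGi.bdd_mul (c := 1) hfm.aestronglyMeasurable (Filter.Eventually.of_forall fun q => ?_)
    rw [Real.norm_eq_abs, abs_of_nonneg (hf0 _ _)]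
    exact hf1 _ _
  have h1 : Integrable G
      ((γ.prod R).withDensity (fun q => ENNReal.ofReal (f q.1 (c q.1 q.2)))) := by
    rw [integrable_withDensity_iff_integrable_smul' hkm hkt]
    simpa only [hsm, smul_eq_mul] using hGi'
  refine ⟨?_, ?_, hGi'⟩
  · have h2 := (integrable_map_measure (μ := repMeas R γ c (fun x a => ENNReal.ofReal (f x a)) k)
      (f := fun p => (p.1, p.2 j)) (g := G) hG.aestronglyMeasurable hm.aemeasurable).1
    exact h2 (by rw [hmap]; exact h1)
  · have h3 := integral_map (μ := repMeas R γ c (fun x a => ENNReal.ofReal (f x a)) k)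
      (φ := fun p => (p.1, p.2 j)) hm.aemeasurable (f := G) hG.aestronglyMeasurable
    rw [← h3, hmap, integral_withDensity_eq_integral_toReal_smul hkm hkt]
    simp only [hsm, smul_eq_mul]

/-- the agreement probability is positive almost surely under the replica measure -/
lemma ae_wfun_pos (R : Measure Ω) [IsProbabilityMeasure R] (γ : Measure X)
    [IsProbabilityMeasure γ] (c : X → Ω → C) (hc : Measurable (Function.uncurry c))
    (g : X → C → ℝ≥0∞) (hg : Measurable (Function.uncurry g)) (k : ℕ) :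
    ∀ᵐ p ∂(repMeas R γ c g k), 0 < wfun γ c k p.2 ∧ p ∈ sameSet c k := by
  have hD := measurable_repDens R c hc g hg k
  have hS := measurableSet_sameSet c hc k
  have hw := measurable_wfun γ c hc k
  rw [repMeas, ae_withDensity_iff hD]
  have h1 : ∀ᵐ p ∂(γ.prod (Measure.pi fun _ : Fin (k + 1) => R)),
      ¬ (p ∈ sameSet c k ∧ wfun γ c k p.2 = 0) := by
    have hB : MeasurableSet {p : X × (Fin (k + 1) → Ω) | p ∈ sameSet c k ∧ wfun γ c k p.2 = 0} :=
      hS.inter (measurableSet_eq_fun (hw.comp measurable_snd) measurable_const)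
    rw [ae_iff]
    simp only [not_not]
    change (γ.prod (Measure.pi fun _ : Fin (k + 1) => R))
      {p : X × (Fin (k + 1) → Ω) | p ∈ sameSet c k ∧ wfun γ c k p.2 = 0} = 0
    rw [Measure.prod_apply_symm hB, lintegral_eq_zero_iff (measurable_measure_prodMk_right hB)]
    refine Filter.Eventually.of_forall fun s => ?_
    change γ ((fun x => (x, s)) ⁻¹'
      {p : X × (Fin (k + 1) → Ω) | p ∈ sameSet c k ∧ wfun γ c k p.2 = 0}) = 0
    by_cases hs : wfun γ c k s = 0
    · have h2 : γ {x | ∀ j, c x (s j) = c x (s 0)} = 0 := by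
        rw [wfun, measureReal_eq_zero_iff] at hs
        exact hs
      exact measure_mono_null (fun x hx => hx.1) h2
    · have h2 : ((fun x => (x, s)) ⁻¹'
          {p : X × (Fin (k + 1) → Ω) | p ∈ sameSet c k ∧ wfun γ c k p.2 = 0}) = ∅ := by
        ext x
        simp only [Set.mem_preimage, Set.mem_empty_iff_false, iff_false]
        exact fun h => hs h.2
      rw [h2, measure_empty]
  filter_upwards [h1] with p hp hne
  have hpS : p ∈ sameSet c k := by
    by_contra h
    exact hne (by rw [repDens, Set.indicator_of_notMem h])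
  refine ⟨?_, hpS⟩
  rcases (wfun_nonneg γ c k p.2).lt_or_eq with h | h
  · exact h
  · exact absurd ⟨hpS, h.symm⟩ hp


lemma measurable_agree_f (c : X → Ω → C) (hc : Measurable (Function.uncurry c))
    (f : X → C → ℝ) (hf : Measurable (Function.uncurry f)) (k : ℕ) :
    Measurable fun p : X × (Fin (k + 1) → Ω) =>
      Set.indicator (sameSet c k) (fun p => f p.1 (c p.1 (p.2 0))) p :=
  (hf.comp (measurable_lab c hc k 0)).indicator (measurableSet_sameSet c hc k)

lemma indicator_section (c : X → Ω → C) (f : X → C → ℝ) (k : ℕ) (x : X)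
    (s : Fin (k + 1) → Ω) :
    Set.indicator {x | ∀ j, c x (s j) = c x (s 0)} (fun x => f x (c x (s 0))) x
      = Set.indicator (sameSet c k) (fun p => f p.1 (c p.1 (p.2 0))) (x, s) := by
  by_cases h : ∀ j, c x (s j) = c x (s 0)
  · have h1 : x ∈ {x | ∀ j, c x (s j) = c x (s 0)} := h
    have h2 : (x, s) ∈ sameSet c k := h
    rw [Set.indicator_of_mem h1, Set.indicator_of_mem h2]
  · have h1 : x ∉ {x | ∀ j, c x (s j) = c x (s 0)} := h
    have h2 : (x, s) ∉ sameSet c k := h
    rw [Set.indicator_of_notMem h1, Set.indicator_of_notMem h2]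

lemma measurable_afun (γ : Measure X) [IsProbabilityMeasure γ] (c : X → Ω → C)
    (hc : Measurable (Function.uncurry c)) (f : X → C → ℝ)
    (hf : Measurable (Function.uncurry f)) (k : ℕ) : Measurable (afun γ c f k) := by
  have h : Measurable (Function.uncurry fun (s : Fin (k + 1) → Ω) (x : X) =>
      Set.indicator (sameSet c k) (fun p => f p.1 (c p.1 (p.2 0))) (x, s)) :=
    (measurable_agree_f c hc f hf k).comp measurable_swap
  have h2 := (h.stronglyMeasurable.integral_prod_right (ν := γ)).measurable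
  have h3 : afun γ c f k = fun s => ∫ x,
      Set.indicator (sameSet c k) (fun p => f p.1 (c p.1 (p.2 0))) (x, s) ∂γ := by
    funext s
    refine integral_congr_ae (Filter.Eventually.of_forall fun x => ?_)
    exact indicator_section c f k x s
  rw [h3]
  exact h2

lemma afun_nonneg (γ : Measure X) (c : X → Ω → C) (f : X → C → ℝ) (hf0 : ∀ x a, 0 ≤ f x a)
    (k : ℕ) (s : Fin (k + 1) → Ω) : 0 ≤ afun γ c f k s :=
  integral_nonneg fun x => Set.indicator_nonneg (fun x _ => hf0 _ _) _

lemma integrable_agree (γ : Measure X) [IsProbabilityMeasure γ] (c : X → Ω → C)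
    (hc : Measurable (Function.uncurry c)) (f : X → C → ℝ)
    (hf : Measurable (Function.uncurry f)) (hf0 : ∀ x a, 0 ≤ f x a) (hf1 : ∀ x a, f x a ≤ 1)
    (k : ℕ) (s : Fin (k + 1) → Ω) :
    Integrable (fun x => Set.indicator {x | ∀ j, c x (s j) = c x (s 0)}
      (fun x => f x (c x (s 0))) x) γ := by
  have hm : Measurable fun x => Set.indicator {x | ∀ j, c x (s j) = c x (s 0)}
      (fun x => f x (c x (s 0))) x := by
    have h := (measurable_agree_f c hc f hf k).comp (measurable_prodMk_right (y := s))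
    have h3 : (fun x => Set.indicator {x | ∀ j, c x (s j) = c x (s 0)}
      (fun x => f x (c x (s 0))) x) = ((fun p : X × (Fin (k + 1) → Ω) =>
      Set.indicator (sameSet c k) (fun p => f p.1 (c p.1 (p.2 0))) p) ∘ fun x => (x, s)) := by
      funext x
      exact indicator_section c f k x s
    rw [h3]
    exact h
  refine Integrable.of_bound (C := 1) hm.aestronglyMeasurable
    (Filter.Eventually.of_forall fun x => ?_)
  rw [Real.norm_eq_abs, abs_of_nonneg (Set.indicator_nonneg (fun x _ => hf0 _ _) _)]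
  exact Set.indicator_le' (fun x _ => hf1 _ _) (fun x _ => zero_le_one) x

lemma afun_le_wfun (γ : Measure X) [IsProbabilityMeasure γ] (c : X → Ω → C)
    (hc : Measurable (Function.uncurry c)) (f : X → C → ℝ)
    (hf : Measurable (Function.uncurry f)) (hf0 : ∀ x a, 0 ≤ f x a) (hf1 : ∀ x a, f x a ≤ 1)
    (k : ℕ) (s : Fin (k + 1) → Ω) : afun γ c f k s ≤ wfun γ c k s := by
  have hms : MeasurableSet {x | ∀ j, c x (s j) = c x (s 0)} :=
    measurable_prodMk_right (y := s) (measurableSet_sameSet c hc k)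
  have h1 : wfun γ c k s
      = ∫ x, Set.indicator {x | ∀ j, c x (s j) = c x (s 0)} (fun _ => (1 : ℝ)) x ∂γ := by
    rw [integral_indicator hms]
    simp [wfun]
  rw [h1]
  refine integral_mono (integrable_agree γ c hc f hf hf0 hf1 k s)
    ((integrable_const (1 : ℝ)).indicator hms) fun x => ?_
  exact Set.indicator_le_indicator (hf1 _ _)

lemma lintegral_agree (γ : Measure X) [IsProbabilityMeasure γ] (c : X → Ω → C)
    (hc : Measurable (Function.uncurry c)) (f : X → C → ℝ)
    (hf : Measurable (Function.uncurry f)) (hf0 : ∀ x a, 0 ≤ f x a) (hf1 : ∀ x a, f x a ≤ 1)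
    (k : ℕ) (s : Fin (k + 1) → Ω) :
    ∫⁻ x, ENNReal.ofReal (Set.indicator (sameSet c k) (fun p => f p.1 (c p.1 (p.2 0))) (x, s)) ∂γ
      = ENNReal.ofReal (afun γ c f k s) := by
  rw [afun, ofReal_integral_eq_lintegral_ofReal (integrable_agree γ c hc f hf hf0 hf1 k s)
    (Filter.Eventually.of_forall fun x => Set.indicator_nonneg (fun x _ => hf0 _ _) _)]
  refine lintegral_congr fun x => ?_
  rw [indicator_section]

/-- upper bound for the integral of a function of the replicas times the k-th power of the cell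
probability -/
lemma lintegral_rep_le (R : Measure Ω) [IsProbabilityMeasure R] (γ : Measure X)
    [IsProbabilityMeasure γ] (c : X → Ω → C) (hc : Measurable (Function.uncurry c))
    (f : X → C → ℝ) (hf : Measurable (Function.uncurry f)) (hf0 : ∀ x a, 0 ≤ f x a)
    (hf1 : ∀ x a, f x a ≤ 1) (k : ℕ) (v : (Fin (k + 1) → Ω) → ℝ) (hv : Measurable v)
    (hv0 : ∀ s, 0 ≤ v s) :
    ∫⁻ p, ENNReal.ofReal (v p.2 * (R.real {t | c p.1 t = c p.1 (p.2 0)}) ^ k)
        ∂(repMeas R γ c (fun x a => ENNReal.ofReal (f x a)) k)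
      ≤ ∫⁻ s, ENNReal.ofReal (v s * afun γ c f k s) ∂(Measure.pi fun _ => R) := by
  have hg : Measurable (Function.uncurry fun x a => ENNReal.ofReal (f x a)) := hf.ennreal_ofReal
  have hD := measurable_repDens R c hc _ hg k
  have hrr : Measurable fun p : X × (Fin (k + 1) → Ω) => R.real {t | c p.1 t = c p.1 (p.2 0)} :=
    ((measurable_rE R c hc).comp (measurable_lab c hc k 0)).ennreal_toReal
  have hF : Measurable fun p : X × (Fin (k + 1) → Ω) =>
      ENNReal.ofReal (v p.2 * (R.real {t | c p.1 t = c p.1 (p.2 0)}) ^ k) :=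
    ((hv.comp measurable_snd).mul (hrr.pow_const k)).ennreal_ofReal
  rw [repMeas, lintegral_withDensity_eq_lintegral_mul _ hD hF]
  have hA := (measurable_agree_f c hc f hf k).ennreal_ofReal
  have hvm : Measurable fun p : X × (Fin (k + 1) → Ω) => ENNReal.ofReal (v p.2) :=
    (hv.comp measurable_snd).ennreal_ofReal
  calc ∫⁻ p : X × (Fin (k + 1) → Ω), ((repDens R c (fun x a => ENNReal.ofReal (f x a)) k) *
          (fun p : X × (Fin (k + 1) → Ω) =>
          ENNReal.ofReal (v p.2 * (R.real {t | c p.1 t = c p.1 (p.2 0)}) ^ k))) p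
          ∂(γ.prod (Measure.pi fun _ => R))
      ≤ ∫⁻ p : X × (Fin (k + 1) → Ω), ((fun p : X × (Fin (k + 1) → Ω) => ENNReal.ofReal (v p.2)) *
          (fun p : X × (Fin (k + 1) → Ω) => ENNReal.ofReal
          (Set.indicator (sameSet c k) (fun p => f p.1 (c p.1 (p.2 0))) p))) p
          ∂(γ.prod (Measure.pi fun _ => R)) := by
        refine lintegral_mono fun p => ?_
        rw [Pi.mul_apply, Pi.mul_apply]
        by_cases hp : p ∈ sameSet c k
        · have h0 : repDens R c (fun x a => ENNReal.ofReal (f x a)) k p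
              = (rE R c p.1 (c p.1 (p.2 0)))⁻¹ ^ k * ENNReal.ofReal (f p.1 (c p.1 (p.2 0))) := by
            rw [repDens, Set.indicator_of_mem hp]
          rw [h0, Set.indicator_of_mem hp,
            ENNReal.ofReal_mul (hv0 _), ENNReal.ofReal_pow measureReal_nonneg]
          have h1 : ENNReal.ofReal (R.real {t | c p.1 t = c p.1 (p.2 0)})
              = rE R c p.1 (c p.1 (p.2 0)) := by
            rw [rE, ofReal_measureReal]
          rw [h1]
          calc (rE R c p.1 (c p.1 (p.2 0)))⁻¹ ^ k * ENNReal.ofReal (f p.1 (c p.1 (p.2 0)))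
                * (ENNReal.ofReal (v p.2) * rE R c p.1 (c p.1 (p.2 0)) ^ k)
              = ((rE R c p.1 (c p.1 (p.2 0)))⁻¹ * rE R c p.1 (c p.1 (p.2 0))) ^ k
                * (ENNReal.ofReal (v p.2) * ENNReal.ofReal (f p.1 (c p.1 (p.2 0)))) := by
                rw [mul_pow]; ring
            _ ≤ 1 * (ENNReal.ofReal (v p.2) * ENNReal.ofReal (f p.1 (c p.1 (p.2 0)))) := by
                gcongr
                exact pow_le_one₀ zero_le (ENNReal.inv_mul_le_one _)
            _ = _ := one_mul _
        · have h0 : repDens R c (fun x a => ENNReal.ofReal (f x a)) k p = 0 := by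
            rw [repDens, Set.indicator_of_notMem hp]
          rw [h0, zero_mul]
          exact zero_le
    _ = ∫⁻ s, ENNReal.ofReal (v s * afun γ c f k s) ∂(Measure.pi fun _ => R) := by
        rw [lintegral_prod_symm _ (hvm.mul hA).aemeasurable]
        refine lintegral_congr fun s => ?_
        rw [ENNReal.ofReal_mul (hv0 s), ← lintegral_agree γ c hc f hf hf0 hf1 k s]
        exact lintegral_const_mul (ENNReal.ofReal (v s))
          (f := fun x => ENNReal.ofReal
            (Set.indicator (sameSet c k) (fun p => f p.1 (c p.1 (p.2 0))) (x, s)))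
          (hA.comp (measurable_prodMk_right (y := s)))

lemma ae_rr_pos (R : Measure Ω) [IsProbabilityMeasure R] (γ : Measure X)
    [IsProbabilityMeasure γ] (c : X → Ω → C) (hc : Measurable (Function.uncurry c)) :
    ∀ᵐ q ∂(γ.prod R), 0 < R.real {t | c q.1 t = c q.1 q.2} := by
  have hm : Measurable fun q : X × Ω => R.real {t | c q.1 t = c q.1 q.2} :=
    ((measurable_rE R c hc).comp (measurable_fst.prodMk hc)).ennreal_toReal
  have hs : MeasurableSet {q : X × Ω | 0 < R.real {t | c q.1 t = c q.1 q.2}} :=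
    measurableSet_lt measurable_const hm
  have h : ∀ᵐ q ∂(γ.prod R), q ∈ {q : X × Ω | 0 < R.real {t | c q.1 t = c q.1 q.2}} := by
    rw [Measure.ae_prod_mem_iff_ae_ae_mem hs]
    refine Filter.Eventually.of_forall fun x => ?_
    filter_upwards [ae_rE_pos R (c x) (hc.comp measurable_prodMk_left)] with t ht
    exact ENNReal.toReal_pos ht (measure_ne_top _ _)
  exact h

/-- the product density -/
def ufun (K : Ω → ℝ) (Kb : ℝ) (k : ℕ) (s : Fin (k + 1) → Ω) : ℝ := Kb * ∏ j, (K (s j) / Kb)

lemma integral_ufun (R : Measure Ω) [IsProbabilityMeasure R] (K : Ω → ℝ) (k : ℕ)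
    (h0 : 0 ≤ ∫ t, K t ∂(R)) :
    ∫ s, ufun K (∫ t, K t ∂(R)) k s ∂(Measure.pi fun _ => R) ≤ ∫ t, K t ∂(R) := by
  set Kb := ∫ t, K t ∂(R)
  have h1 : ∫ s, ufun K Kb k s ∂(Measure.pi fun _ => R)
      = Kb * ∏ _j : Fin (k + 1), ∫ t, K t / Kb ∂(R) := by
    simp only [ufun]
    rw [integral_const_mul]
    congr 1
    exact integral_fintype_prod_eq_prod (fun _ t => K t / Kb)
  rw [h1]
  have h2 : ∫ t, K t / Kb ∂(R) = Kb / Kb := integral_div _ _
  rw [h2]
  have h3 : (∏ _j : Fin (k + 1), Kb / Kb) ≤ 1 :=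
    Finset.prod_le_one (fun _ _ => div_nonneg h0 h0) (fun _ _ => div_self_le_one Kb)
  calc Kb * ∏ _j : Fin (k + 1), Kb / Kb ≤ Kb * 1 := mul_le_mul_of_nonneg_left h3 h0
    _ = Kb := mul_one _

lemma ufun_nonneg (K : Ω → ℝ) (hK : ∀ s, 0 ≤ K s) (Kb : ℝ) (hKb : 0 ≤ Kb) (k : ℕ)
    (s : Fin (k + 1) → Ω) : 0 ≤ ufun K Kb k s :=
  mul_nonneg hKb (Finset.prod_nonneg fun _ _ => div_nonneg (hK _) hKb)

lemma measurable_ufun (K : Ω → ℝ) (hK : Measurable K) (Kb : ℝ) (k : ℕ) :
    Measurable (ufun K Kb k) := by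
  refine measurable_const.mul ?_
  exact Finset.measurable_prod _ fun j _ => (hK.comp (measurable_pi_apply j)).div_const Kb

lemma integrable_ufun (R : Measure Ω) [IsProbabilityMeasure R] (K : Ω → ℝ)
    (hK : Measurable K) (hK0 : ∀ s, 0 ≤ K s) (hK1 : ∀ s, K s ≤ 1) (Kb : ℝ) (hKb : 0 ≤ Kb) (k : ℕ) :
    Integrable (ufun K Kb k) (Measure.pi fun _ => R) := by
  refine Integrable.of_bound (C := Kb * ∏ _j : Fin (k + 1), 1 / Kb)
    (measurable_ufun K hK Kb k).aestronglyMeasurable (Filter.Eventually.of_forall fun s => ?_)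
  rw [Real.norm_eq_abs, abs_of_nonneg (ufun_nonneg K hK0 Kb hKb k s)]
  refine mul_le_mul_of_nonneg_left ?_ hKb
  refine Finset.prod_le_prod (fun _ _ => div_nonneg (hK0 _) hKb) fun j _ => ?_
  exact div_le_div_of_nonneg_right (hK1 _) hKb

lemma integrable_mul_log_div (R : Measure Ω) [IsProbabilityMeasure R] (K : Ω → ℝ)
    (hK : Measurable K) (hK0 : ∀ s, 0 ≤ K s) (hK1 : ∀ s, K s ≤ 1) (Kb : ℝ) :
    Integrable (fun s => K s * Real.log (K s / Kb)) R := by
  by_cases hKb : Kb = 0
  · simp [hKb]
  obtain ⟨B, hB⟩ := isCompact_Icc.exists_bound_of_continuousOn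
    (Real.continuous_mul_log.continuousOn (s := Set.Icc (0 : ℝ) 1))
  have h1 : ∀ s, K s * Real.log (K s / Kb) = K s * Real.log (K s) - K s * Real.log Kb := by
    intro s
    by_cases hs : K s = 0
    · simp [hs]
    · rw [Real.log_div hs hKb]; ring
  simp only [h1]
  refine Integrable.sub ?_ ?_
  · refine Integrable.of_bound (C := B) (hK.mul hK.log).aestronglyMeasurable
      (Filter.Eventually.of_forall fun s => hB (K s) ⟨hK0 s, hK1 s⟩)
  · refine Integrable.of_bound (C := |Real.log Kb|)
      (hK.mul measurable_const).aestronglyMeasurable (Filter.Eventually.of_forall fun s => ?_)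
    rw [Real.norm_eq_abs, abs_mul, abs_of_nonneg (hK0 s)]
    exact mul_le_of_le_one_left (abs_nonneg _) (hK1 s)

/-- the pointwise logarithm inequality -/
lemma log_ineq {k : ℕ} (a : Fin (k + 1) → ℝ) (ha : ∀ j, 0 < a j) (Kb r w Mw : ℝ) (hKb : 0 < Kb)
    (hr : 0 < r) (hw : 0 < w) (hMw : 0 < Mw) :
    ∑ j, Real.log (a j) + Real.log Kb + 2 * k * Real.log r - Real.log Mw
      ≤ ((Kb * ∏ j, a j) / w) * r ^ k + (w / Mw) * r ^ k - 2 := by
  have hprod : 0 < ∏ j, a j := Finset.prod_pos fun j _ => ha j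
  have h1 := Real.log_le_sub_one_of_pos
    (show 0 < ((Kb * ∏ j, a j) / w) * r ^ k by positivity)
  have h2 := Real.log_le_sub_one_of_pos (show 0 < (w / Mw) * r ^ k by positivity)
  rw [Real.log_mul (by positivity) (by positivity), Real.log_div (by positivity) hw.ne',
    Real.log_mul hKb.ne' hprod.ne', Real.log_prod (fun j _ => (ha j).ne'), Real.log_pow] at h1
  rw [Real.log_mul (by positivity) (by positivity), Real.log_div hw.ne' hMw.ne',
    Real.log_pow] at h2
  linarith

/-- the inequality for one value of the output -/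
lemma single_bound (R : Measure Ω) [IsProbabilityMeasure R] (γ : Measure X)
    [IsProbabilityMeasure γ] (c : X → Ω → C) (hc : Measurable (Function.uncurry c))
    (f : X → C → ℝ) (hf : Measurable (Function.uncurry f)) (hf0 : ∀ x a, 0 ≤ f x a)
    (hf1 : ∀ x a, f x a ≤ 1) (k : ℕ) (Mw : ℝ) (hMw : 0 < Mw)
    (hint : Integrable (fun p : X × Ω => Real.log (R.real {t | c p.1 t = c p.1 p.2})) (γ.prod R)) :
    ((k : ℝ) + 1) * ∫ s, kav γ c f s * Real.log (kav γ c f s / ∫ t, kav γ c f t ∂(R)) ∂(R)
      + (∫ t, kav γ c f t ∂(R)) * Real.log (∫ t, kav γ c f t ∂(R))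
      + 2 * k * ∫ q : X × Ω, f q.1 (c q.1 q.2)
          * Real.log (R.real {t | c q.1 t = c q.1 q.2}) ∂(γ.prod R)
      - (∫ t, kav γ c f t ∂(R)) * Real.log Mw
    ≤ (∫ s, wfun γ c k s * afun γ c f k s ∂(Measure.pi fun _ => R)) / Mw
      - ∫ t, kav γ c f t ∂(R) := by
  set K := kav γ c f with hKdef
  set Kb := ∫ t, K t ∂(R) with hKb
  set J := repMeas R γ c (fun x a => ENNReal.ofReal (f x a)) k with hJ
  set w := wfun γ c k with hw
  have hK0 : ∀ s, 0 ≤ K s := kav_nonneg γ c f hf0
  have hK1 : ∀ s, K s ≤ 1 := kav_le_one γ c f hf0 hf1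
  have hKm : Measurable K := measurable_kav γ c hc f hf
  have hKb0 : 0 ≤ Kb := integral_nonneg hK0
  have hwm : Measurable w := measurable_wfun γ c hc k
  have hw0 : ∀ s, 0 ≤ w s := wfun_nonneg γ c k
  have hw1 : ∀ s, w s ≤ 1 := wfun_le_one γ c k
  have ham : Measurable (afun γ c f k) := measurable_afun γ c hc f hf k
  have ha0 : ∀ s, 0 ≤ afun γ c f k s := afun_nonneg γ c f hf0 k
  have haw : ∀ s, afun γ c f k s ≤ w s := afun_le_wfun γ c hc f hf hf0 hf1 k
  have hJu : J Set.univ = ENNReal.ofReal Kb := repMeas_univ R γ c hc f hf hf0 hf1 k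
  have : IsFiniteMeasure J := ⟨by rw [hJu]; exact ENNReal.ofReal_lt_top⟩
  have hJr : J.real Set.univ = Kb := by
    rw [measureReal_def, hJu, ENNReal.toReal_ofReal hKb0]
  have hg : Measurable (Function.uncurry fun x a => ENNReal.ofReal (f x a)) := hf.ennreal_ofReal
  have hrrm : Measurable fun q : X × Ω => R.real {t | c q.1 t = c q.1 q.2} :=
    ((measurable_rE R c hc).comp (measurable_fst.prodMk hc)).ennreal_toReal
  -- integrability of the entropy integrand
  have hKlog : Integrable (fun s => K s * Real.log (K s / Kb)) R :=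
    integrable_mul_log_div R K hKm hK0 hK1 Kb
  -- the terms
  have hone := fun j => integral_rep_one R γ c hc f hf hf0 hf1 k j
    (fun s => Real.log (K s / Kb)) ((hKm.div_const Kb).log) hKlog
  have htwo := integral_rep_two R γ c hc f hf hf0 hf1 k 0
    (fun q => Real.log (R.real {t | c q.1 t = c q.1 q.2})) hrrm.log hint
  obtain ⟨htwo1, htwo2, -⟩ := htwo
  set rr : X × (Fin (k + 1) → Ω) → ℝ := fun p => R.real {t | c p.1 t = c p.1 (p.2 0)} with hrr
  have hrr0 : ∀ p, 0 ≤ rr p := fun p => measureReal_nonneg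
  have hrrm' : Measurable rr :=
    ((measurable_rE R c hc).comp (measurable_lab c hc k 0)).ennreal_toReal
  set t1 : X × (Fin (k + 1) → Ω) → ℝ := fun p => (ufun K Kb k p.2 / w p.2) * rr p ^ k with ht1
  set t2 : X × (Fin (k + 1) → Ω) → ℝ := fun p => (w p.2 / Mw) * rr p ^ k with ht2
  have hum := measurable_ufun K hKm Kb k
  have hu0 := ufun_nonneg K hK0 Kb hKb0 k
  have ht1m : Measurable t1 := ((hum.div hwm).comp measurable_snd).mul (hrrm'.pow_const k)
  have ht2m : Measurable t2 := ((hwm.div_const Mw).comp measurable_snd).mul (hrrm'.pow_const k)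
  have ht10 : ∀ p, 0 ≤ t1 p := fun p =>
    mul_nonneg (div_nonneg (hu0 _) (hw0 _)) (pow_nonneg (hrr0 _) _)
  have ht20 : ∀ p, 0 ≤ t2 p := fun p =>
    mul_nonneg (div_nonneg (hw0 _) hMw.le) (pow_nonneg (hrr0 _) _)
  -- first comparison integral
  have hl1 : ∫⁻ p, ENNReal.ofReal (t1 p) ∂J ≤ ENNReal.ofReal Kb := by
    have h := lintegral_rep_le R γ c hc f hf hf0 hf1 k (fun s => ufun K Kb k s / w s)
      (hum.div hwm) (fun s => div_nonneg (hu0 _) (hw0 _))
    refine h.trans ?_
    calc ∫⁻ s, ENNReal.ofReal (ufun K Kb k s / w s * afun γ c f k s) ∂(Measure.pi fun _ => R)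
        ≤ ∫⁻ s, ENNReal.ofReal (ufun K Kb k s) ∂(Measure.pi fun _ => R) := by
          refine lintegral_mono fun s => ENNReal.ofReal_le_ofReal ?_
          rcases (hw0 s).lt_or_eq with h | h
          · calc ufun K Kb k s / w s * afun γ c f k s ≤ ufun K Kb k s / w s * w s :=
                mul_le_mul_of_nonneg_left (haw s) (div_nonneg (hu0 _) (hw0 _))
              _ = ufun K Kb k s := div_mul_cancel₀ _ h.ne'
          · rw [← h, div_zero, zero_mul]; exact hu0 s
      _ = ENNReal.ofReal (∫ s, ufun K Kb k s ∂(Measure.pi fun _ => R)) :=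
          (ofReal_integral_eq_lintegral_ofReal (integrable_ufun R K hKm hK0 hK1 Kb hKb0 k)
            (Filter.Eventually.of_forall hu0)).symm
      _ ≤ ENNReal.ofReal Kb := ENNReal.ofReal_le_ofReal (integral_ufun R K k hKb0)
  have hwa : Integrable (fun s => w s * afun γ c f k s) (Measure.pi fun _ => R) := by
    refine Integrable.of_bound (C := 1) (hwm.mul ham).aestronglyMeasurable
      (Filter.Eventually.of_forall fun s => ?_)
    rw [Real.norm_eq_abs, abs_of_nonneg (mul_nonneg (hw0 _) (ha0 _))]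
    exact mul_le_one₀ (hw1 s) (ha0 s) ((haw s).trans (hw1 s))
  have hl2 : ∫⁻ p, ENNReal.ofReal (t2 p) ∂J
      ≤ ENNReal.ofReal ((∫ s, w s * afun γ c f k s ∂(Measure.pi fun _ => R)) / Mw) := by
    have h := lintegral_rep_le R γ c hc f hf hf0 hf1 k (fun s => w s / Mw)
      (hwm.div_const Mw) (fun s => div_nonneg (hw0 _) hMw.le)
    refine h.trans (le_of_eq ?_)
    rw [← integral_div, ofReal_integral_eq_lintegral_ofReal (hwa.div_const Mw)
      (Filter.Eventually.of_forall fun s => div_nonneg (mul_nonneg (hw0 _) (ha0 _)) hMw.le)]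
    refine lintegral_congr fun s => ?_
    congr 1
    ring
  have hi1 : Integrable t1 J := by
    refine ⟨ht1m.aestronglyMeasurable, ?_⟩
    rw [hasFiniteIntegral_iff_ofReal (Filter.Eventually.of_forall ht10)]
    exact hl1.trans_lt ENNReal.ofReal_lt_top
  have hi2 : Integrable t2 J := by
    refine ⟨ht2m.aestronglyMeasurable, ?_⟩
    rw [hasFiniteIntegral_iff_ofReal (Filter.Eventually.of_forall ht20)]
    exact hl2.trans_lt ENNReal.ofReal_lt_top
  have hI1 : ∫ p, t1 p ∂J ≤ Kb := by
    rw [integral_eq_lintegral_of_nonneg_ae (Filter.Eventually.of_forall ht10)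
      ht1m.aestronglyMeasurable]
    exact ENNReal.toReal_le_of_le_ofReal hKb0 hl1
  have hI2 : ∫ p, t2 p ∂J ≤ (∫ s, w s * afun γ c f k s ∂(Measure.pi fun _ => R)) / Mw := by
    rw [integral_eq_lintegral_of_nonneg_ae (Filter.Eventually.of_forall ht20)
      ht2m.aestronglyMeasurable]
    exact ENNReal.toReal_le_of_le_ofReal (div_nonneg (integral_nonneg fun s =>
      mul_nonneg (hw0 _) (ha0 _)) hMw.le) hl2
  -- pointwise inequality
  have hae : ∀ᵐ p ∂J, ∑ j, Real.log (K (p.2 j) / Kb) + Real.log Kb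
      + 2 * k * Real.log (rr p) - Real.log Mw ≤ t1 p + t2 p - 2 := by
    by_cases hKb1 : Kb = 0
    · have hJ0 : J = 0 := by
        rw [← Measure.measure_univ_eq_zero, hJu, hKb1, ENNReal.ofReal_zero]
      rw [hJ0, ae_zero]
      exact Filter.eventually_bot
    have hKb2 : 0 < Kb := lt_of_le_of_ne hKb0 (Ne.symm hKb1)
    have e1 : ∀ᵐ p ∂J, 0 < w p.2 ∧ p ∈ sameSet c k := ae_wfun_pos R γ c hc _ hg k
    have e2 : ∀ᵐ p ∂J, 0 < rr p := by
      have hm : Measurable fun p : X × (Fin (k + 1) → Ω) => (p.1, p.2 0) :=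
        measurable_fst.prodMk ((measurable_pi_apply 0).comp measurable_snd)
      have h0 : ∀ᵐ q ∂(J.map fun p => (p.1, p.2 0)), 0 < R.real {t | c q.1 t = c q.1 q.2} := by
        rw [hJ, map_repMeas R γ c hc _ hg k 0]
        exact (withDensity_absolutelyContinuous _ _).ae_le (ae_rr_pos R γ c hc)
      exact ae_of_ae_map hm.aemeasurable h0
    have e3 : ∀ᵐ p ∂J, ∀ j, 0 < K (p.2 j) := by
      rw [ae_all_iff]
      intro j
      have hm : Measurable fun p : X × (Fin (k + 1) → Ω) => p.2 j :=
        (measurable_pi_apply j).comp measurable_snd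
      have h0 : ∀ᵐ q ∂(J.map fun p => p.2 j), 0 < K q := by
        rw [hJ, map_rep_one R γ c hc f hf hf0 hf1 k j, ae_withDensity_iff hKm.ennreal_ofReal]
        refine Filter.Eventually.of_forall fun s hs => ?_
        by_contra hcon
        exact hs (ENNReal.ofReal_eq_zero.2 (not_lt.1 hcon))
      exact ae_of_ae_map hm.aemeasurable h0
    filter_upwards [e1, e2, e3] with p hp1 hp2 hp3
    exact log_ineq (fun j => K (p.2 j) / Kb) (fun j => div_pos (hp3 j) hKb2) Kb (rr p) (w p.2) Mw
      hKb2 hp2 hp1.1 hMw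
  have hsum : Integrable (fun p : X × (Fin (k + 1) → Ω) => ∑ j, Real.log (K (p.2 j) / Kb)) J :=
    integrable_finset_sum _ fun j _ => (hone j).1
  have hmono := integral_mono_ae (μ := J)
    (((hsum.add (integrable_const (Real.log Kb))).add
      (htwo1.const_mul (2 * (k : ℝ)))).sub (integrable_const (Real.log Mw)))
    ((hi1.add hi2).sub (integrable_const 2)) hae
  rw [integral_sub' ((hsum.add (integrable_const (Real.log Kb))).add
      (htwo1.const_mul (2 * (k : ℝ)))) (integrable_const (Real.log Mw)),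
    integral_sub' (hi1.add hi2) (integrable_const 2)] at hmono
  rw [integral_add' (hsum.add (integrable_const (Real.log Kb))) (htwo1.const_mul (2 * (k : ℝ))),
    integral_add' hsum (integrable_const (Real.log Kb)), integral_add' hi1 hi2,
    integral_const, integral_const, integral_const, integral_const_mul, htwo2,
    integral_finset_sum _ (fun j _ => (hone j).1), hJr] at hmono
  have hS : ∑ j : Fin (k + 1), ∫ p, Real.log (K (p.2 j) / Kb) ∂J
      = ((k : ℝ) + 1) * ∫ s, K s * Real.log (K s / Kb) ∂(R) := by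
    rw [Finset.sum_congr rfl fun j _ => (hone j).2, Finset.sum_const, Finset.card_univ,
      Fintype.card_fin, nsmul_eq_mul]
    push_cast
    rfl
  rw [hS] at hmono
  simp only [smul_eq_mul] at hmono
  linarith


lemma entropy_le {Q : Type*} [Fintype Q] [Nonempty Q] (b : Q → ℝ) (hb : ∀ W, 0 ≤ b W)
    (hb1 : ∑ W, b W = 1) : -∑ W, b W * Real.log (b W) ≤ Real.log (Fintype.card Q) := by
  have hn : (0 : ℝ) < Fintype.card Q := by exact_mod_cast Fintype.card_pos
  have h : ∀ W, -(b W * Real.log (b W)) - b W * Real.log (Fintype.card Q)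
      ≤ 1 / Fintype.card Q - b W := by
    intro W
    rcases (hb W).lt_or_eq with h | h
    · have h1 := Real.log_le_sub_one_of_pos (show 0 < 1 / (b W * Fintype.card Q) by positivity)
      rw [Real.log_div one_ne_zero (by positivity), Real.log_one,
        Real.log_mul h.ne' hn.ne'] at h1
      have h2 := mul_le_mul_of_nonneg_left h1 h.le
      have h3 : b W * (1 / (b W * Fintype.card Q) - 1) = 1 / Fintype.card Q - b W := by
        field_simp
      rw [h3] at h2
      linarith
    · rw [← h]; simp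
  have h4 := Finset.sum_le_sum fun W (_ : W ∈ Finset.univ) => h W
  rw [Finset.sum_sub_distrib, Finset.sum_sub_distrib, Finset.sum_neg_distrib, ← Finset.sum_mul,
    hb1, Finset.sum_const, Finset.card_univ, nsmul_eq_mul, mul_one_div_cancel hn.ne'] at h4
  linarith

end

/-- Replica inequality (abstract form). `c X s` is the cell of the label of `s` under the rows `X`,
`ρ.real {s' | c X s' = c X s}` the posterior mass of that cell. -/
theorem replica_bound {Xi Ω ι Q : Type*} [MeasurableSpace Xi] [MeasurableSpace Ω]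
    [MeasurableSpace ι] [Countable ι] [MeasurableSingletonClass ι] [Fintype Q] [Nonempty Q]
    (γ : Measure Xi) [IsProbabilityMeasure γ] (ρ : Measure Ω) [IsProbabilityMeasure ρ]
    (c : Xi → Ω → ι) (hc : Measurable (Function.uncurry c))
    (f : Q → Xi → ι → ℝ) (hf : ∀ W, Measurable (Function.uncurry (f W)))
    (hf0 : ∀ W X i, 0 ≤ f W X i) (hf1 : ∀ W X i, f W X i ≤ 1)
    (hfs : ∀ᵐ z ∂(γ.prod ρ), ∑ W, f W z.1 (c z.1 z.2) = 1)
    (m : ℕ) (J Mw : ℝ) (hJ0 : 0 ≤ J) (hMw0 : 0 < Mw)
    (hJ : ∫⁻ X, ∫⁻ s, ENNReal.ofReal (-Real.log (ρ.real {s' | c X s' = c X s})) ∂ρ ∂γ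
      ≤ ENNReal.ofReal J)
    (hMw : ∫⁻ s : Fin (m + 1) → Ω, (γ {X | ∀ i, c X (s i) = c X (s 0)}) ^ 2
        ∂(Measure.pi fun _ => ρ) ≤ ENNReal.ofReal Mw) :
    (m + 1) * infoR ρ (fun W s => ∫ X, f W X (c X s) ∂γ)
      ≤ Real.log (Fintype.card Q) + 2 * m * J + Real.log Mw := by
  have hrrm : Measurable fun q : Xi × Ω => ρ.real {t | c q.1 t = c q.1 q.2} :=
    ((measurable_rE ρ c hc).comp (measurable_fst.prodMk hc)).ennreal_toReal
  have hlog0 : ∀ q : Xi × Ω, 0 ≤ -Real.log (ρ.real {t | c q.1 t = c q.1 q.2}) := fun q =>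
    neg_nonneg.2 (Real.log_nonpos measureReal_nonneg measureReal_le_one)
  have hJ' : ∫⁻ q : Xi × Ω, ENNReal.ofReal (-Real.log (ρ.real {t | c q.1 t = c q.1 q.2}))
      ∂(γ.prod ρ) ≤ ENNReal.ofReal J := by
    have hnm : Measurable fun q : Xi × Ω => ENNReal.ofReal
        (-Real.log (ρ.real {t | c q.1 t = c q.1 q.2})) := hrrm.log.neg.ennreal_ofReal
    rw [lintegral_prod _ hnm.aemeasurable]
    exact hJ
  have hint' : Integrable (fun q : Xi × Ω => -Real.log (ρ.real {t | c q.1 t = c q.1 q.2}))
      (γ.prod ρ) := by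
    refine ⟨hrrm.log.neg.aestronglyMeasurable, ?_⟩
    rw [hasFiniteIntegral_iff_ofReal (Filter.Eventually.of_forall hlog0)]
    exact hJ'.trans_lt ENNReal.ofReal_lt_top
  have hint : Integrable (fun q : Xi × Ω => Real.log (ρ.real {t | c q.1 t = c q.1 q.2}))
      (γ.prod ρ) := by
    simpa using hint'.neg
  have hIJ : -∫ q : Xi × Ω, Real.log (ρ.real {t | c q.1 t = c q.1 q.2}) ∂(γ.prod ρ) ≤ J := by
    rw [← integral_neg, integral_eq_lintegral_of_nonneg_ae (Filter.Eventually.of_forall hlog0)
      hrrm.log.neg.aestronglyMeasurable]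
    exact ENNReal.toReal_le_of_le_ofReal hJ0 hJ'
  have hsb := fun W => single_bound ρ γ c hc (f W) (hf W) (hf0 W) (hf1 W) m Mw hMw0 hint
  have hsum := Finset.sum_le_sum fun W (_ : W ∈ Finset.univ) => hsb W
  -- the averages sum to one
  have hki : ∀ W, Integrable (kav γ c (f W)) ρ := fun W =>
    integrable_kav ρ γ c hc (f W) (hf W) (hf0 W) (hf1 W)
  have hfi : ∀ W, Integrable (fun q : Xi × Ω => f W q.1 (c q.1 q.2)) (γ.prod ρ) := by
    intro W
    refine Integrable.of_bound (C := 1) ((hf W).comp (measurable_fst.prodMk hc)).aestronglyMeasurable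
      (Filter.Eventually.of_forall fun q => ?_)
    rw [Real.norm_eq_abs, abs_of_nonneg (hf0 _ _ _)]
    exact hf1 _ _ _
  have hKbI : ∀ W, ∫ t, kav γ c (f W) t ∂ρ = ∫ q, f W q.1 (c q.1 q.2) ∂(γ.prod ρ) := fun W =>
    (integral_prod_symm _ (hfi W)).symm
  have hKb1 : ∑ W, ∫ t, kav γ c (f W) t ∂ρ = 1 := by
    rw [Finset.sum_congr rfl fun W _ => hKbI W, ← integral_finset_sum _ fun W _ => hfi W,
      integral_congr_ae hfs]
    simp
  have hflog : ∑ W, ∫ q : Xi × Ω, f W q.1 (c q.1 q.2)
          * Real.log (ρ.real {t | c q.1 t = c q.1 q.2}) ∂(γ.prod ρ)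
      = ∫ q : Xi × Ω, Real.log (ρ.real {t | c q.1 t = c q.1 q.2}) ∂(γ.prod ρ) := by
    rw [← integral_finset_sum _ fun W _ => (integral_rep_two ρ γ c hc (f W) (hf W) (hf0 W)
      (hf1 W) m 0 _ hrrm.log hint).2.2]
    refine integral_congr_ae ?_
    filter_upwards [hfs] with q hq
    rw [← Finset.sum_mul, hq, one_mul]
  -- the sum of the masses on the agreement event
  have hw0 : ∀ s, 0 ≤ wfun γ c m s := wfun_nonneg γ c m
  have hw1 : ∀ s, wfun γ c m s ≤ 1 := wfun_le_one γ c m
  have hwm : Measurable (wfun γ c m) := measurable_wfun γ c hc m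
  have hwa : ∀ W, Integrable (fun s => wfun γ c m s * afun γ c (f W) m s)
      (Measure.pi fun _ => ρ) := by
    intro W
    refine Integrable.of_bound (C := 1)
      (hwm.mul (measurable_afun γ c hc (f W) (hf W) m)).aestronglyMeasurable
      (Filter.Eventually.of_forall fun s => ?_)
    rw [Real.norm_eq_abs, abs_of_nonneg (mul_nonneg (hw0 _) (afun_nonneg γ c (f W) (hf0 W) m s))]
    exact mul_le_one₀ (hw1 s) (afun_nonneg γ c (f W) (hf0 W) m s)
      ((afun_le_wfun γ c hc (f W) (hf W) (hf0 W) (hf1 W) m s).trans (hw1 s))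
  have hgood : ∀ᵐ s : Fin (m + 1) → Ω ∂(Measure.pi fun _ => ρ),
      ∑ W, afun γ c (f W) m s = wfun γ c m s := by
    have hG : ∀ᵐ t ∂ρ, ∀ᵐ x ∂γ, ∑ W, f W x (c x t) = 1 := by
      have h1 : ∀ᵐ z ∂(ρ.prod γ), ∑ W, f W z.2 (c z.2 z.1) = 1 := by
        have h2 := (Measure.measurePreserving_swap (μ := ρ) (ν := γ)).quasiMeasurePreserving.ae hfs
        exact h2
      exact Measure.ae_ae_of_ae_prod h1
    have hev := (Measure.quasiMeasurePreserving_eval (μ := fun _ : Fin (m + 1) => ρ) 0).ae hG
    filter_upwards [hev] with s hs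
    have hms : MeasurableSet {x | ∀ j, c x (s j) = c x (s 0)} :=
      measurable_prodMk_right (y := s) (measurableSet_sameSet c hc m)
    have hw : wfun γ c m s
        = ∫ x, Set.indicator {x | ∀ j, c x (s j) = c x (s 0)} (fun _ => (1 : ℝ)) x ∂γ := by
      rw [integral_indicator hms]
      simp [wfun]
    simp only [afun]
    rw [hw, ← integral_finset_sum _ fun W _ =>
      integrable_agree γ c hc (f W) (hf W) (hf0 W) (hf1 W) m s]
    refine integral_congr_ae ?_
    filter_upwards [hs] with x hx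
    by_cases hxs : x ∈ {x | ∀ j, c x (s j) = c x (s 0)}
    · simp only [Set.indicator_of_mem hxs]
      exact hx
    · simp only [Set.indicator_of_notMem hxs, Finset.sum_const_zero]
  have hww : ∑ W, ∫ s, wfun γ c m s * afun γ c (f W) m s ∂(Measure.pi fun _ => ρ)
      ≤ Mw := by
    rw [← integral_finset_sum _ fun W _ => hwa W]
    have h1 : ∫ s, ∑ W, wfun γ c m s * afun γ c (f W) m s ∂(Measure.pi fun _ => ρ)
        = ∫ s, wfun γ c m s ^ 2 ∂(Measure.pi fun _ => ρ) := by
      refine integral_congr_ae ?_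
      filter_upwards [hgood] with s hs
      rw [← Finset.mul_sum, hs, sq]
    rw [h1, integral_eq_lintegral_of_nonneg_ae
      (Filter.Eventually.of_forall fun s => sq_nonneg _) (hwm.pow_const 2).aestronglyMeasurable]
    refine ENNReal.toReal_le_of_le_ofReal hMw0.le (le_trans (le_of_eq ?_) hMw)
    refine lintegral_congr fun s => ?_
    rw [ENNReal.ofReal_pow (hw0 s), wfun, ofReal_measureReal]
  -- conclusion
  have hent := entropy_le (fun W => ∫ t, kav γ c (f W) t ∂ρ)
    (fun W => integral_nonneg (kav_nonneg γ c (f W) (hf0 W))) hKb1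
  rw [Finset.sum_sub_distrib, Finset.sum_add_distrib, Finset.sum_add_distrib, ← Finset.mul_sum,
    ← Finset.mul_sum, hflog, ← Finset.sum_mul, hKb1, Finset.sum_sub_distrib, hKb1,
    ← Finset.sum_div] at hsum
  have hinfo : infoR ρ (fun W s => ∫ X, f W X (c X s) ∂γ)
      = ∑ W, ∫ s, kav γ c (f W) s
          * Real.log (kav γ c (f W) s / ∫ t, kav γ c (f W) t ∂ρ) ∂ρ := rfl
  have hdiv : (∑ W, ∫ s, wfun γ c m s * afun γ c (f W) m s ∂(Measure.pi fun _ => ρ)) / Mw ≤ 1 :=
    (div_le_one hMw0).2 hww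
  have hmJ : (2 * m : ℝ) * -∫ q : Xi × Ω, Real.log (ρ.real {t | c q.1 t = c q.1 q.2}) ∂(γ.prod ρ)
      ≤ 2 * m * J := mul_le_mul_of_nonneg_left hIJ (by positivity)
  rw [hinfo]
  linarith

end Vale.Agent.P309
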