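import Vale.Agent.Lib.P309.Core

open MeasureTheory ProbabilityTheory
open scoped Pointwise

namespace Vale.Agent.P309

/-- Volume of the part of a ball near a subspace. -/
theorem volume_tube {d : ℕ} (L : Submodule ℝ (Vec d)) (r t : ℝ) (hr : 0 < r) (ht : 0 < t)
    (ht1 : t ≤ 1) :
    volume {u : Vec d | ‖u‖ ≤ r ∧ Metric.infDist u (L : Set (Vec d)) ≤ t * r}
      ≤ ENNReal.ofReal (t ^ (d - Module.finrank ℝ L)) * volume (Metric.closedBall (0 : Vec d) (2 * r)) := by
  have hc : IsCompl L Lᗮ := L.isCompl_orthogonal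
  set e := Submodule.prodEquivOfIsCompl L Lᗮ hc with he
  set T : Vec d →ₗ[ℝ] Vec d :=
    (e : (L × Lᗮ) →ₗ[ℝ] Vec d) ∘ₗ
      (LinearMap.prodMap (LinearMap.id : L →ₗ[ℝ] L) (t • (LinearMap.id : Lᗮ →ₗ[ℝ] Lᗮ))) ∘ₗ
        (e.symm : Vec d →ₗ[ℝ] (L × Lᗮ)) with hT
  have hdet : LinearMap.det T = t ^ (d - Module.finrank ℝ L) := by
    rw [hT, LinearMap.det_conj, LinearMap.det_prodMap, LinearMap.det_id, one_mul,
      LinearMap.det_smul, LinearMap.det_id, mul_one]
    congr 1
    have h1 : Module.finrank ℝ L + Module.finrank ℝ Lᗮ = Module.finrank ℝ (Vec d) :=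
      Submodule.finrank_add_finrank_orthogonal L
    rw [finrank_euclideanSpace_fin] at h1
    omega
  have hsub : {u : Vec d | ‖u‖ ≤ r ∧ Metric.infDist u (L : Set (Vec d)) ≤ t * r} ⊆
      T '' Metric.closedBall (0 : Vec d) (2 * r) := by
    rintro u ⟨hu1, hu2⟩
    set a : Vec d := L.starProjection u with ha
    have haL : a ∈ L := by rw [ha]; exact L.starProjection_apply_mem u
    have hbL : u - a ∈ Lᗮ := by rw [ha]; exact L.sub_starProjection_mem_orthogonal u
    have hb : ‖u - a‖ ≤ t * r := by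
      refine le_trans ?_ hu2
      rw [Metric.le_infDist ⟨0, L.zero_mem⟩]
      intro y hy
      rw [dist_eq_norm, ha, L.starProjection_minimal u]
      exact ciInf_le (f := fun x : L => ‖u - x‖) ⟨0, by rintro _ ⟨x, rfl⟩; exact norm_nonneg _⟩
        ⟨y, hy⟩
    have horth : ∀ c : ℝ, inner ℝ a (c • (u - a)) = 0 := fun c => by
      rw [inner_smul_right, Submodule.inner_right_of_mem_orthogonal haL hbL, mul_zero]
    have hna : ‖a‖ ≤ r := by
      have h1 : ‖u‖ ^ 2 = ‖a‖ ^ 2 + ‖u - a‖ ^ 2 := by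
        have h2 : u = a + (1 : ℝ) • (u - a) := by rw [one_smul]; abel
        have h3 := norm_add_sq_real a ((1 : ℝ) • (u - a))
        rw [horth, ← h2, one_smul] at h3
        linarith
      have h2 : ‖a‖ ^ 2 ≤ ‖u‖ ^ 2 := by rw [h1]; linarith [sq_nonneg ‖u - a‖]
      exact (abs_le_of_sq_le_sq' h2 (norm_nonneg _)).2.trans hu1
    refine ⟨a + t⁻¹ • (u - a), ?_, ?_⟩
    · rw [mem_closedBall_zero_iff]
      refine (norm_add_le _ _).trans ?_
      rw [norm_smul, norm_inv, Real.norm_eq_abs, abs_of_pos ht]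
      have h1 : t⁻¹ * ‖u - a‖ ≤ r := by
        rw [inv_mul_le_iff₀ ht]
        exact hb
      linarith
    · have h1 : e (⟨a, haL⟩, ⟨t⁻¹ • (u - a), Lᗮ.smul_mem _ hbL⟩) = a + t⁻¹ • (u - a) := by
        rw [he, Submodule.coe_prodEquivOfIsCompl']
      have h2 : e.symm (a + t⁻¹ • (u - a)) = (⟨a, haL⟩, ⟨t⁻¹ • (u - a), Lᗮ.smul_mem _ hbL⟩) := by
        rw [← h1, LinearEquiv.symm_apply_apply]
      rw [hT, LinearMap.comp_apply, LinearMap.comp_apply, LinearEquiv.coe_coe,
        LinearEquiv.coe_coe, h2, LinearMap.prodMap_apply, he, Submodule.coe_prodEquivOfIsCompl']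
      simp only [LinearMap.id_coe, id_eq, LinearMap.smul_apply, Submodule.coe_smul]
      rw [smul_smul, mul_inv_cancel₀ ht.ne', one_smul]
      abel
  refine (measure_mono hsub).trans ?_
  rw [Measure.addHaar_image_linearMap, hdet, abs_of_nonneg (by positivity)]

theorem toSphere_univ_ne_zero {d : ℕ} (hd : 1 ≤ d) :
    (volume : Measure (Vec d)).toSphere Set.univ ≠ 0 := by
  have : Nontrivial (Vec d) := by
    have : Nonempty (Fin d) := ⟨⟨0, hd⟩⟩
    infer_instance
  rw [Measure.measure_univ_ne_zero]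
  exact Measure.toSphere_ne_zero volume

theorem isProbabilityMeasure_sphU {d : ℕ} (hd : 1 ≤ d) : IsProbabilityMeasure (sphU d) := by
  constructor
  rw [sphU, Measure.map_apply measurable_subtype_coe MeasurableSet.univ, Set.preimage_univ,
    Measure.smul_apply, smul_eq_mul]
  exact ENNReal.inv_mul_cancel (toSphere_univ_ne_zero hd) (measure_ne_top _ _)

theorem sphU_norm {d : ℕ} : ∀ᵐ s ∂(sphU d), ‖s‖ = 1 := by
  rw [sphU, ae_map_iff measurable_subtype_coe.aemeasurable
    (measurableSet_eq_fun measurable_norm measurable_const)]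
  exact ae_of_all _ fun s => by simp

theorem sphU_diam_aux {d : ℕ} (hd : 1 ≤ d) (z : Vec d) (hz : ‖z‖ = 1) (t : ℝ) (ht : 0 < t)
    (ht1 : t ≤ 1) (C : Set (Vec d)) (hC : MeasurableSet C)
    (hC1 : ∀ u ∈ C, ‖u‖ = 1 ∧ ‖u - z‖ ≤ t) :
    sphU d C ≤ ENNReal.ofReal (2 ^ d * t ^ (d - 1)) := by
  have hCm : MeasurableSet ((Subtype.val : Metric.sphere (0 : Vec d) 1 → Vec d) ⁻¹' C) :=
    measurable_subtype_coe hC
  rw [sphU, Measure.map_apply measurable_subtype_coe hC, Measure.smul_apply, smul_eq_mul,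
    Measure.toSphere_apply_univ, Measure.toSphere_apply' _ hCm, finrank_euclideanSpace_fin]
  have hfin : Module.finrank ℝ (Submodule.span ℝ ({z} : Set (Vec d))) = 1 :=
    finrank_span_singleton (by intro h; rw [h, norm_zero] at hz; exact zero_ne_one hz)
  have hsub : Set.Ioo (0 : ℝ) 1 • ((Subtype.val : Metric.sphere (0 : Vec d) 1 → Vec d) ''
      ((Subtype.val : Metric.sphere (0 : Vec d) 1 → Vec d) ⁻¹' C)) ⊆
      {u : Vec d | ‖u‖ ≤ 1 ∧
        Metric.infDist u (Submodule.span ℝ ({z} : Set (Vec d)) : Set (Vec d)) ≤ t * 1} := by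
    rintro _ ⟨τ, hτ, _, ⟨s, hs, rfl⟩, rfl⟩
    obtain ⟨h1, h2⟩ := hC1 _ hs
    simp only [smul_eq_mul]
    refine ⟨?_, ?_⟩
    · show ‖τ • (s : Vec d)‖ ≤ 1
      rw [norm_smul, h1, mul_one, Real.norm_eq_abs, abs_of_pos hτ.1]
      exact hτ.2.le
    · show Metric.infDist (τ • (s : Vec d)) _ ≤ t * 1
      refine (Metric.infDist_le_dist_of_mem (y := τ • z)
        (Submodule.smul_mem _ _ (Submodule.mem_span_singleton_self z))).trans ?_
      rw [dist_eq_norm, ← smul_sub, norm_smul, Real.norm_eq_abs, abs_of_pos hτ.1, mul_one]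
      calc τ * ‖(s : Vec d) - z‖ ≤ 1 * t :=
            mul_le_mul hτ.2.le h2 (norm_nonneg _) zero_le_one
        _ = t := one_mul t
  have hvol := (measure_mono hsub).trans
    (volume_tube (Submodule.span ℝ ({z} : Set (Vec d))) 1 t one_pos ht ht1)
  rw [hfin] at hvol
  have hball : volume (Metric.closedBall (0 : Vec d) (2 * 1)) =
      ENNReal.ofReal (2 ^ d) * volume (Metric.ball (0 : Vec d) 1) := by
    have : Nontrivial (Vec d) := by
      have : Nonempty (Fin d) := ⟨⟨0, hd⟩⟩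
      infer_instance
    rw [Measure.addHaar_closedBall_mul volume (0 : Vec d) (by norm_num : (0 : ℝ) ≤ 2) zero_le_one,
      finrank_euclideanSpace_fin, Measure.addHaar_closedBall_eq_addHaar_ball]
  rw [hball] at hvol
  have hV0 : volume (Metric.ball (0 : Vec d) 1) ≠ 0 :=
    (Metric.measure_ball_pos volume _ one_pos).ne'
  have hVt : volume (Metric.ball (0 : Vec d) 1) ≠ ⊤ := measure_ball_lt_top.ne
  have hd0 : (d : ENNReal) ≠ 0 := by
    simp only [ne_eq, Nat.cast_eq_zero]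
    omega
  have hdt : (d : ENNReal) ≠ ⊤ := ENNReal.natCast_ne_top d
  calc ((d : ENNReal) * volume (Metric.ball (0 : Vec d) 1))⁻¹ *
        ((d : ENNReal) * volume (Set.Ioo (0 : ℝ) 1 •
          ((Subtype.val : Metric.sphere (0 : Vec d) 1 → Vec d) ''
            ((Subtype.val : Metric.sphere (0 : Vec d) 1 → Vec d) ⁻¹' C))))
      ≤ ((d : ENNReal) * volume (Metric.ball (0 : Vec d) 1))⁻¹ *
        ((d : ENNReal) * (ENNReal.ofReal (t ^ (d - 1)) *
          (ENNReal.ofReal (2 ^ d) * volume (Metric.ball (0 : Vec d) 1)))) := by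
        gcongr
    _ = (((d : ENNReal) * volume (Metric.ball (0 : Vec d) 1))⁻¹ *
        ((d : ENNReal) * volume (Metric.ball (0 : Vec d) 1))) *
          (ENNReal.ofReal (2 ^ d) * ENNReal.ofReal (t ^ (d - 1))) := by ring
    _ = ENNReal.ofReal (2 ^ d) * ENNReal.ofReal (t ^ (d - 1)) := by
        rw [ENNReal.inv_mul_cancel (mul_ne_zero hd0 hV0) (ENNReal.mul_ne_top hdt hVt), one_mul]
    _ = ENNReal.ofReal (2 ^ d * t ^ (d - 1)) := by
        rw [ENNReal.ofReal_mul (by positivity)]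

theorem sphU_diam_pos {d : ℕ} (hd : 1 ≤ d) (A : Set (Vec d)) (t : ℝ) (ht : 0 < t)
    (hA : ∀ u ∈ A, ∀ v ∈ A, ‖u - v‖ ≤ t) :
    sphU d A ≤ ENNReal.ofReal (2 ^ d * t ^ (d - 1)) := by
  have := isProbabilityMeasure_sphU hd
  rcases le_total t 1 with ht1 | ht1
  · have hae : sphU d A ≤ sphU d (A ∩ {s | ‖s‖ = 1}) := by
      have h0 : sphU d {s | ‖s‖ = 1}ᶜ = 0 := by
        have := (sphU_norm (d := d))
        rw [ae_iff] at this
        exact this
      calc sphU d A ≤ sphU d ((A ∩ {s | ‖s‖ = 1}) ∪ {s | ‖s‖ = 1}ᶜ) := by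
            refine measure_mono fun x hx => ?_
            by_cases h : ‖x‖ = 1
            · exact Or.inl ⟨hx, h⟩
            · exact Or.inr h
        _ ≤ sphU d (A ∩ {s | ‖s‖ = 1}) + sphU d {s | ‖s‖ = 1}ᶜ := measure_union_le _ _
        _ = _ := by rw [h0, add_zero]
    refine hae.trans ?_
    rcases Set.eq_empty_or_nonempty (A ∩ {s : Vec d | ‖s‖ = 1}) with h | ⟨z, hzA, hz⟩
    · rw [h, measure_empty]
      exact zero_le
    · refine le_trans (measure_mono ?_) (sphU_diam_aux hd z hz t ht ht1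
        (Metric.closedBall z t ∩ {s | ‖s‖ = 1})
        (measurableSet_closedBall.inter (measurableSet_eq_fun measurable_norm measurable_const))
        (fun u hu => ⟨hu.2, by rw [← dist_eq_norm]; exact hu.1⟩))
      rintro x ⟨hx, hx1⟩
      exact ⟨by rw [Metric.mem_closedBall, dist_eq_norm]; exact hA x hx z hzA, hx1⟩
  · refine prob_le_one.trans ?_
    rw [← ENNReal.ofReal_one]
    refine ENNReal.ofReal_le_ofReal ?_
    have h1 : (1 : ℝ) ≤ 2 ^ d := one_le_pow₀ (by norm_num)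
    have h2 : (1 : ℝ) ≤ t ^ (d - 1) := one_le_pow₀ ht1
    nlinarith

/-- Small-ball bound for the uniform measure on the sphere. -/
theorem sphU_diam {d : ℕ} (hd : 1 ≤ d) (A : Set (Vec d)) (t : ℝ) (ht : 0 ≤ t)
    (hA : ∀ u ∈ A, ∀ v ∈ A, ‖u - v‖ ≤ t) :
    sphU d A ≤ ENNReal.ofReal (2 ^ d * t ^ (d - 1)) := by
  rcases ht.lt_or_eq with ht0 | ht0
  · exact sphU_diam_pos hd A t ht0 hA
  · have hcont : Filter.Tendsto (fun s : ℝ => ENNReal.ofReal (2 ^ d * s ^ (d - 1)))
        (nhdsWithin t (Set.Ioi t)) (nhds (ENNReal.ofReal (2 ^ d * t ^ (d - 1)))) := by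
      have h1 : Continuous fun s : ℝ => ENNReal.ofReal (2 ^ d * s ^ (d - 1)) :=
        ENNReal.continuous_ofReal.comp (by fun_prop)
      exact (h1.tendsto t).mono_left nhdsWithin_le_nhds
    refine ge_of_tendsto hcont ?_
    filter_upwards [self_mem_nhdsWithin] with s hs
    exact sphU_diam_pos hd A s (lt_of_le_of_lt ht hs) fun u hu v hv => (hA u hu v hv).trans
      (le_of_lt hs)

end Vale.Agent.P309
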