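import Vale.Agent.Lib.P309.Quantised

/-! P309: analysis of the quantised Kaczmarz learner. -/

open MeasureTheory ProbabilityTheory

namespace Vale.Agent.P309

section

variable {d : ℕ}

/-- The update of the quantised learner. -/
noncomputable def upd (b : ℕ) (s : Sph d) (q : Fin d → Fin (2 ^ b))
    (x : EuclideanSpace ℝ (Fin d)) : (Fin d → Fin (2 ^ b)) × ℕ :=
  (encv b (kz (decv b q) x (inner ℝ x (s : EuclideanSpace ℝ (Fin d)))), 0)

theorem measurable_upd (b : ℕ) (s : Sph d) (q : Fin d → Fin (2 ^ b)) :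
    Measurable (upd b s q) := by
  unfold upd
  refine Measurable.prodMk ((measurable_encv b).comp ?_) measurable_const
  unfold kz
  fun_prop

theorem kl_next_eq (b : ℕ) (e s : Sph d) (t : ℕ) (q : Fin d → Fin (2 ^ b)) :
    (kLearner b e).next s t (q, 0)
      = (stdGaussian (EuclideanSpace ℝ (Fin d))).map (upd b s q) := by
  unfold Learner.next
  rw [if_pos rfl, ← Measure.bind_dirac_eq_map _ (measurable_upd b s q)]
  congr 1
  funext x
  simp only [kLearner, Kernel.deterministic_apply]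
  rw [Measure.map_dirac' (by exact Measurable.of_discrete)]
  rfl

theorem kl_law_succ (b : ℕ) (e s : Sph d) (t : ℕ)
    (h0 : ∀ᵐ z ∂((kLearner b e).law s t), z.2 = 0)
    (φ : (Fin d → Fin (2 ^ b)) × ℕ → ENNReal) :
    ∫⁻ z, φ z ∂((kLearner b e).law s (t + 1))
      = ∫⁻ z, ∫⁻ x, φ (upd b s z.1 x) ∂(stdGaussian (EuclideanSpace ℝ (Fin d)))
        ∂((kLearner b e).law s t) := by
  have hφ : Measurable φ := Measurable.of_discrete
  rw [Learner.law, Measure.lintegral_bind (Measurable.of_discrete).aemeasurable hφ.aemeasurable]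
  apply lintegral_congr_ae
  filter_upwards [h0] with z hz
  have : z = (z.1, 0) := by ext <;> simp [hz]
  rw [this, kl_next_eq, lintegral_map hφ (measurable_upd b s z.1)]

theorem kl_law_stop (b : ℕ) (e s : Sph d) (t : ℕ) :
    ∀ᵐ z ∂((kLearner b e).law s t), z.2 = 0 := by
  induction t with
  | zero =>
    unfold Learner.law kLearner
    rw [Measure.map_dirac' Measurable.of_discrete]
    exact (ae_dirac_iff (MeasurableSet.of_discrete)).mpr rfl
  | succ t ih =>
    have h := kl_law_succ b e s t ih (Set.indicator {z | z.2 ≠ 0} 1)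
    rw [lintegral_indicator_one MeasurableSet.of_discrete] at h
    rw [ae_iff]
    refine h.trans ?_
    simp [upd]

instance kl_law_prob (b : ℕ) (e s : Sph d) (t : ℕ) :
    IsProbabilityMeasure ((kLearner b e).law s t) := by
  induction t with
  | zero =>
    unfold Learner.law kLearner
    rw [Measure.map_dirac' Measurable.of_discrete]
    infer_instance
  | succ t ih =>
    constructor
    have h := kl_law_succ b e s t (kl_law_stop b e s t) 1
    simpa using h

/-- Mean error of the quantised learner. -/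
theorem kl_mean_err (hd : 1 ≤ d) (b : ℕ) (e s : Sph d) (t : ℕ) :
    ∫⁻ z, ENNReal.ofReal ‖decv b z.1 - s‖ ∂((kLearner b e).law s t)
      ≤ ENNReal.ofReal ((1 - 1 / (2 * d)) ^ t * (1 + 2 / 2 ^ b * Real.sqrt d)
        + 2 * d * (2 / 2 ^ b * Real.sqrt d)) := by
  have hs : ‖(s : EuclideanSpace ℝ (Fin d))‖ = 1 := mem_sphere_zero_iff_norm.mp s.2
  have hdr : (1 : ℝ) ≤ d := by exact_mod_cast hd
  set δ := 2 / 2 ^ b * Real.sqrt d with hδ
  have hδ0 : 0 ≤ δ := by positivity
  set r : ℝ := 1 - 1 / (2 * d) with hr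
  have hr0 : 0 ≤ r := by
    rw [hr, sub_nonneg, div_le_one (by positivity)]
    linarith
  induction t with
  | zero =>
    unfold Learner.law kLearner
    rw [Measure.map_dirac' Measurable.of_discrete, lintegral_dirac' _ Measurable.of_discrete]
    apply ENNReal.ofReal_le_ofReal
    have h1 := norm_decv_encv b 0 (s : EuclideanSpace ℝ (Fin d)) hs.le
    rw [zero_sub, norm_neg, hs] at h1
    rw [pow_zero, one_mul]
    have : 0 ≤ 2 * (d : ℝ) * δ := by positivity
    linarith
  | succ t ih =>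
    rw [kl_law_succ b e s t (kl_law_stop b e s t)
      (fun z => ENNReal.ofReal ‖decv b z.1 - s‖)]
    have h1 : ∀ z : (Fin d → Fin (2 ^ b)) × ℕ,
        ∫⁻ x, ENNReal.ofReal ‖decv b (upd b s z.1 x).1 - s‖
          ∂(stdGaussian (EuclideanSpace ℝ (Fin d)))
        ≤ ENNReal.ofReal r * ENNReal.ofReal ‖decv b z.1 - s‖ + ENNReal.ofReal δ := by
      intro z
      calc ∫⁻ x, ENNReal.ofReal ‖decv b (upd b s z.1 x).1 - s‖
            ∂(stdGaussian (EuclideanSpace ℝ (Fin d)))
          ≤ ∫⁻ x, (ENNReal.ofReal ‖kz (decv b z.1) x (inner ℝ x (s : EuclideanSpace ℝ (Fin d))) - s‖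
            + ENNReal.ofReal δ) ∂(stdGaussian (EuclideanSpace ℝ (Fin d))) := by
            apply lintegral_mono
            intro x
            simp only
            rw [← ENNReal.ofReal_add (norm_nonneg _) hδ0]
            exact ENNReal.ofReal_le_ofReal (norm_decv_encv b _ _ hs.le)
        _ = ∫⁻ x, ENNReal.ofReal ‖kz (decv b z.1) x (inner ℝ x (s : EuclideanSpace ℝ (Fin d))) - s‖
              ∂(stdGaussian (EuclideanSpace ℝ (Fin d))) + ENNReal.ofReal δ := by
            rw [lintegral_add_right _ measurable_const]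
            simp
        _ ≤ ENNReal.ofReal r * ENNReal.ofReal ‖decv b z.1 - s‖ + ENNReal.ofReal δ := by
            rw [← ENNReal.ofReal_mul hr0]
            gcongr
            exact integral_kz_le hd _ _
    calc ∫⁻ z, ∫⁻ x, ENNReal.ofReal ‖decv b (upd b s z.1 x).1 - s‖
          ∂(stdGaussian (EuclideanSpace ℝ (Fin d))) ∂((kLearner b e).law s t)
        ≤ ∫⁻ z, (ENNReal.ofReal r * ENNReal.ofReal ‖decv b z.1 - s‖ + ENNReal.ofReal δ)
          ∂((kLearner b e).law s t) := lintegral_mono h1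
      _ = ENNReal.ofReal r * ∫⁻ z, ENNReal.ofReal ‖decv b z.1 - s‖ ∂((kLearner b e).law s t)
          + ENNReal.ofReal δ := by
          rw [lintegral_add_right _ measurable_const, lintegral_const_mul _ Measurable.of_discrete]
          simp
      _ ≤ ENNReal.ofReal r * ENNReal.ofReal (r ^ t * (1 + δ) + 2 * d * δ) + ENNReal.ofReal δ := by
          gcongr
      _ = ENNReal.ofReal (r ^ (t + 1) * (1 + δ) + 2 * d * δ) := by
          rw [← ENNReal.ofReal_mul hr0, ← ENNReal.ofReal_add (by positivity) hδ0]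
          congr 1
          have h2 : r * (2 * d * δ) = 2 * d * δ - δ := by
            rw [hr]; field_simp
          rw [pow_succ]
          linarith

theorem arccos_toSph_le (e s : Sph d) (z : EuclideanSpace ℝ (Fin d)) (ε : ℝ) (hε : 0 < ε)
    (hε1 : ε ≤ 1) (h : ‖z - s‖ ≤ ε / 4) :
    Real.arccos (inner ℝ (toSph e z : EuclideanSpace ℝ (Fin d)) s) ≤ ε := by
  have hs : ‖(s : EuclideanSpace ℝ (Fin d))‖ = 1 := mem_sphere_zero_iff_norm.mp s.2
  have hz0 : z ≠ 0 := by
    rintro rfl
    rw [zero_sub, norm_neg, hs] at h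
    linarith
  have hzn : ‖z‖ ≠ 0 := norm_ne_zero_iff.mpr hz0
  set w : EuclideanSpace ℝ (Fin d) := (toSph e z : EuclideanSpace ℝ (Fin d)) with hw
  have hwn : ‖w‖ = 1 := mem_sphere_zero_iff_norm.mp (toSph e z).2
  have hwz : w = (1 / ‖z‖) • z := by
    rw [hw]; unfold toSph; rw [dif_neg hz0]
  have h1 : ‖w - z‖ ≤ ε / 4 := by
    have h2 : w - z = (1 / ‖z‖ - 1) • z := by rw [hwz, sub_smul, one_smul]
    rw [h2, norm_smul, Real.norm_eq_abs]
    have h3 : |1 / ‖z‖ - 1| * ‖z‖ = |1 - ‖z‖| := by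
      have h4 : |‖z‖| = ‖z‖ := abs_of_nonneg (norm_nonneg z)
      nth_rewrite 2 [← h4]
      rw [← abs_mul]
      congr 1
      field_simp
    rw [h3, ← hs, abs_sub_comm]
    exact (abs_norm_sub_norm_le z s).trans h
  have h5 : ‖w - s‖ ≤ ε / 2 := by
    calc ‖w - s‖ = ‖(w - z) + (z - s)‖ := by congr 1; abel
      _ ≤ ‖w - z‖ + ‖z - s‖ := norm_add_le _ _
      _ ≤ ε / 2 := by linarith
  have h6 : inner ℝ w (s : EuclideanSpace ℝ (Fin d)) = 1 - ‖w - s‖ ^ 2 / 2 := by
    rw [norm_sub_sq_real, hwn, hs]; ring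
  have h7 : Real.cos ε ≤ inner ℝ w (s : EuclideanSpace ℝ (Fin d)) := by
    rw [h6]
    have h8 := Real.cos_bound (x := ε) (by rw [abs_of_pos hε]; exact hε1)
    rw [abs_le] at h8
    have h9 := h8.2
    rw [abs_of_pos hε] at h9
    have h10 : ‖w - s‖ ^ 2 ≤ (ε / 2) ^ 2 := by gcongr
    have h11 : ε ^ 4 ≤ ε ^ 2 := pow_le_pow_of_le_one hε.le hε1 (by norm_num)
    nlinarith [sq_nonneg ε]
  calc Real.arccos (inner ℝ w (s : EuclideanSpace ℝ (Fin d)))
      ≤ Real.arccos (Real.cos ε) := Real.arccos_le_arccos h7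
    _ = ε := Real.arccos_cos hε.le (by linarith [Real.pi_gt_three])

/-- The quantised Kaczmarz learner succeeds. -/
theorem kLearner_success (hd : 1 ≤ d) (e : Sph d) (ε : ℝ) (hε : 0 < ε) (hε1 : ε ≤ 1) (b T : ℕ)
    (hb : 96 * (d : ℝ) ^ 2 / ε ≤ 2 ^ b) (hT : 2 * d * Real.log (48 / ε) ≤ T)
    (hμ : IsProbabilityMeasure (unifSphere d)) :
    ENNReal.ofReal (2 / 3) ≤ (kLearner b e).successProb T ε := by
  have hdr : (1 : ℝ) ≤ d := by exact_mod_cast hd
  set δ := 2 / 2 ^ b * Real.sqrt d with hδ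
  have hδ0 : 0 ≤ δ := by positivity
  have hsq : Real.sqrt d ≤ d := by
    rw [Real.sqrt_le_left (by positivity)]
    nlinarith
  have h2b : (0 : ℝ) < 2 ^ b := by positivity
  have hδ1 : 2 * d * δ ≤ ε / 24 := by
    rw [div_le_iff₀ hε] at hb
    have h1 : 2 * (d : ℝ) * δ = 4 * d * Real.sqrt d / 2 ^ b := by
      rw [hδ]; field_simp; ring
    rw [h1, div_le_iff₀ h2b]
    have h2 : 4 * (d : ℝ) * Real.sqrt d ≤ 4 * d * d := by gcongr
    nlinarith
  have hδ2 : δ ≤ 1 := by
    have : δ ≤ 2 * d * δ := by nlinarith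
    linarith
  have hr : (1 - 1 / (2 * (d : ℝ))) ^ T ≤ ε / 48 := by
    have h1 : 1 - 1 / (2 * (d : ℝ)) ≤ Real.exp (-(1 / (2 * d))) := by
      have := Real.add_one_le_exp (-(1 / (2 * (d : ℝ))))
      linarith
    have h0 : 0 ≤ 1 - 1 / (2 * (d : ℝ)) := by
      rw [sub_nonneg, div_le_one (by positivity)]
      linarith
    calc (1 - 1 / (2 * (d : ℝ))) ^ T ≤ (Real.exp (-(1 / (2 * d)))) ^ T := by gcongr
      _ = Real.exp (-(T / (2 * d))) := by
          rw [← Real.exp_nat_mul]; congr 1; ring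
      _ ≤ Real.exp (-(Real.log (48 / ε))) := by
          apply Real.exp_le_exp.mpr
          rw [neg_le_neg_iff, le_div_iff₀ (by positivity)]
          linarith
      _ = ε / 48 := by
          rw [Real.exp_neg, Real.exp_log (by positivity), inv_div]
  have hmain : ∀ s : Sph d, ENNReal.ofReal (2 / 3) ≤ (kLearner b e).output T s
      {w | Real.arccos (inner ℝ (w : EuclideanSpace ℝ (Fin d)) s) ≤ ε} := by
    intro s
    have hmeas : MeasurableSet {w : Sph d |
        Real.arccos (inner ℝ (w : EuclideanSpace ℝ (Fin d)) (s : EuclideanSpace ℝ (Fin d))) ≤ ε} := by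
      apply measurableSet_le _ measurable_const
      apply Real.continuous_arccos.measurable.comp
      fun_prop
    unfold Learner.output
    rw [Measure.bind_apply hmeas (Measurable.of_discrete).aemeasurable]
    have hE := kl_mean_err hd b e s T
    have hE2 : ∫⁻ z, ENNReal.ofReal ‖decv b z.1 - s‖ ∂((kLearner b e).law s T)
        ≤ ENNReal.ofReal (ε / 12) := by
      refine hE.trans (ENNReal.ofReal_le_ofReal ?_)
      have h1 : (1 - 1 / (2 * (d : ℝ))) ^ T * (1 + δ) ≤ ε / 48 * (1 + 1) := by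
        gcongr
      linarith
    -- Markov
    set B : Set ((Fin d → Fin (2 ^ b)) × ℕ) :=
      {z | ENNReal.ofReal (ε / 4) ≤ ENNReal.ofReal ‖decv b z.1 - s‖} with hB
    have hMarkov : (kLearner b e).law s T B ≤ ENNReal.ofReal (1 / 3) := by
      have h1 := mul_meas_ge_le_lintegral (μ := (kLearner b e).law s T)
        (f := fun z => ENNReal.ofReal ‖decv b z.1 - s‖) Measurable.of_discrete
        (ENNReal.ofReal (ε / 4))
      have h2 := h1.trans hE2
      have h3 : ENNReal.ofReal (ε / 12) = ENNReal.ofReal (ε / 4) * ENNReal.ofReal (1 / 3) := by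
        rw [← ENNReal.ofReal_mul (by positivity)]
        congr 1; ring
      rw [h3] at h2
      exact (ENNReal.mul_le_mul_iff_right (by simpa using hε) ENNReal.ofReal_ne_top).mp h2
    have hcompl : ENNReal.ofReal (2 / 3) ≤ (kLearner b e).law s T Bᶜ := by
      rw [prob_compl_eq_one_sub MeasurableSet.of_discrete]
      have h1 : ENNReal.ofReal (2 / 3) = 1 - ENNReal.ofReal (1 / 3) := by
        rw [← ENNReal.ofReal_one, ← ENNReal.ofReal_sub _ (by norm_num)]
        norm_num
      rw [h1]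
      exact tsub_le_tsub_left hMarkov 1
    refine hcompl.trans ?_
    rw [← lintegral_indicator_one (MeasurableSet.of_discrete : MeasurableSet Bᶜ)]
    apply lintegral_mono
    intro z
    by_cases hz : z ∈ Bᶜ
    · rw [Set.indicator_of_mem hz]
      simp only [kLearner, Kernel.deterministic_apply, Pi.one_apply]
      rw [Measure.dirac_apply' _ hmeas, Set.indicator_of_mem]
      · simp
      · apply arccos_toSph_le e s _ ε hε hε1
        have h1 : ¬ (ENNReal.ofReal (ε / 4) ≤ ENNReal.ofReal ‖decv b z.1 - s‖) := hz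
        rw [not_le] at h1
        exact ((ENNReal.ofReal_lt_ofReal_iff (by positivity)).mp h1).le
    · rw [Set.indicator_of_notMem hz]
      exact zero_le
  unfold Learner.successProb
  calc ENNReal.ofReal (2 / 3) = ∫⁻ _s : Sph d, ENNReal.ofReal (2 / 3) ∂(unifSphere d) := by
        rw [lintegral_const, measure_univ, mul_one]
    _ ≤ _ := lintegral_mono hmain

end

end Vale.Agent.P309
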